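import Vale.Agent.P147.Bal.Defs

/-!
# Weights of prefixes: multiplicativity, prefix-free sums, splittings
-/

open MeasureTheory Set Filter Topology
open scoped ENNReal

namespace Vale.Agent.P147.Bal

open Vale.Agent.P147.Proj (dsp verts wt trail iid)

variable {d : ℕ} {e : Step d} {μ : Measure (Row d)}

lemma measurable_pq (a : Step d) : Measurable fun q : Row d => pq q a :=
  ((measurable_pi_apply a).comp measurable_subtype_coe).ennreal_ofReal

lemma measurable_pw (x : Site d) (γ : List (Step d)) : Measurable fun ω => pw ω x γ :=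
  Proj.measurable_wt measurable_pq x γ

lemma pw_append (ω : Env d) (x : Site d) (γ δ : List (Step d)) :
    pw ω x (γ ++ δ) = pw ω x γ * pw ω (x + dsp γ) δ := Proj.wt_append _ ω x γ δ

lemma sum_pq (q : Row d) : ∑ a, pq q a = 1 := by
  simp only [pq]
  rw [← ENNReal.ofReal_sum_of_nonneg fun a _ => q.2.1 a, q.2.2, ENNReal.ofReal_one]

/-- The total weight of a prefix-free family is at most one. -/
lemma tsum_pw_le_one (S : Set (List (Step d)))
    (hS : ∀ γ δ, γ ∈ S → γ ++ δ ∈ S → δ = []) (ω : Env d) (x : Site d) :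
    ∑' γ, S.indicator (pw ω x) γ ≤ 1 := by
  rw [Proj.tsum_eq_iSup_short]
  refine iSup_le fun N => ?_
  induction N generalizing x S with
  | zero => simp [Proj.short]
  | succ N ih =>
      rw [Proj.sum_short_succ]
      by_cases h0 : [] ∈ S
      · have h1 : ∀ γ, γ ∈ S → γ = [] := fun γ hγ => hS [] γ h0 hγ
        have h2 : ∀ a : Step d, ∀ γ ∈ Proj.short N, S.indicator (pw ω x) (a :: γ) = 0 :=
          fun a γ _ => indicator_of_notMem (fun hm => by simpa using h1 _ hm) _
        rw [Finset.sum_eq_zero fun a _ => Finset.sum_eq_zero (h2 a)]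
        simp [indicator_of_mem h0, pw, Proj.wt]
      · rw [indicator_of_notMem h0, zero_add]
        calc ∑ a, ∑ γ ∈ Proj.short N, S.indicator (pw ω x) (a :: γ)
            = ∑ a, pq (ω x) a *
                ∑ γ ∈ Proj.short N, {δ | a :: δ ∈ S}.indicator (pw ω (x + vec a)) γ := by
              refine Finset.sum_congr rfl fun a _ => ?_
              rw [Finset.mul_sum]
              refine Finset.sum_congr rfl fun γ _ => ?_
              by_cases h : a :: γ ∈ S
              · rw [indicator_of_mem h, indicator_of_mem (s := {δ | a :: δ ∈ S}) h]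
                rfl
              · rw [indicator_of_notMem h, indicator_of_notMem (s := {δ | a :: δ ∈ S}) h, mul_zero]
          _ ≤ ∑ a, pq (ω x) a * 1 := by
              gcongr with a
              exact ih {δ | a :: δ ∈ S} (fun γ δ h1 h2 => hS (a :: γ) δ h1 h2) _
          _ = 1 := by simp [sum_pq]

lemma verts_append (x : Site d) (γ δ : List (Step d)) :
    verts x (γ ++ δ) = verts x γ ++ verts (x + dsp γ) δ := by
  induction γ generalizing x with
  | nil => simp [verts]
  | cons a γ ih => simp [verts, ih, add_assoc]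

lemma self_mem_verts (x : Site d) {γ : List (Step d)} (h : γ ≠ []) : x ∈ verts x γ := by
  cases γ with
  | nil => exact absurd rfl h
  | cons a γ => simp [verts]

lemma mem_verts_shift {x z v : Site d} {γ : List (Step d)} :
    v ∈ verts (x + z) γ ↔ v - z ∈ verts x γ := by
  rw [Proj.verts_shift]
  simp only [List.mem_map]
  constructor
  · rintro ⟨a, ha, rfl⟩
    simpa using ha
  · exact fun h => ⟨_, h, sub_add_cancel v z⟩

lemma mem_verts_append {v : Site d} {γ δ : List (Step d)} :
    v ∈ verts 0 (γ ++ δ) ↔ v ∈ verts 0 γ ∨ v - dsp γ ∈ verts 0 δ := by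
  rw [verts_append, List.mem_append, mem_verts_shift]

lemma pre_prefix_free {J : ℕ} {γ δ : List (Step d)} (h : Pre e J γ) (h' : Pre e J (γ ++ δ)) :
    δ = [] := by
  by_contra hne
  have hm : dsp γ ∈ verts 0 (γ ++ δ) :=
    mem_verts_append.2 (Or.inr (by simpa using self_mem_verts (0 : Site d) hne))
  have := (h'.1 _ hm).2
  rw [h.2] at this
  omega

/-- The extensions of a step list in a prefix-free family. -/
lemma tsum_ext_le (S : Set (List (Step d))) (hS : ∀ γ δ, γ ∈ S → γ ++ δ ∈ S → δ = [])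
    (ω : Env d) (x : Site d) (η : List (Step d)) :
    ∑' δ, S.indicator (pw ω x) (η ++ δ) ≤ pw ω x η := by
  have e1 : ∀ δ, S.indicator (pw ω x) (η ++ δ)
      = pw ω x η * {δ | η ++ δ ∈ S}.indicator (pw ω (x + dsp η)) δ := by
    intro δ
    by_cases h : η ++ δ ∈ S
    · rw [indicator_of_mem h, indicator_of_mem (s := {δ | η ++ δ ∈ S}) h, pw_append]
    · rw [indicator_of_notMem h, indicator_of_notMem (s := {δ | η ++ δ ∈ S}) h, mul_zero]
  rw [tsum_congr e1, ENNReal.tsum_mul_left]
  refine mul_le_of_le_one_right' (tsum_pw_le_one _ (fun γ δ h1 h2 => hS (η ++ γ) δ h1 ?_) ω _)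
  show η ++ γ ++ δ ∈ S
  rw [List.append_assoc]
  exact h2

lemma pre_nil : Pre e 0 ([] : List (Step d)) := ⟨by simp [verts], by simp⟩

lemma adm_nil : Adm e ([] : List (Step d)) := (pre_nil (e := e)).adm

lemma hgt_nil : hgt e ([] : List (Step d)) = 0 := (pre_nil (e := e)).hgt_eq

lemma pre_zero_iff {γ : List (Step d)} : Pre e 0 γ ↔ γ = [] := by
  refine ⟨fun h => ?_, fun h => h ▸ pre_nil⟩
  by_contra hne
  have := h.1 0 (self_mem_verts 0 hne)
  simp at this

lemma Pre.append {s t : ℕ} {η δ : List (Step d)} (h1 : Pre e t η) (h2 : Pre e s δ) :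
    Pre e (t + s) (η ++ δ) := by
  refine ⟨fun v hv => ?_, by rw [Proj.dsp_append, lev_add, h1.2, h2.2]; push_cast; rfl⟩
  rcases mem_verts_append.1 hv with h | h
  · have := h1.1 v h
    omega
  · have := h2.1 _ h
    rw [lev_sub, h1.2] at this
    omega

lemma Adm.append {η δ : List (Step d)} (h1 : Adm e η) (h2 : Adm e δ) :
    Adm e (η ++ δ) ∧ hgt e (η ++ δ) = hgt e η + hgt e δ :=
  ⟨(Pre.append h1 h2).adm, (Pre.append h1 h2).hgt_eq⟩

lemma exists_climb (γ : List (Step d)) {t : ℤ} :
    ∀ x : Site d, lev e x ≤ t → t ≤ lev e (x + dsp γ) →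
      ∃ η δ, γ = η ++ δ ∧ (∀ v ∈ verts x η, lev e v < t) ∧ lev e (x + dsp η) = t := by
  induction γ with
  | nil => exact fun x h1 h2 => ⟨[], [], rfl, by simp [verts], by simp at h2 ⊢; omega⟩
  | cons a γ ih =>
      intro x h1 h2
      rcases h1.eq_or_lt with h | h
      · exact ⟨[], a :: γ, rfl, by simp [verts], by simpa using h⟩
      obtain ⟨η, δ, rfl, h3, h4⟩ := ih (x + vec a)
        (by have := abs_le.1 (abs_lev_vec_le e a); rw [lev_add]; omega)
        (by simpa [add_assoc] using h2)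
      exact ⟨a :: η, δ, rfl, by simpa [verts] using ⟨h, h3⟩, by simpa [add_assoc] using h4⟩

/-- First arrival at an intermediate level. -/
lemma Pre.exists_split {J t : ℕ} {γ : List (Step d)} (h : Pre e J γ) (ht : t ≤ J) :
    ∃ η δ, γ = η ++ δ ∧ Pre e t η := by
  obtain ⟨η, δ, rfl, h1, h2⟩ := exists_climb γ (t := (t : ℤ)) (0 : Site d) (by simp)
    (by rw [zero_add, h.2]; exact_mod_cast ht)
  exact ⟨η, δ, rfl, fun v hv => ⟨(h.1 v (mem_verts_append.2 (Or.inl hv))).1, h1 v hv⟩,
    by simpa using h2⟩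

lemma Pre.split_unique {t : ℕ} {η η' δ δ' : List (Step d)} (h : η ++ δ = η' ++ δ')
    (h1 : Pre e t η) (h2 : Pre e t η') : η = η' ∧ δ = δ' := by
  rcases List.append_eq_append_iff.1 h with ⟨a, rfl, rfl⟩ | ⟨a, rfl, rfl⟩
  · obtain rfl := pre_prefix_free h1 h2
    simp
  · obtain rfl := pre_prefix_free h2 h1
    simp

/-- Every nonempty prefix has exactly one irreducible head. -/
lemma Adm.exists_head {γ : List (Step d)} (h : Adm e γ) (hne : γ ≠ []) :
    ∃ η δ, γ = η ++ δ ∧ Irr e η ∧ Adm e δ := by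
  induction hl : γ.length using Nat.strong_induction_on generalizing γ with
  | _ k ih =>
      subst hl
      by_cases hirr : Irr e γ
      · exact ⟨γ, [], by simp, hirr, adm_nil⟩
      simp only [Irr, ne_eq, hne, not_false_eq_true, h, true_and, not_forall, not_or] at hirr
      obtain ⟨η, δ, rfl, ha, hb, hη, hδ⟩ := hirr
      obtain ⟨η1, δ1, rfl, hi, hd⟩ := ih η.length (by
        have := List.length_pos_iff.2 hδ
        simp; omega) ha hη rfl
      exact ⟨η1, δ1 ++ δ, by simp, hi, (hd.append hb).1⟩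

lemma head_ext {η ρ δ : List (Step d)} (h1 : Adm e η) (h3 : Adm e (η ++ ρ))
    (h2 : Adm e (ρ ++ δ)) : Adm e ρ := by
  have key : ∀ v ∈ verts 0 ρ,
      0 ≤ lev e v ∧ lev e v < lev e (dsp (η ++ ρ)) - lev e (dsp η) := by
    intro v hv
    have ha := (h2.1 v (mem_verts_append.2 (Or.inl hv))).1
    have hb := (h3.1 (v + dsp η) (mem_verts_append.2 (Or.inr (by simpa using hv)))).2
    rw [← h3.2, lev_add] at hb
    exact ⟨ha, by omega⟩
  have hsub : lev e (dsp (η ++ ρ)) - lev e (dsp η) = lev e (dsp ρ) := by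
    rw [Proj.dsp_append, lev_add]; ring
  have hnn : 0 ≤ lev e (dsp ρ) := by
    by_cases hρ : ρ = []
    · simp [hρ]
    · have := key 0 (self_mem_verts 0 hρ); simp at this; omega
  refine ⟨fun v hv => ?_, by simp [hgt, hnn]⟩
  have := key v hv
  simp only [hgt, Int.toNat_of_nonneg hnn]
  omega

lemma head_unique {η η' δ δ' : List (Step d)} (h : η ++ δ = η' ++ δ') (h1 : Irr e η)
    (h2 : Adm e δ) (h3 : Irr e η') (h4 : Adm e δ') : η = η' ∧ δ = δ' := by
  rcases List.append_eq_append_iff.1 h with ⟨a, rfl, rfl⟩ | ⟨a, rfl, rfl⟩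
  · rcases h3.2.2 η a rfl h1.2.1 (head_ext h1.2.1 h3.2.1 h2) with h | h
    · exact absurd h h1.1
    · simp [h]
  · rcases h1.2.2 η' a rfl h3.2.1 (head_ext h3.2.1 h1.2.1 h4) with h | h
    · exact absurd h h3.1
    · simp [h]

lemma Irr.one_le_hgt {γ : List (Step d)} (h : Irr e γ) : 1 ≤ hgt e γ := by
  by_contra hh
  have h2 : Pre e (hgt e γ) γ := h.2.1
  rw [show hgt e γ = 0 by omega] at h2
  exact h.1 (pre_zero_iff.1 h2)

/-- Sums over nonempty prefixes are sums over an irreducible head and the rest. -/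
lemma tsum_adm_eq (F : List (Step d) → ℝ≥0∞) :
    (open Classical in ∑' γ, if Adm e γ then F γ else 0) = F [] +
      (open Classical in ∑' η, if Irr e η then ∑' δ, if Adm e δ then F (η ++ δ) else 0 else 0) := by
  classical
  have key : (∑' γ, if γ = [] then 0 else (if Adm e γ then F γ else 0))
      = ∑' z : List (Step d) × List (Step d),
          if Irr e z.1 ∧ Adm e z.2 then F (z.1 ++ z.2) else 0 := by
    symm
    refine tsum_eq_tsum_of_ne_zero_bij (fun z => (
      if h : Adm e z.1 ∧ z.1 ≠ [] then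
        ((h.1.exists_head h.2).choose, (h.1.exists_head h.2).choose_spec.choose)
      else ([], []))) ?_ ?_ ?_
    · rintro ⟨γ, hγ⟩ ⟨γ', hγ'⟩ hh
      simp only [Function.mem_support, ne_eq] at hγ hγ'
      have a1 : Adm e γ ∧ γ ≠ [] := by
        by_cases h1 : γ = [] <;> by_cases h2 : Adm e γ <;> simp_all
      have a2 : Adm e γ' ∧ γ' ≠ [] := by
        by_cases h1 : γ' = [] <;> by_cases h2 : Adm e γ' <;> simp_all
      simp only [dif_pos a1, dif_pos a2, Prod.mk.injEq] at hh
      refine Subtype.ext ?_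
      show γ = γ'
      exact (a1.1.exists_head a1.2).choose_spec.choose_spec.1.trans
        ((congrArg₂ (· ++ ·) hh.1 hh.2).trans
          (a2.1.exists_head a2.2).choose_spec.choose_spec.1.symm)
    · rintro ⟨η, δ⟩ hz
      simp only [Function.mem_support, ne_eq, ite_eq_right_iff, not_forall] at hz
      obtain ⟨⟨hη, hδ⟩, hne⟩ := hz
      have a1 : Adm e (η ++ δ) ∧ η ++ δ ≠ [] := ⟨(hη.2.1.append hδ).1, by simp [hη.1]⟩
      refine ⟨⟨η ++ δ, by simpa [Function.mem_support, a1, hη.1] using hne⟩, ?_⟩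
      simp only [dif_pos a1]
      obtain ⟨e0, e1, e2⟩ := (a1.1.exists_head a1.2).choose_spec.choose_spec
      obtain ⟨f1, f2⟩ := head_unique e0 hη hδ e1 e2
      exact Prod.ext f1.symm f2.symm
    · rintro ⟨γ, hγ⟩
      have a1 : Adm e γ ∧ γ ≠ [] := by
        by_cases h1 : γ = [] <;> by_cases h2 : Adm e γ <;> simp_all [Function.mem_support]
      simp only [dif_pos a1]
      obtain ⟨e0, e1, e2⟩ := (a1.1.exists_head a1.2).choose_spec.choose_spec
      rw [if_pos ⟨e1, e2⟩, ← e0]
      simp [a1]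
  rw [ENNReal.tsum_eq_add_tsum_ite ([] : List (Step d)), if_pos (adm_nil (e := e))]
  congr 1
  refine (Eq.trans (tsum_congr fun γ => ?_) key).trans ?_
  · congr 1
  rw [ENNReal.tsum_prod']
  refine tsum_congr fun η => ?_
  by_cases h : Irr e η <;> simp [h]

variable [IsProbabilityMeasure μ]

lemma lintegral_pw (x : Site d) (γ : List (Step d)) : ∫⁻ ω, pw ω x γ ∂iid μ = cw μ γ :=
  Proj.lintegral_wt_shift μ measurable_pq x γ

lemma cw_nil : cw μ ([] : List (Step d)) = 1 := by simp [cw, pw, Proj.wt]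

lemma lintegral_pw_mul_disjoint {x y : Site d} {γ δ : List (Step d)}
    (h : ∀ v ∈ verts x γ, v ∉ verts y δ) :
    ∫⁻ ω, pw ω x γ * pw ω y δ ∂iid μ = cw μ γ * cw μ δ := by
  rw [Proj.lintegral_mul_disjoint μ (f := fun ω => pw ω x γ) (g := fun ω => pw ω y δ)
    (measurable_pw x γ) (measurable_pw y δ) (Proj.depOn_wt pq x γ) (Proj.depOn_wt pq y δ)
    (Finset.disjoint_left.2 fun v hv hv' => h v (List.mem_toFinset.1 hv) (List.mem_toFinset.1 hv')),
    lintegral_pw, lintegral_pw]

lemma cw_append {η δ : List (Step d)} (h1 : Adm e η) (h2 : Adm e δ) :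
    cw μ (η ++ δ) = cw μ η * cw μ δ := by
  have hd : ∀ v ∈ verts 0 η, v ∉ verts (0 + dsp η) δ := by
    intro v hv hv'
    have a := (h1.1 v hv).2
    have b := (h2.1 _ (mem_verts_shift.1 hv')).1
    rw [lev_sub, h1.2] at b
    omega
  rw [← lintegral_pw_mul_disjoint hd, cw]
  exact lintegral_congr fun ω => pw_append ω 0 η δ

lemma cw_ne_zero (hell : ∀ᵐ p ∂μ, ∀ a : Step d, 0 < p.1 a) (γ : List (Step d)) : cw μ γ ≠ 0 := by
  intro h0
  rw [cw, lintegral_eq_zero_iff (measurable_pw 0 γ)] at h0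
  have hall : ∀ᵐ ω ∂iid μ, ∀ x, ∀ a : Step d, 0 < (ω x).1 a := ae_all_iff.2 fun x =>
    (measurePreserving_eval_infinitePi (fun _ : Site d => μ) x).quasiMeasurePreserving.ae hell
  obtain ⟨ω, hω, hω0⟩ := (hall.and h0).exists
  have : ∀ (γ : List (Step d)) x, pw ω x γ ≠ 0 := by
    intro γ
    induction γ with
    | nil => intro x; simp [pw, Proj.wt]
    | cons a γ ih =>
        intro x
        simp only [pw, Proj.wt, ne_eq, mul_eq_zero, not_or]
        exact ⟨by simpa [pq] using hω x a, ih _⟩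
  exact this γ 0 hω0

omit [IsProbabilityMeasure μ] in
lemma tsum_cw_le_lintegral (S : Set (List (Step d))) :
    ∑' γ, S.indicator (cw μ) γ = ∫⁻ ω, ∑' γ, S.indicator (pw ω 0) γ ∂iid μ := by
  rw [lintegral_tsum fun γ => ?_]
  · refine tsum_congr fun γ => ?_
    by_cases h : γ ∈ S <;> simp [h, cw]
  · by_cases h : γ ∈ S
    · simpa [h] using (measurable_pw 0 γ).aemeasurable
    · simpa [h] using aemeasurable_const

omit [IsProbabilityMeasure μ] in
lemma u_eq_indicator (J : ℕ) :
    u μ e J = ∑' γ, {γ | Pre e J γ}.indicator (cw μ) γ := by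
  unfold u
  refine tsum_congr fun γ => ?_
  by_cases h : Pre e J γ <;> simp [Set.indicator, h]

lemma u_le_one (J : ℕ) : u μ e J ≤ 1 := by
  rw [u_eq_indicator, tsum_cw_le_lintegral]
  refine (lintegral_mono fun ω => tsum_pw_le_one _ (fun γ δ (h : Pre e _ γ) (h' : Pre e _ (γ ++ δ)) => pre_prefix_free h h') ω 0).trans ?_
  simp

lemma u_anti (J : ℕ) : u μ e (J + 1) ≤ u μ e J := by
  classical
  rw [u_eq_indicator, u_eq_indicator, tsum_cw_le_lintegral, tsum_cw_le_lintegral]
  refine lintegral_mono fun ω => ?_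
  set S := {γ : List (Step d) | Pre e (J + 1) γ}
  refine (Proj.tsum_le_split _
    (fun z => if Pre e J z.1 then S.indicator (pw ω 0) (z.1 ++ z.2) else 0) fun γ hγ => ?_).trans ?_
  · have hm : γ ∈ S := by
      by_contra h
      exact hγ (indicator_of_notMem h _)
    obtain ⟨η, δ, rfl, hη⟩ := Pre.exists_split (t := J) hm (by omega)
    exact ⟨η, δ, rfl, by simp [hη]⟩
  rw [ENNReal.tsum_prod']
  refine ENNReal.tsum_le_tsum fun η => ?_
  by_cases h : Pre e J η
  · simp only [if_pos h]
    exact (tsum_ext_le S (fun γ δ (h : Pre e _ γ) (h' : Pre e _ (γ ++ δ)) => pre_prefix_free h h') ω 0 η).trans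
      (by simp [Set.indicator, h])
  · simp [if_neg h]

end Vale.Agent.P147.Bal
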