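import Vale.Agent.P147.Proj.Main

/-!
# Ballistic zero-one law: prefixes that stay above their starting level (see DESIGN.md)

Everything is finite combinatorics of step lists: `Pre e J γ` is a path from `0` which stays in the
levels `[0, J)` and ends at level `J`; `Adm` is the union over `J`; `Irr` are the prefixes without
intermediate cut.
-/

open MeasureTheory Set Filter Topology
open scoped ENNReal

namespace Vale.Agent.P147.Bal

open Vale.Agent.P147.Proj (dsp verts wt trail iid)

variable {d : ℕ}

/-- The level of a site along the signed axis `e`. -/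
def lev (e : Step d) (x : Site d) : ℤ := if e.2 then x e.1 else -x e.1

lemma lev_add (e : Step d) (x y : Site d) : lev e (x + y) = lev e x + lev e y := by
  unfold lev; split_ifs <;> simp; ring

@[simp] lemma lev_zero (e : Step d) : lev e (0 : Site d) = 0 := by simp [lev]

lemma lev_neg (e : Step d) (x : Site d) : lev e (-x) = -lev e x := by
  unfold lev; split_ifs <;> simp

lemma lev_sub (e : Step d) (x y : Site d) : lev e (x - y) = lev e x - lev e y := by
  rw [sub_eq_add_neg, lev_add, lev_neg, sub_eq_add_neg]

lemma lev_vec_self (e : Step d) : lev e (vec e) = 1 := by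
  unfold lev vec; split_ifs <;> simp_all

lemma lev_vec_ne (e a : Step d) (h : a.1 ≠ e.1) : lev e (vec a) = 0 := by
  unfold lev vec; simp [Pi.single_eq_of_ne (Ne.symm h)]

lemma abs_lev_vec_le (e a : Step d) : |lev e (vec a)| ≤ 1 := by
  by_cases h : a.1 = e.1
  · unfold lev vec; rw [h]; split_ifs <;> simp
  · simp [lev_vec_ne e a h]

/-- The transition probabilities as extended nonnegative numbers. -/
noncomputable def pq (p : Row d) (a : Step d) : ℝ≥0∞ := ENNReal.ofReal (p.1 a)

/-- The quenched probability of the step list `γ` from `x`. -/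
noncomputable def pw (ω : Env d) (x : Site d) (γ : List (Step d)) : ℝ≥0∞ := wt pq ω x γ

/-- The annealed probability of the step list `γ`. -/
noncomputable def cw (μ : Measure (Row d)) (γ : List (Step d)) : ℝ≥0∞ :=
  ∫⁻ ω, pw ω 0 γ ∂iid μ

/-- A path from `0` in the levels `[0, J)` until it ends at level `J`. -/
def Pre (e : Step d) (J : ℕ) (γ : List (Step d)) : Prop :=
  (∀ v ∈ verts 0 γ, 0 ≤ lev e v ∧ lev e v < J) ∧ lev e (dsp γ) = J

/-- The height of a step list. -/
def hgt (e : Step d) (γ : List (Step d)) : ℕ := (lev e (dsp γ)).toNat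

/-- A prefix up to some level. -/
def Adm (e : Step d) (γ : List (Step d)) : Prop := Pre e (hgt e γ) γ

/-- A prefix without an intermediate cut. -/
def Irr (e : Step d) (γ : List (Step d)) : Prop :=
  γ ≠ [] ∧ Adm e γ ∧ ∀ η δ, γ = η ++ δ → Adm e η → Adm e δ → η = [] ∨ δ = []

lemma Pre.hgt_eq {e : Step d} {J : ℕ} {γ : List (Step d)} (h : Pre e J γ) : hgt e γ = J := by
  simp [hgt, h.2]

lemma Pre.adm {e : Step d} {J : ℕ} {γ : List (Step d)} (h : Pre e J γ) : Adm e γ := by
  rwa [Adm, h.hgt_eq]

open Classical in
/-- The mass of the prefixes up to level `J`. -/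
noncomputable def u (μ : Measure (Row d)) (e : Step d) (J : ℕ) : ℝ≥0∞ :=
  ∑' γ, if Pre e J γ then cw μ γ else 0

open Classical in
/-- The law of the displacement of an irreducible prefix. -/
noncomputable def irrLaw (μ : Measure (Row d)) (e : Step d) (z : Site d) : ℝ≥0∞ :=
  ∑' γ, if Irr e γ ∧ dsp γ = z then cw μ γ else 0

open Classical in
/-- The renewal measure. -/
noncomputable def renew (μ : Measure (Row d)) (e : Step d) (y : Site d) : ℝ≥0∞ :=
  ∑' γ, if Adm e γ ∧ dsp γ = y then cw μ γ else 0

open Classical in
/-- The expected indicator of a visit by an irreducible prefix. -/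
noncomputable def irrVisit (μ : Measure (Row d)) (e : Step d) (x : Site d) : ℝ≥0∞ :=
  ∑' γ, if Irr e γ ∧ x ∈ verts 0 γ then cw μ γ else 0

/-- The mean range of an irreducible prefix. -/
noncomputable def nu (μ : Measure (Row d)) (e : Step d) : ℝ≥0∞ := ∑' x, irrVisit μ e x

open Classical in
/-- The mean length of an irreducible prefix. -/
noncomputable def meanLen (μ : Measure (Row d)) (e : Step d) : ℝ≥0∞ :=
  ∑' γ, if Irr e γ then cw μ γ * γ.length else 0

/-- A visit bound for prefixes. -/
noncomputable def visit (μ : Measure (Row d)) (e : Step d) (x : Site d) : ℝ≥0∞ :=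
  ∑' y, renew μ e y * irrVisit μ e (x - y)

/-- Partial sums of the convolution powers of `w`. -/
noncomputable def convSum (w : Site d → ℝ≥0∞) : ℕ → Site d → ℝ≥0∞
  | 0 => 0
  | M + 1 => fun y => (if y = 0 then 1 else 0) + ∑' z, w z * convSum w M (y - z)

end Vale.Agent.P147.Bal
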