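import Vale.Agent.P147.Bal.PairDefs

/-!
# Two walks in a common environment may avoid common cuts

One walk starts with the step `e`, the other with `n` transverse steps followed by `e`; afterwards
both run in disjoint parts of the environment with positive probability once `n` is large, because
the expected intersection of two independent visit measures tends to zero.
-/

open MeasureTheory Set Filter Topology
open scoped ENNReal

namespace Vale.Agent.P147.Bal

open Vale.Agent.P147.Proj (dsp verts trail iid)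

variable {d : ℕ} {e : Step d} {μ : Measure (Row d)} [IsProbabilityMeasure μ] {p : ℝ≥0∞}

/-- Square summable functions have vanishing correlations along sufficiently long translations. -/
lemma exists_corr_lt {α : Type*} [AddCommGroup α] (v : α → ℝ≥0∞) (hv : ∑' x, v x ^ 2 ≠ ∞)
    {ε : ℝ≥0∞} (hε : ε ≠ 0) :
    ∃ F : Finset α, ∀ b : α, (∀ x ∈ F, x + b ∉ F) → ∑' x, v x * v (x + b) < ε := by
  classical
  set S := ∑' x, v x ^ 2 with hS
  obtain ⟨ε', hε', hεlt⟩ : ∃ ε', ε' ≠ 0 ∧ ε' < ε := by
    obtain ⟨a, h1, h2⟩ := exists_between (pos_iff_ne_zero.2 hε)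
    exact ⟨a, h1.ne', h2⟩
  have hfin : ε' ≠ ∞ := hεlt.ne_top
  have hhalf : ε' / 4 ≠ 0 := by simp [hε']
  obtain ⟨s, hs0, hsT, hsS⟩ : ∃ s : ℝ≥0∞, s ≠ 0 ∧ s ≠ ∞ ∧ s * S ≤ ε' / 4 := by
    refine ⟨ε' / 4 / (S + 1), ?_, ?_, ?_⟩
    · simp [hε', hv]
    · exact ENNReal.div_ne_top (ENNReal.div_ne_top hfin (by norm_num)) (by simp)
    · calc ε' / 4 / (S + 1) * S ≤ ε' / 4 / (S + 1) * (S + 1) := by gcongr; exact le_self_add
        _ = ε' / 4 := ENNReal.div_mul_cancel (by simp) (by simp [hv])
  have htail := ENNReal.tendsto_tsum_compl_atTop_zero hv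
  obtain ⟨F, hF⟩ : ∃ F : Finset α, (∑' x : {x // x ∉ F}, v x ^ 2) ≤ s * (ε' / 4) :=
    (htail.eventually (eventually_le_nhds (pos_iff_ne_zero.2 (by simp [hs0, hhalf])))).exists
  refine ⟨F, fun b hb => lt_of_le_of_lt ?_ hεlt⟩
  set g : α → ℝ≥0∞ := fun x => if x ∈ F then 0 else v x ^ 2 with hg
  have hgle : ∑' x, g x ≤ s * (ε' / 4) := by
    refine le_trans (le_of_eq ?_) hF
    rw [← tsum_subtype_eq_of_support_subset (f := g) (s := {x | x ∉ F})]
    · exact tsum_congr fun x => if_neg x.2
    · intro x hx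
      simp only [Function.mem_support, g] at hx
      by_contra h
      exact hx (if_pos (not_not.1 h))
  have hamgm : ∀ a c : ℝ≥0∞, a * c ≤ s * a ^ 2 + s⁻¹ * c ^ 2 := by
    intro a c
    rcases le_total c (s * a) with h | h
    · calc a * c ≤ a * (s * a) := by gcongr
        _ = s * a ^ 2 := by ring
        _ ≤ _ := le_self_add
    · calc a * c = s⁻¹ * (s * a) * c := by
            rw [← mul_assoc, ENNReal.inv_mul_cancel hs0 hsT, one_mul]
        _ ≤ s⁻¹ * c * c := by gcongr
        _ = s⁻¹ * c ^ 2 := by ring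
        _ ≤ _ := le_add_self
  have hpt : ∀ x, v x * v (x + b)
      ≤ s * v x ^ 2 + s⁻¹ * g (x + b) + (s * v (x + b) ^ 2 + s⁻¹ * g x) := by
    intro x
    by_cases hx : x ∈ F
    · rw [show g (x + b) = v (x + b) ^ 2 from if_neg (hb x hx)]
      exact (hamgm _ _).trans le_self_add
    · rw [show g x = v x ^ 2 from if_neg hx, mul_comm (v x)]
      exact (hamgm _ _).trans le_add_self
  refine (ENNReal.tsum_le_tsum hpt).trans ?_
  have e1 : ∀ f : α → ℝ≥0∞, ∑' x, f (x + b) = ∑' x, f x := fun f =>
    (Equiv.addRight b).tsum_eq f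
  rw [ENNReal.tsum_add, ENNReal.tsum_add, ENNReal.tsum_add, ENNReal.tsum_mul_left,
    ENNReal.tsum_mul_left, ENNReal.tsum_mul_left, ENNReal.tsum_mul_left, e1 g,
    e1 (fun x => v x ^ 2), ← hS]
  have h2 : s⁻¹ * ∑' x, g x ≤ ε' / 4 := by
    calc s⁻¹ * ∑' x, g x ≤ s⁻¹ * (s * (ε' / 4)) := by gcongr
      _ = ε' / 4 := by rw [← mul_assoc, ENNReal.inv_mul_cancel hs0 hsT, one_mul]
  calc s * S + s⁻¹ * ∑' x, g x + (s * S + s⁻¹ * ∑' x, g x)
      ≤ ε' / 4 + ε' / 4 + (ε' / 4 + ε' / 4) := by gcongr
    _ = ε' := by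
      rw [show ε' / 4 + ε' / 4 + (ε' / 4 + ε' / 4) = 4 * (ε' / 4) by ring,
        ENNReal.mul_div_cancel (by norm_num) (by norm_num)]

/-- The end of a cut lies on the trail. -/
lemma dsp_mem_trail (κ ρ : List (Step d)) : dsp κ ∈ trail 0 (κ ++ ρ) := by
  by_cases hρ : ρ = []
  · subst hρ
    simpa using Proj.end_mem_trail 0 κ
  · exact Proj.verts_subset_trail _ _ _
      (mem_verts_append.2 (Or.inr (by simpa using self_mem_verts (0 : Site d) hρ)))

/-- A cut above level one begins with the head of height one. -/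
lemma cut_head {L δ η ρ : List (Step d)} {t : ℕ} (hL : Pre e 1 L) (h : L ++ δ = η ++ ρ)
    (hη : Pre e t η) (ht : 1 ≤ t) : ∃ κ, η = L ++ κ ∧ δ = κ ++ ρ := by
  obtain ⟨η₁, κ, rfl, h1⟩ := hη.exists_split ht
  rw [List.append_assoc] at h
  obtain ⟨rfl, rfl⟩ := Pre.split_unique h hL h1
  exact ⟨κ, rfl, rfl⟩

/-- Elliptic environments give positive weight to every step list. -/
lemma pw_ne_zero {ω : Env d} (hω : ∀ x, ∀ a : Step d, 0 < (ω x).1 a) :
    ∀ (γ : List (Step d)) (x : Site d), pw ω x γ ≠ 0 := by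
  intro γ
  induction γ with
  | nil => intro x; simp [pw, Proj.wt]
  | cons a γ ih =>
      intro x
      simp only [pw, Proj.wt, ne_eq, mul_eq_zero, not_or]
      exact ⟨by simpa [pq] using hω x a, ih _⟩

lemma lintegral_pair_ne_zero (hell : ∀ᵐ q ∂μ, ∀ a : Step d, 0 < q.1 a) (γ δ : List (Step d)) :
    ∫⁻ ω, pw ω 0 γ * pw ω 0 δ ∂iid μ ≠ 0 := by
  intro h0
  rw [lintegral_eq_zero_iff (show Measurable fun ω => pw ω 0 γ * pw ω 0 δ from
    (measurable_pw 0 γ).mul (measurable_pw 0 δ))] at h0
  have hall : ∀ᵐ ω ∂iid μ, ∀ x, ∀ a : Step d, 0 < (ω x).1 a := ae_all_iff.2 fun x =>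
    (measurePreserving_eval_infinitePi (fun _ : Site d => μ) x).quasiMeasurePreserving.ae hell
  obtain ⟨ω, hω, hω0⟩ := (hall.and h0).exists
  exact mul_ne_zero (pw_ne_zero hω γ 0) (pw_ne_zero hω δ 0) hω0

open Classical in
/-- The mass of the prefixes which visit `x`, the end included. -/
lemma tsum_trail_le (m : ℕ) (x : Site d) :
    ∑' γ, (if Pre e m γ ∧ x ∈ trail 0 γ then cw μ γ else 0)
      ≤ visit μ e x + renew μ e x := by
  refine le_trans ?_ (add_le_add_left (tsum_visit_le (μ := μ) m x) _)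
  rw [renew, ← ENNReal.tsum_add]
  refine ENNReal.tsum_le_tsum fun γ => ?_
  by_cases h : Pre e m γ ∧ x ∈ trail 0 γ
  · rw [if_pos h]
    rcases List.mem_append.1 (List.mem_toFinset.1 h.2) with hv | hv
    · rw [if_pos (⟨h.1, hv⟩ : Pre e m γ ∧ x ∈ verts 0 γ)]
      exact le_self_add
    · rw [List.mem_singleton, zero_add] at hv
      rw [if_pos (⟨h.1.adm, hv.symm⟩ : Adm e γ ∧ dsp γ = x)]
      exact le_add_self
  · rw [if_neg h]
    exact bot_le

/-- The weight of a pair which starts with heads `L`, `L'` of height one and goes on disjointly. -/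
lemma lintegral_pair_heads {L L' δ δ' : List (Step d)} {m : ℕ} (hL : Pre e 1 L) (hL' : Pre e 1 L')
    (hδ : Pre e m δ) (hδ' : Pre e m δ')
    (hd : ∀ v ∈ trail 0 δ, v + dsp L - dsp L' ∉ trail 0 δ') :
    ∫⁻ ω, pw ω 0 (L ++ δ) * pw ω 0 (L' ++ δ') ∂iid μ
      = (∫⁻ ω, pw ω 0 L * pw ω 0 L' ∂iid μ) * (cw μ δ * cw μ δ') := by
  classical
  have e1 : ∀ ω, pw ω 0 (L ++ δ) * pw ω 0 (L' ++ δ')
      = (pw ω 0 L * pw ω 0 L') * (pw ω (dsp L) δ * pw ω (dsp L') δ') := fun ω => by
    rw [pw_append, pw_append, zero_add, zero_add]; ring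
  simp only [e1]
  rw [Proj.lintegral_mul_disjoint μ (f := fun ω => pw ω 0 L * pw ω 0 L')
    (g := fun ω => pw ω (dsp L) δ * pw ω (dsp L') δ')
    (S := (verts 0 L).toFinset ∪ (verts 0 L').toFinset)
    (T := (verts (dsp L) δ).toFinset ∪ (verts (dsp L') δ').toFinset)
    ((measurable_pw 0 L).mul (measurable_pw 0 L'))
    ((measurable_pw (dsp L) δ).mul (measurable_pw (dsp L') δ'))]
  · congr 1
    refine lintegral_pw_mul_disjoint fun v hv hv' => ?_
    rw [← zero_add (dsp L), mem_verts_shift] at hv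
    rw [← zero_add (dsp L'), mem_verts_shift] at hv'
    exact hd _ (Proj.verts_subset_trail _ _ _ hv)
      (by rw [sub_add_cancel]; exact Proj.verts_subset_trail _ _ _ hv')
  · intro ω ω' h
    show pw ω 0 L * pw ω 0 L' = pw ω' 0 L * pw ω' 0 L'
    exact congrArg₂ (· * ·)
      (Proj.depOn_wt pq 0 L ω ω' fun x hx => h x (Finset.mem_union_left _ hx))
      (Proj.depOn_wt pq 0 L' ω ω' fun x hx => h x (Finset.mem_union_right _ hx))
  · intro ω ω' h
    show pw ω (dsp L) δ * pw ω (dsp L') δ' = pw ω' (dsp L) δ * pw ω' (dsp L') δ'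
    exact congrArg₂ (· * ·)
      (Proj.depOn_wt pq (dsp L) δ ω ω' fun x hx => h x (Finset.mem_union_left _ hx))
      (Proj.depOn_wt pq (dsp L') δ' ω ω' fun x hx => h x (Finset.mem_union_right _ hx))
  · refine Finset.disjoint_left.2 fun v hv hv' => ?_
    have low : lev e v < 1 := by
      rcases Finset.mem_union.1 hv with h | h
      · exact (hL.1 v (List.mem_toFinset.1 h)).2
      · exact (hL'.1 v (List.mem_toFinset.1 h)).2
    have high : 1 ≤ lev e v := by
      rcases Finset.mem_union.1 hv' with h | h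
      · have h' := List.mem_toFinset.1 h
        rw [← zero_add (dsp L), mem_verts_shift] at h'
        have := (hδ.1 _ h').1
        rw [lev_sub, hL.2] at this
        push_cast at this
        omega
      · have h' := List.mem_toFinset.1 h
        rw [← zero_add (dsp L'), mem_verts_shift] at h'
        have := (hδ'.1 _ h').1
        rw [lev_sub, hL'.2] at this
        push_cast at this
        omega
    omega

lemma pre_one (γ : List (Step d)) (h : ∀ a ∈ γ, lev e (vec a) = 0) :
    Pre e 1 (γ ++ [e]) := by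
  induction γ with
  | nil => exact ⟨by simp [verts], by simp [lev_vec_self]⟩
  | cons a γ ih =>
      obtain ⟨h1, h2⟩ := ih fun b hb => h b (List.mem_cons_of_mem _ hb)
      have ha := h a List.mem_cons_self
      refine ⟨fun v hv => ?_, by simp [lev_add, ha, h2]⟩
      simp only [List.cons_append, verts, List.mem_cons] at hv
      rcases hv with rfl | hv
      · simp
      · rw [mem_verts_shift] at hv
        have := h1 _ hv
        rw [lev_sub, ha, sub_zero] at this
        exact this

/-- Two walks in a common environment avoid common cuts with a probability bounded below. -/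
theorem exists_esc_lb (hd : 2 ≤ d) (hell : ∀ᵐ q ∂μ, ∀ a : Step d, 0 < q.1 a) (hp : p ≠ 0)
    (hu : ∀ J, p ≤ u μ e J) (hU : ∑' y, renew μ e y ^ 2 ≠ ∞)
    (hV : ∑' x, visit μ e x ^ 2 ≠ ∞) : ∃ c : ℝ≥0∞, c ≠ 0 ∧ ∀ M, c ≤ esc μ e M := by
  classical
  obtain ⟨i, hi⟩ : ∃ i : Fin d, i ≠ e.1 := by
    by_contra hno
    push Not at hno
    have h := (hno ⟨0, by omega⟩).trans (hno ⟨1, by omega⟩).symm
    simp [Fin.ext_iff] at h
  set a₀ : Step d := (i, true) with ha₀
  have hlev : lev e (vec a₀) = 0 := lev_vec_ne e a₀ hi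
  set lat : ℕ → List (Step d) := fun n => List.replicate n a₀ with hlat
  have hdsp : ∀ n, dsp (lat n) = n • vec a₀ := fun n => by
    induction n with
    | zero => simp [lat]
    | succ n ih =>
        simp only [lat] at ih ⊢
        rw [List.replicate_succ, Proj.dsp_cons, ih, succ_nsmul']
  set v : Site d → ℝ≥0∞ := fun x => visit μ e x + renew μ e x with hv
  have hv2 : ∑' x, v x ^ 2 ≠ ∞ := by
    refine ne_top_of_le_ne_top (b := ∑' x, 4 * (visit μ e x ^ 2 + renew μ e x ^ 2)) ?_
      (ENNReal.tsum_le_tsum fun x => ?_)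
    · rw [ENNReal.tsum_mul_left, ENNReal.tsum_add]
      exact ENNReal.mul_ne_top (by norm_num) (ENNReal.add_ne_top.2 ⟨hV, hU⟩)
    · simp only [v]
      set A := visit μ e x
      set B := renew μ e x
      rcases le_total A B with h | h
      · calc (A + B) ^ 2 ≤ (B + B) ^ 2 := by gcongr
          _ = 4 * B ^ 2 := by ring
          _ ≤ _ := by gcongr; exact le_add_self
      · calc (A + B) ^ 2 ≤ (A + A) ^ 2 := by gcongr
          _ = 4 * A ^ 2 := by ring
          _ ≤ _ := by gcongr; exact le_self_add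
  obtain ⟨F, hF⟩ := exists_corr_lt v hv2 (mul_ne_zero hp hp)
  obtain ⟨n, hn⟩ : ∃ n : ℕ, ∀ x ∈ F, x + -(n • vec a₀) ∉ F := by
    have hinj : Function.Injective fun k : ℕ => k • vec a₀ := fun k l h => by
      have := congrFun h i
      simpa [vec, a₀] using this
    obtain ⟨n, hn⟩ := (Set.Finite.preimage hinj.injOn
      ((F ×ˢ F).image fun z => z.1 - z.2).finite_toSet).exists_notMem
    refine ⟨n, fun x hx hx' => hn ?_⟩
    simp only [Set.mem_preimage, Finset.mem_coe, Finset.mem_image, Finset.mem_product]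
    exact ⟨(x, x + -(n • vec a₀)), ⟨hx, hx'⟩, by simp⟩
  set T := ∑' x, v x * v (x + -(n • vec a₀)) with hT
  have hTlt : T < p * p := hF _ hn
  set L' := lat n ++ [e] with hL'def
  have hL : Pre e 1 [e] := by simpa using pre_one (e := e) [] (by simp)
  have hL' : Pre e 1 L' := pre_one (lat n) fun a ha => by rw [List.eq_of_mem_replicate ha, hlev]
  have hdL : dsp L' = n • vec a₀ + vec e := by simp [L', Proj.dsp_append, hdsp]
  set c₁ := ∫⁻ ω, pw ω 0 [e] * pw ω 0 L' ∂iid μ
  refine ⟨min 1 (c₁ * (p * p - T)), ?_, fun M => ?_⟩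
  · simp only [ne_eq, min_eq_iff, one_ne_zero, false_and, mul_eq_zero, false_or, not_and]
    rintro (h | h)
    · exact absurd h (lintegral_pair_ne_zero hell _ _)
    · exact absurd h (tsub_pos_of_lt hTlt).ne'
  cases M with
  | zero =>
      refine (min_le_left _ _).trans (le_trans (le_of_eq ?_)
        (ENNReal.le_tsum (([], []) : List (Step d) × List (Step d))))
      have h : Pre e 0 ([] : List (Step d)) ∧ Pre e 0 ([] : List (Step d)) ∧
          NoCut e 0 ([] : List (Step d)) [] := ⟨pre_nil, pre_nil, fun t h1 h2 => by omega⟩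
      rw [if_pos h]
      simp [pw, Proj.wt]
  | succ m =>
      refine (min_le_right _ _).trans ?_
      set good : List (Step d) × List (Step d) → Prop := fun z =>
        Pre e m z.1 ∧ Pre e m z.2 ∧ ∀ x ∈ trail 0 z.1, x + -(n • vec a₀) ∉ trail 0 z.2 with hgood
      have step1 : ∑' z, (if good z then c₁ * (cw μ z.1 * cw μ z.2) else 0) ≤ esc μ e (m + 1) := by
        refine le_trans (ENNReal.tsum_le_tsum fun z => ?_) (ENNReal.tsum_comp_le_tsum_of_injective
          (f := fun z : List (Step d) × List (Step d) => ([e] ++ z.1, L' ++ z.2)) ?_ _)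
        · by_cases hz : good z
          swap
          · rw [if_neg hz]; exact bot_le
          obtain ⟨h1, h2, h3⟩ := hz
          rw [if_pos (show good z from ⟨h1, h2, h3⟩)]
          have g1 : Pre e (m + 1) ([e] ++ z.1) := by rw [add_comm]; exact hL.append h1
          have g2 : Pre e (m + 1) (L' ++ z.2) := by rw [add_comm]; exact hL'.append h2
          have g3 : NoCut e (m + 1) ([e] ++ z.1) (L' ++ z.2) := by
            rintro t ht1 - ⟨η, ρ, η', ρ', e1, e2, hη, hη', heq, -, -⟩
            obtain ⟨κ, rfl, k1⟩ := cut_head hL e1 hη ht1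
            obtain ⟨κ', rfl, k2⟩ := cut_head hL' e2 hη' ht1
            rw [Proj.dsp_append, Proj.dsp_append, hdL] at heq
            refine h3 (dsp κ) (k1 ▸ dsp_mem_trail κ ρ) ?_
            have : dsp κ + -(n • vec a₀) = dsp κ' := by
              have heq' : vec e + dsp κ = n • vec a₀ + vec e + dsp κ' := by simpa using heq
              linear_combination (norm := abel) heq'
            rw [this, k2]
            exact dsp_mem_trail κ' ρ'
          rw [if_pos (⟨g1, g2, g3⟩ : Pre e (m + 1) ([e] ++ z.1) ∧ Pre e (m + 1) (L' ++ z.2) ∧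
            NoCut e (m + 1) ([e] ++ z.1) (L' ++ z.2))]
          refine le_of_eq (lintegral_pair_heads hL hL' h1 h2 fun x hx => ?_).symm
          have : x + dsp [e] - dsp L' = x + -(n • vec a₀) := by
            rw [hdL]; simp; abel
          rw [this]
          exact h3 x hx
        · intro z z' h
          simp only [Prod.mk.injEq, List.append_cancel_left_eq] at h
          exact Prod.ext h.1 h.2
      refine le_trans ?_ step1
      have e2 : (fun z => if good z then c₁ * (cw μ z.1 * cw μ z.2) else 0)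
          = fun z => c₁ * (if good z then cw μ z.1 * cw μ z.2 else 0) := by
        funext z; split_ifs <;> simp
      rw [e2, ENNReal.tsum_mul_left]
      refine mul_le_mul' le_rfl (tsub_le_iff_right.2 ?_)
      have hbad : ∑' z : List (Step d) × List (Step d), ∑' x : Site d,
          (if Pre e m z.1 ∧ x ∈ trail 0 z.1 then cw μ z.1 else 0) *
            (if Pre e m z.2 ∧ x + -(n • vec a₀) ∈ trail 0 z.2 then cw μ z.2 else 0) ≤ T := by
        rw [ENNReal.tsum_comm]
        refine ENNReal.tsum_le_tsum fun x => ?_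
        rw [ENNReal.tsum_prod']
        simp only [ENNReal.tsum_mul_left, ENNReal.tsum_mul_right]
        exact mul_le_mul' (tsum_trail_le m x) (tsum_trail_le m _)
      calc p * p ≤ u μ e m * u μ e m := mul_le_mul' (hu m) (hu m)
        _ = ∑' z : List (Step d) × List (Step d),
              (if Pre e m z.1 then cw μ z.1 else 0) * (if Pre e m z.2 then cw μ z.2 else 0) := by
            rw [ENNReal.tsum_prod']
            simp only [u, ENNReal.tsum_mul_left, ENNReal.tsum_mul_right]
        _ ≤ ∑' z : List (Step d) × List (Step d),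
              ((if good z then cw μ z.1 * cw μ z.2 else 0) + ∑' x : Site d,
          (if Pre e m z.1 ∧ x ∈ trail 0 z.1 then cw μ z.1 else 0) *
            (if Pre e m z.2 ∧ x + -(n • vec a₀) ∈ trail 0 z.2 then cw μ z.2 else 0)) := by
            refine ENNReal.tsum_le_tsum fun z => ?_
            by_cases h1 : Pre e m z.1
            swap
            · simp [h1]
            by_cases h2 : Pre e m z.2
            swap
            · simp [h2]
            rw [if_pos h1, if_pos h2]
            by_cases hz : good z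
            · rw [if_pos hz]; exact le_self_add
            obtain ⟨x, hx, hx'⟩ : ∃ x ∈ trail 0 z.1, x + -(n • vec a₀) ∈ trail 0 z.2 := by
              by_contra hno
              push Not at hno
              exact hz ⟨h1, h2, hno⟩
            refine le_add_left (le_trans (le_of_eq ?_) (ENNReal.le_tsum x))
            rw [if_pos (⟨h1, hx⟩ : Pre e m z.1 ∧ x ∈ trail 0 z.1),
              if_pos (⟨h2, hx'⟩ : Pre e m z.2 ∧ x + -(n • vec a₀) ∈ trail 0 z.2)]
        _ ≤ _ := by rw [ENNReal.tsum_add]; exact add_le_add le_rfl hbad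

end Vale.Agent.P147.Bal
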