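import Vale.Agent.P147.Bal.Speed
import Vale.Agent.P147.Events

/-!
# From escape with positive speed to the combinatorial inputs

An escaping path attains its minimal level; from then on it stays above it. So staying above the
starting level and escaping fast has positive probability, which bounds the masses of the prefixes
below. If the irreducible prefixes had infinite mean length then, by Borel–Cantelli, such a path
would be slow at all large dyadic levels.
-/

open MeasureTheory Set Filter Topology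
open scoped ENNReal

namespace Vale.Agent.P147.Bal

open Vale.Agent.P147.Proj (dsp verts iid)

variable {d : ℕ} {e : Step d} {μ : Measure (Row d)} [IsProbabilityMeasure μ]
  {Q : Env d → Site d → Measure (ℕ → Site d)}

/-- Escape along `e` with a speed which does not tend to zero. -/
def fastEscape (e : Step d) : Set (ℕ → Site d) :=
  {X | Tendsto (fun n => (lev e (X n) : ℝ)) atTop atTop ∧
    ¬ Tendsto (fun n => (lev e (X n) : ℝ) / n) atTop (𝓝 0)}

/-- Fast escape without returning below the starting level. -/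
def fastStay (e : Step d) : Set (ℕ → Site d) :=
  fastEscape e ∩ {X | ∀ n, lev e (X 0) ≤ lev e (X n)}

lemma measurable_levSeq (e : Step d) (n : ℕ) :
    Measurable fun X : ℕ → Site d => (lev e (X n) : ℝ) :=
  (measurable_of_countable fun x : Site d => (lev e x : ℝ)).comp (measurable_pi_apply n)

lemma measurableSet_fastEscape : MeasurableSet (fastEscape (d := d) e) := by
  refine (measurableSet_tendsto _ fun n => measurable_levSeq e n).inter
    (measurableSet_tendsto _ fun n => ?_).compl
  exact (measurable_levSeq e n).div_const _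

lemma measurableSet_fastStay : MeasurableSet (fastStay (d := d) e) := by
  refine measurableSet_fastEscape.inter ?_
  simp only [ofPred_forall]
  refine MeasurableSet.iInter fun n => measurableSet_le
    ((measurable_of_countable fun x : Site d => lev e x).comp (measurable_pi_apply 0))
    ((measurable_of_countable fun x : Site d => lev e x).comp (measurable_pi_apply n))

lemma vec_inj {a b : Step d} (h : vec a = vec b) : a = b := by
  obtain ⟨i, s⟩ := a
  obtain ⟨j, t⟩ := b
  by_cases hij : i = j
  · subst hij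
    have := congrFun h i
    simp [vec] at this
    cases s <;> cases t <;> simp_all
  · have := congrFun h i
    simp [vec, hij] at this
    cases s <;> simp at this

/-- Steps are unit vectors. -/
def nnPaths (d : ℕ) : Set (ℕ → Site d) := {X | ∀ k, ∃ a, X (k + 1) = X k + vec a}

lemma apply_ptail (hQ : IsQuenchedLaw Q) (ω : Env d) (x : Site d) {S : Set (ℕ → Site d)}
    (hS : MeasurableSet S) :
    Q ω x (ptail ⁻¹' S) = ∑ a : Step d, pq (ω x) a * Q ω (x + vec a) S := by
  rw [← Measure.map_apply measurable_ptail hS, hQ.map_ptail, Measure.sum_apply _ hS, tsum_fintype]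
  rfl

lemma ae_nnPaths (hQ : IsQuenchedLaw Q) (ω : Env d) (x : Site d) :
    ∀ᵐ X ∂Q ω x, X ∈ nnPaths d := by
  refine ae_all_iff.2 fun k => ?_
  rw [ae_iff]
  have hm : ∀ k, MeasurableSet {X : ℕ → Site d | ¬ ∃ a, X (k + 1) = X k + vec a} := fun k => by
    simp only [not_exists, ofPred_forall]
    exact MeasurableSet.iInter fun a => (measurableSet_eq_fun (measurable_pi_apply (k + 1))
      ((measurable_of_countable fun y : Site d => y + vec a).comp (measurable_pi_apply k))).compl
  induction k generalizing x with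
  | zero =>
      have hs : MeasurableSet {Y : ℕ → Site d | ∀ a, Y 0 ≠ x + vec a} := measurableSet_at 0 fun y => ∀ a, y ≠ x + vec a
      have hz : Q ω x (ptail ⁻¹' {Y : ℕ → Site d | ∀ a, Y 0 ≠ x + vec a}) = 0 := by
        rw [apply_ptail hQ ω x hs]
        refine Finset.sum_eq_zero fun a _ => mul_eq_zero_of_right _ ?_
        rw [measure_eq_zero_iff_ae_notMem]
        filter_upwards [hQ.ae_start ω (x + vec a)] with Y hY h
        exact h a hY
      rw [measure_eq_zero_iff_ae_notMem] at hz ⊢
      filter_upwards [hz, hQ.ae_start ω x] with X h1 h0 h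
      refine h1 fun a ha => h ⟨a, ?_⟩
      rw [h0]
      exact ha
  | succ k ih =>
      have e1 : {X : ℕ → Site d | ¬ ∃ a, X (k + 1 + 1) = X (k + 1) + vec a}
          = ptail ⁻¹' {X | ¬ ∃ a, X (k + 1) = X k + vec a} := rfl
      rw [e1, apply_ptail hQ ω x (hm k)]
      exact Finset.sum_eq_zero fun a _ => mul_eq_zero_of_right _ (ih _)

/-- The paths which start with the step list `γ` from `x`. -/
def lcyl (x : Site d) (γ : List (Step d)) : Set (ℕ → Site d) :=
  {X | ∀ k ≤ γ.length, X k = x + dsp (γ.take k)}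

lemma measurableSet_lcyl (x : Site d) (γ : List (Step d)) : MeasurableSet (lcyl x γ) := by
  simp only [lcyl, ofPred_forall]
  exact MeasurableSet.iInter fun k => MeasurableSet.iInter fun _ =>
    (measurableSet_singleton _).preimage (measurable_pi_apply k)

lemma apply_lcyl (hQ : IsQuenchedLaw Q) (ω : Env d) (γ : List (Step d)) :
    ∀ x : Site d, Q ω x (lcyl x γ) = pw ω x γ := by
  induction γ with
  | nil =>
      intro x
      have := hQ.prob ω x
      have : lcyl x ([] : List (Step d)) =ᵐ[Q ω x] (univ : Set (ℕ → Site d)) := by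
        refine Filter.eventuallyEq_set.2 ?_
        filter_upwards [hQ.ae_start ω x] with X hX
        simp [lcyl, hX]
      rw [measure_congr this, measure_univ]
      rfl
  | cons a γ ih =>
      intro x
      have e1 : lcyl x (a :: γ) =ᵐ[Q ω x] ptail ⁻¹' lcyl (x + vec a) γ := by
        refine Filter.eventuallyEq_set.2 ?_
        filter_upwards [hQ.ae_start ω x] with X hX
        constructor
        · intro h k hk
          have := h (k + 1) (by simp; omega)
          simpa [ptail, add_assoc] using this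
        · intro h k hk
          cases k with
          | zero => simpa using hX
          | succ k =>
              have := h k (by simpa using hk)
              simpa [ptail, add_assoc] using this
      rw [measure_congr e1, apply_ptail hQ ω x (measurableSet_lcyl _ _),
        Finset.sum_eq_single a]
      · rw [ih]; rfl
      · intro b _ hb
        refine mul_eq_zero_of_right _ ?_
        rw [measure_eq_zero_iff_ae_notMem]
        filter_upwards [hQ.ae_start ω (x + vec b)] with X hX h
        have h0 := h 0 (Nat.zero_le _)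
        rw [hX] at h0
        simp at h0
        exact hb (vec_inj h0)
      · simp

lemma exists_steps : ∀ (T : ℕ) (X : ℕ → Site d), X ∈ nnPaths d →
    ∃ γ : List (Step d), γ.length = T ∧ X ∈ lcyl (X 0) γ := by
  intro T
  induction T with
  | zero => exact fun X _ => ⟨[], rfl, fun k hk => by simp at hk; simp [hk]⟩
  | succ T ih =>
      intro X hX
      obtain ⟨a, ha⟩ := hX 0
      obtain ⟨γ, hl, hγ⟩ := ih (ptail X) fun k => hX (k + 1)
      refine ⟨a :: γ, by simp [hl], fun k hk => ?_⟩
      cases k with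
      | zero => simp
      | succ k =>
          have h : X (k + 1) = X 1 + dsp (γ.take k) := hγ k (by simpa using hk)
          rw [h, ha]
          simp [add_assoc]

lemma exists_of_mem_verts (γ : List (Step d)) :
    ∀ (x v : Site d), v ∈ verts x γ → ∃ k < γ.length, v = x + dsp (γ.take k) := by
  induction γ with
  | nil => intro x v h; simp [verts] at h
  | cons a γ ih =>
      intro x v h
      simp only [verts, List.mem_cons] at h
      rcases h with rfl | h
      · exact ⟨0, by simp, by simp⟩
      · obtain ⟨k, hk, rfl⟩ := ih _ _ h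
        exact ⟨k + 1, by simpa using hk, by simp [add_assoc]⟩

/-- A path which stays above its start reaches every level along a prefix. -/
lemma exists_pre {X : ℕ → Site d} (hnn : X ∈ nnPaths d) (h0 : X 0 = 0)
    (hst : ∀ n, 0 ≤ lev e (X n)) (J n : ℕ) (hn : (J : ℤ) ≤ lev e (X n)) :
    ∃ γ, Pre e J γ ∧ γ.length ≤ n ∧ X ∈ lcyl 0 γ := by
  classical
  have hex : ∃ T, (J : ℤ) ≤ lev e (X T) := ⟨n, hn⟩
  obtain ⟨γ, hl, hγ⟩ := exists_steps (Nat.find hex) X hnn
  rw [h0] at hγ
  refine ⟨γ, ⟨fun v hv => ?_, ?_⟩, hl ▸ Nat.find_le hn, hγ⟩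
  · obtain ⟨k, hk, rfl⟩ := exists_of_mem_verts γ 0 v hv
    rw [← hγ k hk.le]
    exact ⟨hst k, not_le.1 (Nat.find_min hex (hl ▸ hk))⟩
  · have hT : X (Nat.find hex) = dsp γ := by
      have := hγ _ le_rfl
      rwa [List.take_length, zero_add, hl] at this
    rw [← hT]
    refine le_antisymm ?_ (Nat.find_spec hex)
    rcases Nat.eq_zero_or_pos (Nat.find hex) with h | h
    · rw [h, h0]; simp
    · obtain ⟨a, ha⟩ := hnn (Nat.find hex - 1)
      rw [Nat.sub_add_cancel h] at ha
      have h1 := not_le.1 (Nat.find_min hex (Nat.sub_one_lt (by omega)))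
      have h2 := abs_le.1 (abs_lev_vec_le e a)
      rw [ha, lev_add]
      omega

lemma pcons_mem_fastEscape {X : ℕ → Site d} :
    X ∈ fastEscape e → ptail X ∈ fastEscape e := by
  rintro ⟨h1, h2⟩
  refine ⟨h1.comp (tendsto_add_atTop_nat 1), fun h => h2 ?_⟩
  rw [← tendsto_add_atTop_iff_nat 1]
  have hr : Tendsto (fun n : ℕ => (n : ℝ) / (n + 1)) atTop (𝓝 1) :=
    tendsto_natCast_div_add_atTop 1
  have := h.mul hr
  rw [zero_mul] at this
  refine this.congr' ?_
  filter_upwards [eventually_gt_atTop 0] with n hn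
  have : (n : ℝ) ≠ 0 := by exact_mod_cast hn.ne'
  simp only [ptail, Nat.cast_add, Nat.cast_one]
  field_simp

lemma iterate_ptail (n k : ℕ) (X : ℕ → Site d) : (ptail^[n] X) k = X (k + n) := by
  induction n generalizing X k with
  | zero => rfl
  | succ n ih => rw [Function.iterate_succ_apply, ih]; simp [ptail, add_assoc]

/-- An escaping path attains its minimal level. -/
lemma exists_min {X : ℕ → Site d} (hX : X ∈ fastEscape e) :
    ∃ n, ptail^[n] X ∈ fastStay e := by
  obtain ⟨M, hM⟩ := Filter.eventually_atTop.1 (hX.1.eventually_ge_atTop (lev e (X 0) : ℝ))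
  obtain ⟨n, -, hn⟩ := Finset.exists_min_image (Finset.range (M + 1)) (fun k => lev e (X k))
    ⟨0, by simp⟩
  refine ⟨n, ?_, fun k => ?_⟩
  · clear hn
    induction n generalizing X with
    | zero => exact hX
    | succ n ih =>
        rw [Function.iterate_succ_apply']
        exact pcons_mem_fastEscape (ih hX (fun j hj => hM j hj))
  · rw [iterate_ptail, iterate_ptail, zero_add]
    by_cases hk : k + n < M + 1
    · exact hn _ (Finset.mem_range.2 hk)
    · have h1 : lev e (X 0) ≤ lev e (X (k + n)) := by exact_mod_cast hM (k + n) (by omega)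
      exact (hn 0 (by simp)).trans h1

/-- Translations do not change staying fast escape. -/
lemma fastStay_translate (z : Site d) :
    (fun (X : ℕ → Site d) k => X k - z) ⁻¹' fastStay e = fastStay e := by
  ext X
  have hl : ∀ y, lev e (y - z) = lev e y - lev e z := fun y => lev_sub e y z
  have h0 : Tendsto (fun n : ℕ => (lev e z : ℝ) / n) atTop (𝓝 0) :=
    tendsto_const_div_atTop_nhds_zero_nat _
  simp only [mem_preimage, fastStay, fastEscape, mem_inter_iff, mem_ofPred_eq, hl, Int.cast_sub,
    sub_le_sub_iff_right, sub_div]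
  refine and_congr_left fun _ => and_congr ?_ (not_congr ?_)
  · simp only [sub_eq_add_neg]
    refine ⟨fun h => ?_, fun h => tendsto_atTop_add_const_right _ _ h⟩
    simpa [add_assoc] using tendsto_atTop_add_const_right _ ((lev e z : ℝ)) h
  · constructor
    · intro h; simpa using h.add h0
    · intro h; simpa using h.sub h0

lemma ae_fastStay_eq_zero (hQ : IsQuenchedLaw Q)
    (h : ∫⁻ ω, Q ω 0 (fastStay e) ∂iid μ = 0) : ∫⁻ ω, Q ω 0 (fastEscape e) ∂iid μ = 0 := by
  have hmeas : ∀ x, Measurable fun ω => Q ω x (fastStay (d := d) e) := fun x =>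
    (Measure.measurable_coe measurableSet_fastStay).comp (hQ.measurable x)
  have hx : ∀ᵐ ω ∂iid μ, ∀ x, Q ω x (fastStay e) = 0 := by
    refine ae_all_iff.2 fun x => ?_
    have e1 : ∀ ω, Q ω x (fastStay e) = Q (shiftEnv x ω) 0 (fastStay e) := fun ω => by
      have hm : Measurable fun (X : ℕ → Site d) k => X k - x := measurable_pi_lambda _ fun k =>
        (measurable_of_countable fun y : Site d => y - x).comp (measurable_pi_apply k)
      rw [hQ.shift ω x 0, zero_add, Measure.map_apply hm measurableSet_fastStay,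
        fastStay_translate]
    have h2 : ∫⁻ ω, Q ω x (fastStay e) ∂iid μ = 0 := by
      simp only [e1]
      rw [Proj.lintegral_shift μ (hmeas 0) x, h]
    exact (lintegral_eq_zero_iff (hmeas x)).1 h2
  refine lintegral_eq_zero_of_ae_eq_zero ?_
  filter_upwards [hx] with ω hω
  have hit : ∀ n x, Q ω x ((ptail^[n]) ⁻¹' fastStay e) = 0 := by
    intro n
    induction n with
    | zero => exact hω
    | succ n ih =>
        intro x
        rw [Function.iterate_succ, preimage_comp,
          apply_ptail hQ ω x ((measurable_ptail.iterate n) measurableSet_fastStay)]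
        exact Finset.sum_eq_zero fun a _ => mul_eq_zero_of_right _ (ih _)
  have hsub : fastEscape e ⊆ ⋃ n : ℕ, (ptail^[n]) ⁻¹' fastStay e := fun X hX => by
    obtain ⟨n, hn⟩ := exists_min hX
    exact mem_iUnion.2 ⟨n, hn⟩
  have hnull : Q ω 0 (⋃ n : ℕ, (ptail^[n]) ⁻¹' fastStay e) = 0 :=
    measure_iUnion_null fun n => hit n 0
  exact measure_mono_null hsub hnull

/-- The prefixes up to level `J` of length at most `n`. -/
def preShort (e : Step d) (J n : ℕ) : Set (ℕ → Site d) :=
  ⋃ γ ∈ {γ : List (Step d) | Pre e J γ ∧ γ.length ≤ n}, lcyl 0 γ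

open Classical in
lemma apply_preShort_le (hQ : IsQuenchedLaw Q) (ω : Env d) (J n : ℕ) :
    Q ω 0 (preShort e J n)
      ≤ ∑' γ, if Pre e J γ ∧ γ.length ≤ n then pw ω 0 γ else 0 := by
  refine (measure_mono (fun X hX => ?_)).trans ((measure_iUnion_le
    fun γ => if Pre e J γ ∧ γ.length ≤ n then lcyl 0 γ else ∅).trans
      (ENNReal.tsum_le_tsum fun γ => ?_))
  · simp only [preShort, mem_iUnion, mem_ofPred_eq] at hX
    obtain ⟨γ, hγ, hm⟩ := hX
    exact mem_iUnion.2 ⟨γ, by rw [if_pos hγ]; exact hm⟩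
  · split_ifs
    · rw [apply_lcyl hQ]
    · simp

theorem exists_start (hQ : IsQuenchedLaw Q) (hpos : ∫⁻ ω, Q ω 0 (fastEscape e) ∂iid μ ≠ 0) :
    (∃ p : ℝ≥0∞, p ≠ 0 ∧ ∀ J, p ≤ u μ e J) ∧ meanLen μ e ≠ ∞ := by
  classical
  set p := ∫⁻ ω, Q ω 0 (fastStay e) ∂iid μ with hp
  have hp0 : p ≠ 0 := fun h => hpos (ae_fastStay_eq_zero hQ h)
  have hgood : ∀ ω, ∀ᵐ X ∂Q ω 0, X ∈ fastStay e →
      X ∈ nnPaths d ∧ X 0 = 0 ∧ ∀ n, 0 ≤ lev e (X n) := by
    intro ω
    filter_upwards [hQ.ae_start ω 0, ae_nnPaths hQ ω 0] with X h0 hn hX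
    exact ⟨hn, h0, fun n => by simpa [h0] using hX.2 n⟩
  have hu : ∀ J, p ≤ u μ e J := by
    intro J
    have hle : ∀ ω, Q ω 0 (fastStay e) ≤ ∑' γ, if Pre e J γ then pw ω 0 γ else 0 := by
      intro ω
      refine le_trans (measure_mono_ae ?_) ((measure_iUnion_le
        fun γ => if Pre e J γ then lcyl 0 γ else ∅).trans (ENNReal.tsum_le_tsum fun γ => ?_))
      · filter_upwards [hgood ω] with X hX hm
        obtain ⟨h1, h2, h3⟩ := hX hm
        obtain ⟨n, hn⟩ := (hm.1.1.eventually_ge_atTop ((J : ℤ) : ℝ)).exists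
        obtain ⟨γ, hγ, -, hc⟩ := exists_pre h1 h2 h3 J n (by exact_mod_cast hn)
        exact mem_iUnion.2 ⟨γ, by rw [if_pos hγ]; exact hc⟩
      · split_ifs
        · rw [apply_lcyl hQ]
        · simp
    refine (lintegral_mono hle).trans (le_of_eq ?_)
    rw [lintegral_tsum fun γ => ?_]
    · unfold u
      refine tsum_congr fun γ => ?_
      split_ifs <;> simp [cw]
    · split_ifs
      · exact (measurable_pw 0 γ).aemeasurable
      · exact aemeasurable_const
  refine ⟨⟨p, hp0, hu⟩, fun hL => hp0 ?_⟩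
  have hK : ∀ K : ℕ, ∀ᵐ ω ∂iid μ,
      Q ω 0 (limsup (fun k => preShort e (2 ^ k) (K * 2 ^ k)) atTop) = 0 := by
    intro K
    set f : ℕ → Env d → ℝ≥0∞ := fun k ω =>
      ∑' γ, if Pre e (2 ^ k) γ ∧ γ.length ≤ K * 2 ^ k then pw ω 0 γ else 0
    have hf : ∀ k γ, Measurable fun ω : Env d =>
        if Pre e (2 ^ k) γ ∧ γ.length ≤ K * 2 ^ k then pw ω 0 γ else 0 := fun k γ => by
      split_ifs
      · exact measurable_pw 0 γ
      · exact measurable_const
    have hfm : ∀ k, Measurable (f k) := fun k => Measurable.tsum (hf k)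
    have hfin : ∫⁻ ω, ∑' k, f k ω ∂iid μ ≠ ∞ := by
      rw [lintegral_tsum fun k => (hfm k).aemeasurable]
      refine ne_top_of_le_ne_top (tsum_fast_ne_top hp0 hu hL K) (ENNReal.tsum_le_tsum fun k => ?_)
      rw [lintegral_tsum fun γ => (hf k γ).aemeasurable]
      refine le_of_eq (tsum_congr fun γ => ?_)
      split_ifs <;> simp [cw]
    filter_upwards [ae_lt_top (Measurable.tsum hfm) hfin] with ω hω
    exact measure_limsup_atTop_eq_zero (ne_top_of_le_ne_top hω.ne
      (ENNReal.tsum_le_tsum fun k => apply_preShort_le hQ ω _ _))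
  rw [hp]
  refine lintegral_eq_zero_of_ae_eq_zero ?_
  filter_upwards [ae_all_iff.2 hK] with ω hω
  refine le_antisymm ((measure_mono_ae ?_).trans (le_of_eq (measure_iUnion_null hω))) bot_le
  filter_upwards [hgood ω] with X hX hm
  obtain ⟨h1, h2, h3⟩ := hX hm
  obtain ⟨ε, hε, hfr⟩ : ∃ ε > 0, ∃ᶠ n in atTop, ε ≤ |(lev e (X n) : ℝ) / n| := by
    by_contra hno
    push Not at hno
    refine hm.1.2 (Metric.tendsto_nhds.2 fun ε hε => ?_)
    filter_upwards [hno ε hε] with n hn
    rwa [Real.dist_eq, sub_zero]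
  refine mem_iUnion.2 ⟨⌈2 / ε⌉₊, mem_limsup_iff_frequently_mem.2 ?_⟩
  refine Filter.frequently_atTop.2 fun k₀ => ?_
  obtain ⟨n, hn, hbig, hn1⟩ := (hfr.and_eventually
    ((hm.1.1.eventually_ge_atTop ((2 ^ k₀ : ℕ) : ℝ)).and (eventually_ge_atTop 1))).exists
  set l := (lev e (X n)).toNat with hl
  have hlZ : (l : ℤ) = lev e (X n) := Int.toNat_of_nonneg (h3 n)
  have hlR : (l : ℝ) = (lev e (X n) : ℝ) := by exact_mod_cast hlZ
  rw [← hlR] at hn hbig
  have hl1 : 2 ^ k₀ ≤ l := by exact_mod_cast hbig
  have hl0 : l ≠ 0 := by have := Nat.two_pow_pos k₀; omega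
  refine ⟨Nat.log 2 l, Nat.le_log_of_pow_le (by norm_num) hl1, ?_⟩
  have hp2 : 2 ^ Nat.log 2 l ≤ l := Nat.pow_log_le_self 2 hl0
  obtain ⟨γ, hγ, hlen, hc⟩ := exists_pre h1 h2 h3 (2 ^ Nat.log 2 l) n (by
    rw [← hlZ]; exact_mod_cast hp2)
  refine mem_biUnion (x := γ) ⟨hγ, hlen.trans ?_⟩ hc
  have hn0 : (0 : ℝ) < n := by exact_mod_cast hn1
  rw [abs_of_nonneg (by positivity), le_div_iff₀ hn0] at hn
  have hlt : (l : ℝ) ≤ 2 * (2 ^ Nat.log 2 l : ℕ) := by
    have := Nat.lt_pow_succ_log_self (show 1 < 2 by norm_num) l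
    rw [pow_succ] at this
    exact_mod_cast (show l ≤ 2 * 2 ^ Nat.log 2 l by omega)
  have h4 : (n : ℝ) ≤ (⌈2 / ε⌉₊ * 2 ^ Nat.log 2 l : ℕ) := by
    push_cast at hlt ⊢
    calc (n : ℝ) ≤ (l : ℝ) / ε := by rw [le_div_iff₀ hε]; linarith
      _ ≤ 2 * 2 ^ Nat.log 2 l / ε := by gcongr
      _ = 2 / ε * 2 ^ Nat.log 2 l := by ring
      _ ≤ _ := mul_le_mul_of_nonneg_right (Nat.le_ceil _) (by positivity)
  exact_mod_cast h4

end Vale.Agent.P147.Bal
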