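import Vale.Agent.P147.Bal.Pair
import Vale.Agent.P147.Bal.Esc
import Vale.Agent.P147.Bal.Start

/-!
# The flow forces invariant events to be constant (DESIGN step 6)
-/

open MeasureTheory Set Filter Topology
open scoped ENNReal

namespace Vale.Agent.P147.Bal

open Vale.Agent.P147.Proj (dsp verts iid grad Invariant)

variable {d : ℕ} {e : Step d} {μ : Measure (Row d)} [IsProbabilityMeasure μ]
  {Q : Env d → Site d → Measure (ℕ → Site d)} {A : Set (ℕ → Site d)}

omit [IsProbabilityMeasure μ] in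
lemma pw_eq_wt (ω : Env d) (x : Site d) (γ : List (Step d)) :
    pw ω x γ = Proj.wt (Proj.qw (0 : Fin d → Fin 1 → ℝ) 0) ω x γ := by
  have : (pq : Row d → Step d → ℝ≥0∞) = Proj.qw (0 : Fin d → Fin 1 → ℝ) 0 := by
    funext q a
    simp [pq, Proj.qw]
  rw [pw, this]

omit [IsProbabilityMeasure μ] in
lemma tsum_pw_grad_le (hQ : IsQuenchedLaw Q) (hA : MeasurableSet A) (hinv : Invariant A)
    (ω : Env d) : ∑' γ, pw ω 0 γ * ENNReal.ofReal (grad Q A ω (dsp γ)) ≤ 1 := by
  have h := Proj.energy_le (u := (0 : Fin d → Fin 1 → ℝ)) hQ hA hinv (lam := 0) le_rfl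
    (by norm_num) ω 0
  simpa [pw_eq_wt] using h

/-- The flow pays little gradient. -/
lemma lintegral_flow_grad_le (hQ : IsQuenchedLaw Q) (hA : MeasurableSet A) (hinv : Invariant A)
    (N K : ℕ) (σ : List (Step d)) :
    ∫⁻ ω, flowW e N K ω * (pw ω 0 σ * ENNReal.ofReal (grad Q A ω (dsp σ))) ∂iid μ
      ≤ (N : ℝ≥0∞)⁻¹ := by
  classical
  have hG : ∀ z, Measurable fun ω => ENNReal.ofReal (grad Q A ω z) := fun z =>
    (Proj.measurable_grad hQ hA z).ennreal_ofReal
  have hf : Measurable fun ω => pw ω 0 σ * ENNReal.ofReal (grad Q A ω (dsp σ)) :=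
    (measurable_pw 0 σ).mul (hG _)
  set T := fun γ (ω : Env d) => pw ω 0 (γ ++ σ) * ENNReal.ofReal (grad Q A ω (dsp (γ ++ σ)))
  have hT : ∀ γ, Measurable (T γ) := fun γ => (measurable_pw 0 _).mul (hG _)
  have hJ : ∀ J, ∫⁻ ω, levelW e N K J ω * (pw ω 0 σ * ENNReal.ofReal (grad Q A ω (dsp σ))) ∂iid μ
      ≤ ∫⁻ ω, ∑' γ, (if Pre e J γ then T γ ω else 0) ∂iid μ := by
    intro J
    simp only [levelW, ← ENNReal.tsum_mul_right]
    rw [lintegral_tsum fun γ => ?_, lintegral_tsum fun γ => ?_]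
    · refine ENNReal.tsum_le_tsum fun γ => ?_
      by_cases h : Pre e J γ ∧ Small N K γ
      swap
      · simp [h]
      simp only [if_pos h, if_pos h.1]
      refine le_of_eq ?_
      rw [← Proj.lintegral_shift μ (f := fun ω => pw ω (-dsp γ) γ *
        (pw ω 0 σ * ENNReal.ofReal (grad Q A ω (dsp σ)))) ((measurable_pw _ _).fun_mul hf) (dsp γ)]
      refine lintegral_congr fun ω => ?_
      simp only [T, pw_shift, Proj.grad_shift hQ hA hinv, neg_add_cancel, zero_add, pw_append,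
        Proj.dsp_append, mul_assoc, add_comm (dsp σ)]
    · by_cases h : Pre e J γ
      · simpa [h] using (hT γ).aemeasurable
      · simpa [h] using aemeasurable_const
    · by_cases h : Pre e J γ ∧ Small N K γ
      · simpa [h] using ((measurable_pw (-dsp γ) γ).fun_mul hf).aemeasurable
      · simpa [h] using aemeasurable_const
  have hmT : ∀ J, Measurable fun ω => ∑' γ, (if Pre e J γ then T γ ω else 0) := fun J =>
    Measurable.tsum fun γ => by by_cases h : Pre e J γ <;> simp [h, hT γ]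
  calc ∫⁻ ω, flowW e N K ω * (pw ω 0 σ * ENNReal.ofReal (grad Q A ω (dsp σ))) ∂iid μ
      = (N : ℝ≥0∞)⁻¹ * ∑ J ∈ Finset.range N,
          ∫⁻ ω, levelW e N K J ω * (pw ω 0 σ * ENNReal.ofReal (grad Q A ω (dsp σ))) ∂iid μ := by
        rw [← lintegral_finsetSum _ fun J _ => (measurable_levelW N K J).fun_mul hf,
          ← lintegral_const_mul _ (Finset.measurable_sum _ fun J _ =>
            (measurable_levelW N K J).fun_mul hf)]
        refine lintegral_congr fun ω => ?_
        rw [← Finset.sum_mul]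
        simp only [flowW, levelW, mul_assoc]
    _ ≤ (N : ℝ≥0∞)⁻¹ * ∑ J ∈ Finset.range N, ∫⁻ ω, ∑' γ, (if Pre e J γ then T γ ω else 0) ∂iid μ :=
        mul_le_mul_right (Finset.sum_le_sum fun J _ => hJ J) _
    _ ≤ (N : ℝ≥0∞)⁻¹ * ∫⁻ _, 1 ∂iid μ := by
        rw [← lintegral_finsetSum _ fun J _ => hmT J]
        refine mul_le_mul_right (lintegral_mono fun ω => ?_) _
        rw [← Summable.tsum_finsetSum fun _ _ => ENNReal.summable]
        refine (ENNReal.tsum_le_tsum (g := fun γ => T γ ω) fun γ => ?_).trans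
          ((ENNReal.tsum_comp_le_tsum_of_injective (f := fun γ => γ ++ σ)
            (fun a b h => List.append_cancel_right h)
            (fun γ => pw ω 0 γ * ENNReal.ofReal (grad Q A ω (dsp γ)))).trans
            (tsum_pw_grad_le hQ hA hinv ω))
        by_cases h : ∃ J ∈ Finset.range N, Pre e J γ
        · obtain ⟨J, hJr, hJp⟩ := h
          rw [Finset.sum_eq_single J (fun J' _ hne => if_neg fun h' => hne
            (h'.hgt_eq.symm.trans hJp.hgt_eq)) (fun hn => absurd hJr hn), if_pos hJp]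
        · push Not at h
          exact le_of_eq_of_le (Finset.sum_eq_zero fun J hJr => if_neg (h J hJr)) zero_le
    _ = (N : ℝ≥0∞)⁻¹ := by simp

/-- Harmonic functions of invariant events are flat with positive probability. -/
lemma flat_pos (hd : 4 ≤ d) (hQ : IsQuenchedLaw Q) (hA : MeasurableSet A) (hinv : Invariant A)
    (hell : ∀ᵐ q ∂μ, ∀ a : Step d, 0 < q.1 a)
    (hpos : ∫⁻ ω, Q ω 0 (fastEscape e) ∂iid μ ≠ 0) :
    iid μ {ω | ∀ σ : List (Step d),
      (∀ a, 0 < (ω (dsp σ)).1 a) ∧ grad Q A ω (dsp σ) = 0} ≠ 0 := by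
  classical
  obtain ⟨⟨p, hp, hu⟩, hL⟩ := exists_start hQ hpos
  have hp1 : p ≠ ∞ := ne_top_of_le_ne_top ENNReal.one_ne_top ((hu 0).trans (u_le_one 0))
  have hν : nu μ e ≠ ∞ := ne_top_of_le_ne_top hL nu_le_meanLen
  have hU := renew_l2 hd hell hp hu
  obtain ⟨c, hc, hcle⟩ := exists_esc_lb (by omega : 2 ≤ d) hell hp hu hU (visit_l2 hU hν)
  obtain ⟨c', hc', hc'1, hc'le⟩ : ∃ c', c' ≠ 0 ∧ c' ≠ ∞ ∧ ∀ M, c' ≤ esc μ e M :=
    ⟨min c 1, by simp [hc], ne_top_of_le_ne_top ENNReal.one_ne_top (min_le_right _ _),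
      fun M => (min_le_left _ _).trans (hcle M)⟩
  obtain ⟨K0, hK0'⟩ := ENNReal.exists_nat_mul_gt hp (ENNReal.mul_ne_top ENNReal.ofNat_ne_top hν
    : (2 : ℝ≥0∞) * nu μ e ≠ ∞)
  set K := K0 + 1
  have hK : 2 * nu μ e ≤ p * K := by
    refine hK0'.le.trans ?_
    rw [mul_comm]
    refine mul_le_mul_right ?_ _
    exact_mod_cast Nat.le_succ K0
  set M2 := 2 * (1 + nu μ e * (K + 1 : ℕ) / c')
  have hM2 : M2 ≠ ∞ := ENNReal.mul_ne_top ENNReal.ofNat_ne_top (ENNReal.add_ne_top.2
    ⟨ENNReal.one_ne_top, ENNReal.div_ne_top (ENNReal.mul_ne_top hν (ENNReal.natCast_ne_top _)) hc'⟩)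
  have hp8 : p / 8 ≠ 0 := ENNReal.div_ne_zero.2 ⟨hp, ENNReal.ofNat_ne_top⟩
  obtain ⟨t0, ht0⟩ := ENNReal.exists_nat_mul_gt hp8 hM2
  set t : ℝ≥0∞ := ((t0 + 1 : ℕ) : ℝ≥0∞)
  have ht : t ≠ 0 := by simp [t]
  have httop : t ≠ ∞ := ENNReal.natCast_ne_top _
  have htM : t⁻¹ * M2 ≤ p / 8 := by
    rw [ENNReal.inv_mul_le_iff ht httop]
    refine ht0.le.trans (mul_le_mul_left ?_ _)
    simp only [t]
    exact_mod_cast Nat.le_succ t0
  set W := fun k => flowW (d := d) e (2 ^ k) K
  set S := fun k => {ω : Env d | p / 4 < W k ω}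
  have hSm : ∀ k, MeasurableSet (S k) := fun k =>
    measurableSet_lt measurable_const (measurable_flowW _ _)
  have hS : ∀ k, p / 8 ≤ t * iid μ (S k) := by
    intro k
    have h1 := flow_mean (μ := μ) hu (K := K) (by omega) hK hp1 (N := 2 ^ k) (by positivity)
    have h2 := flow_sq (μ := μ) (e := e) hc'le hc' (K := K) (N := 2 ^ k) (by positivity) hc'1
    have hpt : ∀ ω, W k ω ≤ p / 4 + t⁻¹ * W k ω ^ 2 + t * (S k).indicator (fun _ => 1) ω := by
      intro ω
      by_cases hω : ω ∈ S k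
      · rw [indicator_of_mem hω, mul_one]
        rcases le_total (W k ω) t with h | h
        · exact le_add_of_le_of_nonneg h zero_le |>.trans (by rw [add_zero]; exact le_add_self)
        · refine le_trans ?_ le_self_add
          refine le_trans ?_ le_add_self
          calc W k ω = t⁻¹ * (t * W k ω) := by
                rw [← mul_assoc, ENNReal.inv_mul_cancel ht httop, one_mul]
            _ ≤ _ := by rw [sq]; gcongr
      · exact (not_lt.1 hω).trans (le_self_add.trans le_self_add)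
    have h3 : p / 2 ≤ p / 4 + p / 8 + t * iid μ (S k) := by
      refine h1.trans ((lintegral_mono hpt).trans ?_)
      rw [lintegral_add_left (measurable_const.fun_add ((measurable_flowW _ _).pow_const 2
          |>.const_mul _)),
        lintegral_add_left measurable_const, lintegral_const_mul _
          ((measurable_flowW _ _).pow_const 2),
        lintegral_const_mul _ (measurable_const.indicator (hSm k)),
        lintegral_indicator_const (hSm k), lintegral_const, measure_univ, mul_one, one_mul]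
      gcongr
      exact (mul_le_mul_right h2 _).trans htM
    refine ENNReal.le_of_add_le_add_left
      (ENNReal.add_ne_top.2 ⟨ENNReal.div_ne_top hp1 (by norm_num : (4 : ℝ≥0∞) ≠ 0),
        ENNReal.div_ne_top hp1 (by norm_num : (8 : ℝ≥0∞) ≠ 0)⟩) (le_of_eq_of_le ?_ h3)
    rw [← ENNReal.toReal_eq_toReal_iff' (by simp [ENNReal.div_ne_top, hp1])
      (ENNReal.div_ne_top hp1 two_ne_zero)]
    simp [ENNReal.toReal_add, ENNReal.div_ne_top, hp1, ENNReal.toReal_div]
    ring
  set Sinf := ⋂ n, ⋃ k ≥ n, S k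
  have hinf : iid μ Sinf ≠ 0 := by
    intro h0
    have hmeas : ∀ n, MeasurableSet (⋃ k ≥ n, S k) := fun n =>
      MeasurableSet.iUnion fun k => MeasurableSet.iUnion fun _ => hSm k
    have h := Antitone.measure_iInter (μ := iid μ) (s := fun n => ⋃ k ≥ n, S k)
      (fun a b hab => biUnion_mono (fun k hk => le_trans hab hk) fun _ _ => le_rfl)
      (fun n => (hmeas n).nullMeasurableSet) ⟨0, measure_ne_top _ _⟩
    have hb : t⁻¹ * (p / 8) ≤ ⨅ n, iid μ (⋃ k ≥ n, S k) := le_iInf fun n => by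
      rw [ENNReal.inv_mul_le_iff ht httop]
      exact (hS n).trans (mul_le_mul_right (measure_mono (subset_biUnion_of_mem (u := S) le_rfl)) _)
    rw [← h, show iid μ (⋂ n, ⋃ k ≥ n, S k) = 0 from h0, nonpos_iff_eq_zero, mul_eq_zero] at hb
    rcases hb with hb | hb
    · exact httop (ENNReal.inv_eq_zero.1 hb)
    · exact hp8 hb
  set f := fun σ (ω : Env d) => pw ω 0 σ * ENNReal.ofReal (grad Q A ω (dsp σ))
  have hfm : ∀ σ, Measurable (f σ) := fun σ =>
    (measurable_pw 0 σ).mul (Proj.measurable_grad hQ hA _).ennreal_ofReal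
  have hzero : ∀ σ, ∀ᵐ ω ∂iid μ, ω ∈ Sinf → f σ ω = 0 := by
    intro σ
    have hk : ∀ k, ∫⁻ ω, (S k).indicator (f σ) ω ∂iid μ ≤ (p / 4)⁻¹ * (((2 : ℝ≥0∞) ^ k)⁻¹) := by
      intro k
      have hp4 : p / 4 ≠ 0 := ENNReal.div_ne_zero.2 ⟨hp, ENNReal.ofNat_ne_top⟩
      have hp4' : p / 4 ≠ ∞ := ENNReal.div_ne_top hp1 (by norm_num)
      rw [← ENNReal.div_eq_inv_mul, ENNReal.le_div_iff_mul_le (Or.inl hp4) (Or.inl hp4'), mul_comm,
        ← lintegral_const_mul _ ((hfm σ).indicator (hSm k))]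
      refine le_trans (lintegral_mono fun ω => ?_) ((lintegral_flow_grad_le (μ := μ) (e := e)
        hQ hA hinv (2 ^ k) K σ).trans_eq (by simp))
      by_cases hω : ω ∈ S k
      · rw [indicator_of_mem hω]
        exact mul_le_mul_left (le_of_lt hω) _
      · simp [indicator_of_notMem hω]
    have hsum : ∫⁻ ω, ∑' k, (S k).indicator (f σ) ω ∂iid μ ≠ ∞ := by
      rw [lintegral_tsum fun k => ((hfm σ).indicator (hSm k)).aemeasurable]
      refine ne_top_of_le_ne_top ?_ (ENNReal.tsum_le_tsum hk)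
      rw [ENNReal.tsum_mul_left]
      refine ENNReal.mul_ne_top (ENNReal.inv_ne_top.2
        (ENNReal.div_ne_zero.2 ⟨hp, ENNReal.ofNat_ne_top⟩)) ?_
      simp only [ENNReal.inv_pow]
      rw [ENNReal.tsum_geometric, ENNReal.one_sub_inv_two, inv_inv]
      exact ENNReal.ofNat_ne_top
    filter_upwards [ae_lt_top (Measurable.tsum fun k => (hfm σ).indicator (hSm k)) hsum]
      with ω hω hin
    by_contra hne
    have ht' := ENNReal.tendsto_atTop_zero_of_tsum_ne_top hω.ne
    obtain ⟨n, hn⟩ := ENNReal.tendsto_atTop_zero.1 ht' (f σ ω / 2)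
      (ENNReal.div_pos_iff.2 ⟨hne, ENNReal.ofNat_ne_top⟩)
    simp only [Sinf, mem_iInter, mem_iUnion] at hin
    obtain ⟨k, hkn, hk'⟩ := hin n
    have := hn k hkn
    rw [indicator_of_mem hk'] at this
    have hone : pw ω 0 σ ≤ 1 := by
      refine le_trans ?_ ((ENNReal.le_tsum σ).trans (tsum_pw_le_one {σ} ?_ ω 0))
      · rw [indicator_of_mem (mem_singleton σ)]
      · intro γ δ h1 h2
        rw [mem_singleton_iff] at h1 h2
        subst h1
        simpa using h2
    exact absurd this (not_le.2 (ENNReal.half_lt_self hne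
      (ENNReal.mul_ne_top (ne_top_of_le_ne_top ENNReal.one_ne_top hone) ENNReal.ofReal_ne_top)))
  have hall : ∀ᵐ ω ∂iid μ, ∀ x, ∀ a : Step d, 0 < (ω x).1 a := ae_all_iff.2 fun x =>
    (measurePreserving_eval_infinitePi (fun _ : Site d => μ) x).quasiMeasurePreserving.ae hell
  intro h0
  refine hinf (measure_eq_zero_iff_ae_notMem.2 ?_)
  filter_upwards [hall, ae_all_iff.2 hzero, measure_eq_zero_iff_ae_notMem.1 h0] with ω hω hz hn hin
  refine hn fun σ => ⟨fun a => hω _ a, ?_⟩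
  have h1 := hz σ hin
  have hw : pw ω 0 σ ≠ 0 := pw_ne_zero (fun x a => hω x a) σ 0
  simp only [f, mul_eq_zero, hw, false_or, ENNReal.ofReal_eq_zero] at h1
  exact le_antisymm h1 (Proj.grad_nonneg ω _)

end Vale.Agent.P147.Bal
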