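import Vale.Agent.P147.Bal.Fourier.Bound

/-!
# Square summability of renewal measures with finite mean height in dimension at least four
-/

open MeasureTheory Set Filter Topology
open scoped ENNReal

namespace Vale.Agent.P147.Bal

variable {d : ℕ}

namespace Fourier

lemma convSum_mono {w w' : Site d → ℝ≥0∞} (h : ∀ z, w z ≤ w' z) :
    ∀ M y, convSum w M y ≤ convSum w' M y
  | 0, _ => le_rfl
  | M + 1, y => add_le_add le_rfl
      (ENNReal.tsum_le_tsum fun z => mul_le_mul' (h z) (convSum_mono h M _))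

/-- The partial renewal sums are suprema over exhaustions. -/
lemma convSum_le_iSup (w : Site d → ℝ≥0∞) (F : ℕ → Finset (Site d)) (hF : Monotone F)
    (hcov : ∀ z, ∃ k, z ∈ F k) :
    ∀ M y, convSum w M y ≤ ⨆ k, convSum (fun z => if z ∈ F k then w z else 0) M y
  | 0, _ => bot_le
  | M + 1, y => by
    set wk := fun k z => if z ∈ F k then w z else 0
    have hw : ∀ z, Monotone fun k => wk k z := fun z i j hij => by
      simp only [wk]
      split_ifs with h1 h2 <;> first | exact le_rfl | exact bot_le | exact absurd (hF hij h1) h2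
    have hc : ∀ u, Monotone fun k => convSum (wk k) M u := fun u i j hij =>
      convSum_mono (fun z => hw z hij) M u
    simp only [convSum]
    rw [← ENNReal.add_iSup]
    refine add_le_add le_rfl ?_
    rw [ENNReal.tsum_eq_iSup_sum]
    refine iSup_le fun s => ?_
    refine (Finset.sum_le_sum (g := fun z => ⨆ k, wk k z * convSum (wk k) M (y - z))
      fun z _ => ?_).trans ?_
    · refine (mul_le_mul' le_rfl (convSum_le_iSup w F hF hcov M (y - z))).trans ?_
      rw [ENNReal.mul_iSup]
      refine iSup_le fun k => ?_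
      obtain ⟨k₀, hk₀⟩ := hcov z
      refine le_trans ?_ (le_iSup (fun k => wk k z * convSum (wk k) M (y - z)) (max k k₀))
      refine mul_le_mul' (le_of_eq ?_) (hc _ (le_max_left _ _))
      simp [wk, hF (le_max_right k k₀) hk₀]
    · rw [ENNReal.finsetSum_iSup_of_monotone (f := fun z k => wk k z * convSum (wk k) M (y - z))
        fun z i j hij => mul_le_mul' (hw z hij) (hc _ hij)]
      exact iSup_mono fun k => ENNReal.sum_le_tsum s

lemma convSum_eq_coef (w : Site d → ℝ≥0∞) (hfin : ∀ z, w z ≠ ∞) (F : Finset (Site d)) :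
    ∀ M y, convSum (fun z => if z ∈ F then w z else 0) M y =
      ENNReal.ofReal (coef F (fun z => (w z).toReal) M y)
  | 0, _ => by simp [convSum, coef]
  | M + 1, y => by
    have hn := coef_nonneg (F := F) (c := fun z => (w z).toReal) (fun z => ENNReal.toReal_nonneg)
    simp only [convSum, coef]
    rw [tsum_eq_sum (s := F) (fun z hz => by simp [hz]), ENNReal.ofReal_add
      (by split_ifs <;> norm_num) (Finset.sum_nonneg fun z _ =>
        mul_nonneg ENNReal.toReal_nonneg (hn M _)), ENNReal.ofReal_sum_of_nonneg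
      (fun z _ => mul_nonneg ENNReal.toReal_nonneg (hn M _))]
    congr 1
    · split_ifs <;> simp
    · refine Finset.sum_congr rfl fun z hz => ?_
      rw [convSum_eq_coef w hfin F M (y - z), if_pos hz,
        ENNReal.ofReal_mul ENNReal.toReal_nonneg, ENNReal.ofReal_toReal (hfin z)]

/-- The squared coefficients of finitely many atoms are bounded through the singular integral. -/
lemma sum_coef_sq_le {e : Step d} {F : Finset (Site d)} {c : Site d → ℝ} {q ρ κ : ℝ}
    (h : Atoms e F c q ρ κ) (hq : 0 < q) (M : ℕ) :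
    ENNReal.ofReal ((2 * Real.pi) ^ d * ∑ y ∈ supp F M, coef F c M y ^ 2) ≤
      4 * ∫⁻ θ, ENNReal.ofReal (1 / Complex.normSq (1 - phi F c θ)) ∂box d := by
  rw [parseval, ← lintegral_const_mul' _ _ (by norm_num)]
  refine lintegral_mono_ae ?_
  filter_upwards [ae_box_bound d] with θ hθ
  have hre := h.re_lower hq θ fun i => (hθ i).1
  have hs : 0 < ∑ i, θ i ^ 2 := lt_of_lt_of_le
    (by have := (hθ e.1).2; positivity : (0 : ℝ) < θ e.1 ^ 2)
    (Finset.single_le_sum (f := fun i => θ i ^ 2) (fun _ _ => sq_nonneg _) (Finset.mem_univ _))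
  have hd : (0 : ℝ) < d := by exact_mod_cast Fin.pos e.1
  have hne : 1 - phi F c θ ≠ 0 := fun h0 => by
    rw [h0, Complex.zero_re] at hre
    have : 0 < 2 * q / (3 * Real.pi ^ 2 * d) * ∑ i, θ i ^ 2 := by positivity
    linarith
  have hphi : ‖phi F c θ‖ ≤ 1 := (norm_sum_le _ _).trans ((Finset.sum_le_sum fun z _ => by
    rw [norm_mul, norm_chr, mul_one, Complex.norm_real, Real.norm_of_nonneg (h.nonneg z)]).trans
      h.sum_le)
  rw [show (4 : ℝ≥0∞) = ENNReal.ofReal 4 by simp, ← ENNReal.ofReal_mul (by norm_num),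
    sum_coef_chr]
  refine ENNReal.ofReal_le_ofReal ?_
  rw [mul_one_div, le_div_iff₀ (Complex.normSq_pos.2 hne), Complex.normSq_eq_norm_sq, ← mul_pow,
    ← norm_mul, geom_sum_mul_neg]
  have h2 : ‖1 - phi F c θ ^ M‖ ≤ 2 := (norm_sub_le _ _).trans (by
    rw [norm_pow, norm_one]; linarith [pow_le_one₀ (n := M) (norm_nonneg _) hphi])
  nlinarith [norm_nonneg (1 - phi F c θ ^ M)]

end Fourier

open Fourier in
/-- The partial renewal measures of a subprobability on a half space with finite mean height, charging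
`vec e` and `vec a + vec e` for every transverse step `a`, are bounded in `l^2` if `d ≥ 4`. -/
theorem exists_l2_bound (hd : 4 ≤ d) (e : Step d) (w : Site d → ℝ≥0∞) (hw : ∑' z, w z ≤ 1)
    (hpos : ∀ z, w z ≠ 0 → 1 ≤ lev e z)
    (hmean : ∑' z, w z * ((lev e z).toNat : ℝ≥0∞) ≠ ∞)
    (he : w (vec e) ≠ 0) (hlat : ∀ a : Step d, a.1 ≠ e.1 → w (vec a + vec e) ≠ 0) :
    ∃ B : ℝ≥0∞, B ≠ ∞ ∧ ∀ M, ∑' y, convSum w M y ^ 2 ≤ B := by
  classical
  have hfin : ∀ z, w z ≠ ∞ := fun z =>
    ((ENNReal.le_tsum z).trans hw).trans_lt ENNReal.one_lt_top |>.ne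
  set c : Site d → ℝ := fun z => (w z).toReal
  have hc0 : ∀ z, 0 ≤ c z := fun z => ENNReal.toReal_nonneg
  have hcL : ∀ z, c z * (lev e z : ℝ) = (w z * ((lev e z).toNat : ℝ≥0∞)).toReal := fun z => by
    rw [ENNReal.toReal_mul, ENNReal.toReal_natCast]
    by_cases h0 : w z = 0
    · simp [c, h0]
    · have hl : ((lev e z).toNat : ℤ) = lev e z := Int.toNat_of_nonneg (by linarith [hpos z h0])
      congr 1
      exact_mod_cast hl.symm
  set L : Site d → ℝ := fun z => c z * (lev e z : ℝ)
  have hL0 : ∀ z, 0 ≤ L z := fun z => ENNReal.toReal_nonneg.trans_eq (hcL z).symm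
  have hLs : Summable L := by
    simp only [L, hcL]; exact ENNReal.summable_toReal hmean
  set A : Finset (Site d) :=
    insert (vec e) ((Finset.univ.filter fun a : Step d => a.1 ≠ e.1).image fun a => vec a + vec e)
  have hA : A.Nonempty := ⟨vec e, Finset.mem_insert_self _ _⟩
  have hApos : ∀ z ∈ A, 0 < c z := fun z hz => by
    refine ENNReal.toReal_pos ?_ (hfin z)
    rcases Finset.mem_insert.1 hz with rfl | hz
    · exact he
    · obtain ⟨a, ha, rfl⟩ := Finset.mem_image.1 hz
      exact hlat a (Finset.mem_filter.1 ha).2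
  set q := A.inf' hA c
  have hq : 0 < q := (Finset.lt_inf'_iff hA).2 hApos
  have hqA : ∀ z ∈ A, q ≤ c z := fun z hz => Finset.inf'_le _ hz
  obtain ⟨G, hG⟩ := summable_iff_vanishing.1 hLs (Metric.ball 0 (q / 8))
    (Metric.ball_mem_nhds _ (by positivity))
  set h : (Fin d → ℝ) → ℝ := fun θ => ∑ z ∈ G, L z * (1 - Real.cos (dot z θ))
  have hh : Continuous h := continuous_finsetSum _ fun z _ =>
    continuous_const.mul (continuous_const.sub (Real.continuous_cos.comp (continuous_dot z)))
  obtain ⟨δ, hδ, hδh⟩ := Metric.continuousAt_iff.1 (hh.continuousAt (x := 0)) (q / 8) (by positivity)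
  set ρ := δ / 2
  have hρ : 0 < ρ := by positivity
  have atoms : ∀ F : Finset (Site d), A ⊆ F → Atoms e F c q ρ (q / 2) := by
    intro F hAF
    refine ⟨hc0, ?_, ⟨hAF (Finset.mem_insert_self _ _), hqA _ (Finset.mem_insert_self _ _)⟩,
      fun a ha => ?_, fun θ hθ => ?_⟩
    · rw [← ENNReal.toReal_sum fun z _ => hfin z]
      exact ENNReal.toReal_le_of_le_ofReal zero_le_one (by simpa using (ENNReal.sum_le_tsum F).trans hw)
    · have hm : vec a + vec e ∈ A :=
        Finset.mem_insert_of_mem (Finset.mem_image.2 ⟨a, by simp [ha], rfl⟩)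
      exact ⟨hAF hm, hqA _ hm⟩
    have h1 : q ≤ ∑ z ∈ F, L z := by
      refine le_trans ?_ (Finset.single_le_sum (fun z _ => hL0 z) (hAF (Finset.mem_insert_self (vec e) _)))
      simp only [L, lev_vec_self, Int.cast_one, mul_one]
      exact hqA _ (Finset.mem_insert_self _ _)
    have hterm : ∀ z, 0 ≤ L z * (1 - Real.cos (dot z θ)) := fun z =>
      mul_nonneg (hL0 z) (by linarith [Real.cos_le_one (dot z θ)])
    have h2 : ∑ z ∈ F \ G, L z * (1 - Real.cos (dot z θ)) ≤ q / 4 := by
      have h5 := hG (F \ G) Finset.sdiff_disjoint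
      rw [mem_ball_zero_iff, Real.norm_eq_abs] at h5
      refine (Finset.sum_le_sum fun z _ => mul_le_mul_of_nonneg_left
        (by linarith [Real.neg_one_le_cos (dot z θ)] : (1 - Real.cos (dot z θ)) ≤ 2) (hL0 z)).trans ?_
      rw [← Finset.sum_mul]
      linarith [(abs_lt.1 h5).2]
    have h3 : ∑ z ∈ F ∩ G, L z * (1 - Real.cos (dot z θ)) ≤ q / 8 := by
      refine (Finset.sum_le_sum_of_subset_of_nonneg Finset.inter_subset_right fun z _ _ => hterm z).trans ?_
      have h4 : dist θ 0 < δ := by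
        rw [dist_zero_right]
        exact ((pi_norm_le_iff_of_nonneg hρ.le).2 fun i => (Real.norm_eq_abs _).trans_le (hθ i)).trans_lt
          (half_lt_self hδ)
      have h5 := hδh h4
      rw [Real.dist_eq, show h 0 = 0 by simp [h, dot], sub_zero] at h5
      exact (le_abs_self _).trans h5.le
    have h4 := Finset.sum_inter_add_sum_sdiff F G fun z => L z * (1 - Real.cos (dot z θ))
    show q / 2 ≤ ∑ z ∈ F, L z * Real.cos (dot z θ)
    simp only [mul_sub, mul_one, Finset.sum_sub_distrib] at h2 h3 h4 ⊢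
    linarith
  obtain ⟨I, hI, hIb⟩ := exists_integral_bound hd e hq hρ (half_pos hq)
  have hπ : (0 : ℝ) < (2 * Real.pi) ^ d := by positivity
  set B := 4 * I / ENNReal.ofReal ((2 * Real.pi) ^ d)
  refine ⟨B, ENNReal.div_ne_top (ENNReal.mul_ne_top (by norm_num) hI)
    (ENNReal.ofReal_pos.2 hπ).ne', fun M => ?_⟩
  obtain ⟨f, hf⟩ := exists_surjective_nat (Site d)
  set Fk : ℕ → Finset (Site d) := fun k => A ∪ (Finset.range k).image f
  have hmono : Monotone Fk := fun i j hij =>
    Finset.union_subset_union le_rfl (Finset.image_subset_image (Finset.range_mono hij))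
  have hcov : ∀ z, ∃ k, z ∈ Fk k := fun z => by
    obtain ⟨n, rfl⟩ := hf z
    exact ⟨n + 1, Finset.mem_union_right _ (Finset.mem_image.2 ⟨n, by simp, rfl⟩)⟩
  set C := fun k y => convSum (fun z => if z ∈ Fk k then w z else 0) M y
  have hCm : ∀ y, Monotone fun k => C k y := fun y i j hij => convSum_mono (fun z => by
    split_ifs with h1 h2 <;> first | exact le_rfl | exact bot_le | exact absurd (hmono hij h1) h2) M y
  rw [ENNReal.tsum_eq_iSup_sum]
  refine iSup_le fun Y => ?_
  refine (Finset.sum_le_sum (g := fun y => ⨆ k, C k y ^ 2) fun y _ => ?_).trans ?_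
  · refine (pow_le_pow_left' (convSum_le_iSup w Fk hmono hcov M y) 2).trans ?_
    rw [pow_two, ENNReal.iSup_mul]
    refine iSup_le fun i => ?_
    rw [ENNReal.mul_iSup]
    refine iSup_le fun j => le_trans ?_ (le_iSup (fun k => C k y ^ 2) (max i j))
    rw [pow_two]
    exact mul_le_mul' (hCm y (le_max_left i j)) (hCm y (le_max_right i j))
  rw [ENNReal.finsetSum_iSup_of_monotone fun y i j hij => pow_le_pow_left' (hCm y hij) 2]
  refine iSup_le fun k => ?_
  have ha := atoms (Fk k) Finset.subset_union_left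
  have hn := coef_nonneg (F := Fk k) (c := c) hc0 M
  calc ∑ y ∈ Y, C k y ^ 2 ≤ ∑' y, C k y ^ 2 := ENNReal.sum_le_tsum Y
    _ = ∑ y ∈ supp (Fk k) M, ENNReal.ofReal (coef (Fk k) c M y ^ 2) := by
      rw [tsum_eq_sum (s := supp (Fk k) M)]
      · exact Finset.sum_congr rfl fun y _ => by
          simp only [C, convSum_eq_coef w hfin]; rw [← ENNReal.ofReal_pow (hn y)]
      · intro y hy
        simp [C, convSum_eq_coef w hfin, c, coef_eq_zero (Fk k) (fun z => (w z).toReal) M y hy]
    _ ≤ B := by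
      rw [← ENNReal.ofReal_sum_of_nonneg fun y _ => sq_nonneg _,
        ENNReal.le_div_iff_mul_le (Or.inl (ENNReal.ofReal_pos.2 hπ).ne') (Or.inl ENNReal.ofReal_ne_top),
        ← ENNReal.ofReal_mul (Finset.sum_nonneg fun y _ => sq_nonneg _), mul_comm (∑ y ∈ _, _)]
      exact (sum_coef_sq_le ha hq M).trans (mul_le_mul' le_rfl (hIb _ _ ha))

end Vale.Agent.P147.Bal
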