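import Vale.Agent.P147.Bal.Oscillate.Moment
import Vale.Agent.P147.Bal.Start

/-!
# A walk which does not escape has no positive upper speed (Zerner 2002)

If staying above the starting level forever has positive probability, every fresh level is such an
attempt, so a walk reaching all levels eventually stays above each level. Otherwise many levels with
few visits are exponentially unlikely, so no positive upper speed is possible.
-/

open MeasureTheory Set Filter Topology
open scoped ENNReal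

namespace Vale.Agent.P147.Bal

open Vale.Agent.P147.Proj (dsp verts wt trail iid DepOn)

variable {d : ℕ} {e : Step d} {μ : Measure (Row d)} [IsProbabilityMeasure μ]
  {Q : Env d → Site d → Measure (ℕ → Site d)}

/-- No escape along `e` but a positive upper speed. -/
def fastOscillate (e : Step d) : Set (ℕ → Site d) :=
  {X | ¬ Tendsto (fun n => (lev e (X n) : ℝ)) atTop atTop ∧
    ∃ c : ℝ, 0 < c ∧ ∃ᶠ n in atTop, c * n ≤ (lev e (X n) : ℝ)}

lemma mem_lcyl_left {X : ℕ → Site d} {x : Site d} {η δ : List (Step d)}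
    (h : X ∈ lcyl x (η ++ δ)) : X ∈ lcyl x η := by
  intro k hk
  have := h k (by simp; omega)
  rwa [List.take_append_of_le_length hk] at this

lemma exists_seg {X : ℕ → Site d} (hnn : X ∈ nnPaths d) {κ : List (Step d)}
    (hκ : X ∈ lcyl 0 κ) {a : ℕ} (ha : κ.length ≤ a) :
    ∃ β, (κ ++ β).length = a ∧ X ∈ lcyl 0 (κ ++ β) := by
  have h0 : X κ.length = dsp κ := by simpa using hκ κ.length le_rfl
  obtain ⟨β, hl, hβ⟩ := exists_steps (a - κ.length) (ptail^[κ.length] X) fun k => by
    obtain ⟨b, hb⟩ := hnn (k + κ.length)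
    exact ⟨b, by rw [iterate_ptail, iterate_ptail, add_right_comm]; exact hb⟩
  refine ⟨β, by simp [hl]; omega, fun k hk => ?_⟩
  rcases le_or_gt k κ.length with h | h
  · rw [List.take_append_of_le_length h]
    exact hκ k h
  · have h2 := hβ (k - κ.length) (by simp at hk; omega)
    rw [iterate_ptail, iterate_ptail, Nat.sub_add_cancel h.le, zero_add, h0] at h2
    rw [h2, List.take_append, List.take_of_length_le h.le, Proj.dsp_append, zero_add]

lemma lev_mem_trail {X : ℕ → Site d} {κ : List (Step d)} (hκ : X ∈ lcyl 0 κ) {k : ℕ}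
    (hk : k ≤ κ.length) : X k ∈ trail 0 κ := by
  rw [hκ k hk, zero_add]
  have h : dsp (κ.take k) ∈ verts 0 κ ++ [0 + dsp κ] := by
    rcases hk.eq_or_lt with h | h
    · subst h
      simp
    · refine List.mem_append_left _ ?_
      have e1 := verts_append (0 : Site d) (κ.take k) (κ.drop k)
      rw [List.take_append_drop] at e1
      rw [e1, zero_add]
      exact List.mem_append_right _ (self_mem_verts _ (by simp; omega))
  simpa [trail, or_comm] using h

/-! ## Staying above has positive probability -/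

/-- A first descent below `m`. -/
def Desc (e : Step d) (m : ℤ) (x : Site d) (δ : List (Step d)) : Prop :=
  (∀ v ∈ verts x δ, m ≤ lev e v) ∧ lev e (x + dsp δ) = m - 1

open Classical in
/-- A descent below a fresh level misses the probability of staying. -/
lemma tsum_desc_le {m : ℤ} (η : List (Step d)) (hη : Hit1 e m 0 η) {s : ℝ≥0∞}
    (hs : ∀ n, s ≤ stayMass μ e n) :
    ∑' δ, (if Desc e m (dsp η) δ then ∫⁻ ω, pw ω 0 η * pw ω (dsp η) δ ∂iid μ else 0)
      ≤ (1 - s) * cw μ η := by
  set z := dsp η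
  have hz : lev e z = m := by simpa using hη.2
  have hfin : cw μ η ≠ ∞ := by
    refine ne_top_of_le_ne_top ENNReal.one_ne_top ?_
    have h1 := tsum_free_le (μ := μ) (F := fun _ => (1 : ℝ≥0∞)) measurable_const (0 : Site d) {η}
      (fun γ δ h h' => by
        simp only [mem_singleton_iff] at h h'
        subst h
        simpa using h')
    rw [tsum_eq_single η fun γ hγ => indicator_of_notMem (by simpa using hγ) _] at h1
    simpa [cw] using h1
  rw [Proj.tsum_eq_iSup_short]
  refine iSup_le fun n => ?_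
  set S : Set (List (Step d)) :=
    {δ | (δ.length < n ∧ Desc e m z δ) ∨ (δ.length = n ∧ Stay e m z δ)}
  have hfree : ∀ γ δ, γ ∈ S → γ ++ δ ∈ S → δ = [] := by
    intro γ δ h h'
    by_contra hne
    have hmem : z + dsp γ ∈ verts z (γ ++ δ) := by
      rw [verts_append]
      exact List.mem_append_right _ (self_mem_verts _ hne)
    have hle : m ≤ lev e (z + dsp γ) := by
      rcases h' with ⟨-, h2⟩ | ⟨-, h2⟩ <;> exact h2.1 _ hmem
    rcases h with ⟨-, h1⟩ | ⟨h1, -⟩
    · have := h1.2
      omega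
    · have h3 : 0 < δ.length := List.length_pos_iff.2 hne
      have h4 : (γ ++ δ).length = γ.length + δ.length := List.length_append
      rcases h' with ⟨h2, -⟩ | ⟨h2, -⟩ <;> omega
  have htot := tsum_free_le (μ := μ) (measurable_pw 0 η) z S hfree
  have hstay : s * cw μ η ≤ ∑' δ, if δ.length = n ∧ Stay e m z δ then
      ∫⁻ ω, pw ω 0 η * pw ω z δ ∂iid μ else 0 := by
    refine (mul_le_mul_left (hs n) _).trans (le_of_eq ?_)
    rw [← tsum_stay_le (μ := μ) m hz n, ← ENNReal.tsum_mul_right]
    refine tsum_congr fun δ => ?_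
    split_ifs with h
    · rw [lintegral_pw_mul_disjoint fun v hv hv' => ?_, mul_comm]
      have := hη.1 v hv
      have := h.2.1 v hv'
      omega
    · rw [zero_mul]
  rw [show ∑ δ ∈ Proj.short n, (if Desc e m z δ then ∫⁻ ω, pw ω 0 η * pw ω z δ ∂iid μ else 0) =
      ∑' δ, (if δ ∈ Proj.short n then
        (if Desc e m z δ then ∫⁻ ω, pw ω 0 η * pw ω z δ ∂iid μ else 0) else 0) from
      (Finset.sum_congr rfl fun δ hδ => (if_pos hδ).symm).trans
        (tsum_eq_sum fun δ hδ => if_neg hδ).symm,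
    ENNReal.sub_mul (fun _ _ => hfin), one_mul]
  refine ENNReal.le_sub_of_add_le_right (ENNReal.mul_ne_top ?_ hfin) ?_
  · refine ne_top_of_le_ne_top ENNReal.one_ne_top ((hs 0).trans ?_)
    unfold stayMass
    rw [tsum_eq_single ([] : List (Step d)) fun γ hγ => if_neg fun h => hγ (List.length_eq_zero_iff.1 h.1)]
    split_ifs
    · exact cw_nil.le
    · exact zero_le
  refine le_trans (add_le_add le_rfl hstay) (le_trans ?_ htot)
  rw [← ENNReal.tsum_add]
  refine ENNReal.tsum_le_tsum fun δ => ?_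
  by_cases hS : δ ∈ S
  · rw [indicator_of_mem hS]
    by_cases h1 : δ.length < n
    · rw [if_neg (fun h : δ.length = n ∧ _ => absurd h.1 (by omega)), add_zero]
      split_ifs <;> simp
    · rw [if_neg (fun h : δ ∈ Proj.short n => h1 (Proj.mem_short.1 h)), zero_add]
      split_ifs <;> simp
  · rw [indicator_of_notMem hS]
    simp only [S, mem_ofPred_eq, not_or] at hS
    rw [if_neg hS.2, add_zero]
    split_ifs with h1 h2
    · exact absurd ⟨Proj.mem_short.1 h1, h2⟩ hS.1
    · exact le_rfl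
    · exact le_rfl

/-- The first level above `κ`, and at least `r`. -/
noncomputable def nextLev (e : Step d) (r : ℕ) (κ : List (Step d)) : ℕ :=
  max r ((trail 0 κ).sup fun v => (lev e v).toNat + 1)

/-- `k` failed attempts to stay above a fresh level `≥ r`. -/
def failSet (e : Step d) (r : ℕ) : ℕ → Set (List (Step d))
  | 0 => {[]}
  | k + 1 => {γ | ∃ κ ∈ failSet e r k, ∃ β δ, γ = κ ++ β ++ δ ∧
      Hit1 e (nextLev e r κ) 0 (κ ++ β) ∧ Desc e (nextLev e r κ) (dsp (κ ++ β)) δ}

lemma tsum_failSet_le {s : ℝ≥0∞} (hs : ∀ n, s ≤ stayMass μ e n) (r : ℕ) : ∀ k,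
    ∑' γ, (failSet e r k).indicator (cw μ) γ ≤ (1 - s) ^ k := by
  classical
  intro k
  induction k with
  | zero =>
    rw [tsum_eq_single ([] : List (Step d))
      fun γ hγ => indicator_of_notMem (by simpa [failSet] using hγ) _]
    simp [failSet, cw_nil]
  | succ k ih =>
    refine (Proj.tsum_le_split _ (fun z => ∑' κ, (failSet e r k).indicator (fun κ => ∑' β,
        if Hit1 e (nextLev e r κ) 0 (κ ++ β) ∧ Desc e (nextLev e r κ) (dsp (κ ++ β)) z.2 ∧
          z.1 = κ ++ β then ∫⁻ ω, pw ω 0 z.1 * pw ω (dsp z.1) z.2 ∂iid μ else 0) κ)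
      fun γ hγ => ?_).trans ?_
    · have hm : γ ∈ failSet e r (k + 1) := by
        by_contra h
        exact hγ (indicator_of_notMem h _)
      obtain ⟨κ, hκ, β, δ, rfl, h1, h2⟩ := hm
      refine ⟨κ ++ β, δ, rfl, ?_⟩
      rw [indicator_of_mem (show κ ++ β ++ δ ∈ failSet e r (k + 1) from
        ⟨κ, hκ, β, δ, rfl, h1, h2⟩)]
      refine le_trans ?_ (ENNReal.le_tsum κ)
      rw [indicator_of_mem hκ]
      refine le_trans ?_ (ENNReal.le_tsum β)
      rw [if_pos ⟨h1, h2, rfl⟩, cw]
      exact le_of_eq (lintegral_congr fun ω => by rw [pw_append, zero_add])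
    · rw [ENNReal.tsum_prod', pow_succ']
      refine le_trans ?_ (mul_le_mul_right ih _)
      rw [← ENNReal.tsum_mul_left]
      conv_lhs => enter [1, η]; rw [ENNReal.tsum_comm]
      rw [ENNReal.tsum_comm]
      refine ENNReal.tsum_le_tsum fun κ => ?_
      by_cases hκ : κ ∈ failSet e r k
      · simp only [indicator_of_mem hκ]
        conv_lhs => enter [1, η]; rw [ENNReal.tsum_comm]
        rw [ENNReal.tsum_comm]
        set T : Set (List (Step d)) :=
          {β | Hit1 e (nextLev e r κ) 0 (κ ++ β)}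
        have hfree : ∀ γ δ, γ ∈ T → γ ++ δ ∈ T → δ = [] := fun γ δ h h' =>
          hit1_prefix_free (e := e) h (by simpa [T, List.append_assoc] using h')
        refine le_trans ?_ (mul_le_mul_right
          (tsum_free_le (μ := μ) (measurable_pw 0 κ) (dsp κ) T hfree) _)
        rw [← ENNReal.tsum_mul_left]
        refine ENNReal.tsum_le_tsum fun β => ?_
        rw [tsum_eq_single (κ ++ β) fun η hη => by simp [hη]]
        by_cases hβ : β ∈ T
        · rw [indicator_of_mem hβ]
          have e1 : ∫⁻ ω, pw ω 0 κ * pw ω (dsp κ) β ∂iid μ = cw μ (κ ++ β) :=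
            lintegral_congr fun ω => by rw [pw_append, zero_add]
          rw [e1]
          refine le_trans (le_of_eq (tsum_congr fun δ => ?_)) (tsum_desc_le (κ ++ β) hβ hs)
          simp [show Hit1 e (nextLev e r κ) 0 (κ ++ β) from hβ]
        · simp [show ¬ Hit1 e (nextLev e r κ) 0 (κ ++ β) from hβ]
      · simp [indicator_of_notMem hκ]

/-- A path reaching all levels and returning below `r` infinitely often fails all attempts. -/
lemma exists_failSet {X : ℕ → Site d} (hnn : X ∈ nnPaths d) (h0 : X 0 = 0) {r : ℕ}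
    (hup : ∀ M : ℤ, ∃ n, M ≤ lev e (X n)) (hdown : ∃ᶠ n in atTop, lev e (X n) < r) :
    ∀ k, ∃ κ ∈ failSet e r k, X ∈ lcyl 0 κ := by
  intro k
  induction k with
  | zero => exact ⟨[], rfl, fun k hk => by simp at hk; simp [hk, h0]⟩
  | succ k ih =>
    obtain ⟨κ, hκ, hX⟩ := ih
    set m := nextLev e r κ with hm
    have hlow : ∀ v ∈ trail 0 κ, lev e v < m := by
      intro v hv
      have h1 := Finset.le_sup (f := fun v => (lev e v).toNat + 1) hv
      have h2 : (trail 0 κ).sup (fun v => (lev e v).toNat + 1) ≤ m := le_max_right _ _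
      omega
    obtain ⟨n, hn⟩ := hup m
    have hκn : κ.length ≤ n := by
      by_contra h
      have := hlow _ (lev_mem_trail hX (show n ≤ κ.length by omega))
      omega
    obtain ⟨β₀, hl₀, hX₀⟩ := exists_seg hnn hX hκn
    have hend₀ : lev e (dsp κ + dsp β₀) = lev e (X n) := by
      have := hX₀ n hl₀.ge
      rw [← hl₀, List.take_length, hl₀, zero_add, Proj.dsp_append] at this
      rw [this]
    obtain ⟨β, β', hβ, hβlt, hβend⟩ := exists_climb β₀ (e := e) (t := (m : ℤ)) (dsp κ)
      (hlow _ (by simpa using Proj.end_mem_trail (0 : Site d) κ)).le (by rw [hend₀]; exact hn)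
    have hXβ : X ∈ lcyl 0 (κ ++ β) := by
      refine mem_lcyl_left (δ := β') ?_
      rwa [List.append_assoc, ← hβ]
    have hhit : Hit1 e m 0 (κ ++ β) := by
      refine ⟨fun v hv => ?_, by rw [zero_add, Proj.dsp_append]; exact hβend⟩
      rw [verts_append, List.mem_append, zero_add] at hv
      rcases hv with h | h
      · exact hlow v (Proj.verts_subset_trail _ _ v h)
      · exact hβlt v h
    obtain ⟨n₂, hn₂, hn₂r⟩ := Filter.frequently_atTop.1 hdown (κ ++ β).length
    obtain ⟨δ₀, hlδ, hXδ⟩ := exists_seg hnn hXβ hn₂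
    have hend₂ : lev e (dsp (κ ++ β) + dsp δ₀) < m := by
      have := hXδ n₂ hlδ.ge
      rw [← hlδ, List.take_length, hlδ, zero_add, Proj.dsp_append] at this
      rw [← this]
      have : r ≤ m := le_max_left _ _
      omega
    obtain ⟨δ, δ', hδ, hδgt, hδend⟩ := exists_descend δ₀ (e := e) (t := (m : ℤ) - 1)
      (dsp (κ ++ β)) (by
        have := hhit.2
        rw [zero_add] at this
        omega)
      ⟨_, List.mem_append_right _ (List.mem_singleton_self _), by omega⟩
    refine ⟨κ ++ β ++ δ, ⟨κ, hκ, β, δ, rfl, hhit, fun v hv => ?_, hδend⟩, ?_⟩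
    · have := hδgt v hv
      omega
    · refine mem_lcyl_left (δ := δ') ?_
      rwa [List.append_assoc, ← hδ]

/-- With a positive probability of staying above the start, a walk reaching all levels escapes. -/
lemma return_null (hQ : IsQuenchedLaw Q) {s : ℝ≥0∞} (hs0 : s ≠ 0)
    (hs : ∀ n, s ≤ stayMass μ e n) (r : ℕ) :
    ∀ᵐ ω ∂iid μ, Q ω 0 {X | (∀ M : ℤ, ∃ n, M ≤ lev e (X n)) ∧
      ∃ᶠ n in atTop, lev e (X n) < r} = 0 := by
  classical
  set f : ℕ → Env d → ℝ≥0∞ := fun k ω => ∑' γ, (failSet e r k).indicator (pw ω 0) γ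
  have hfm : ∀ k, Measurable (f k) := fun k => Measurable.tsum fun γ => by
    by_cases h : γ ∈ failSet e r k
    · simpa [h] using measurable_pw 0 γ
    · simpa [h] using measurable_const
  have hfin : ∫⁻ ω, ∑' k, f k ω ∂iid μ ≠ ∞ := by
    rw [lintegral_tsum fun k => (hfm k).aemeasurable]
    refine ne_top_of_le_ne_top ?_ (ENNReal.tsum_le_tsum fun k =>
      (tsum_cw_le_lintegral (failSet e r k)).ge.trans (tsum_failSet_le hs r k))
    rw [ENNReal.tsum_geometric]
    exact ENNReal.inv_ne_top.2 (tsub_pos_of_lt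
      (ENNReal.sub_lt_self ENNReal.one_ne_top one_ne_zero hs0)).ne'
  filter_upwards [ae_lt_top (Measurable.tsum hfm) hfin] with ω hω
  have htend := ENNReal.tendsto_atTop_zero_of_tsum_ne_top hω.ne
  refine le_antisymm (ge_of_tendsto' htend fun k => ?_) bot_le
  refine le_trans (measure_mono_ae ?_) ((measure_biUnion_le (Q ω 0)
    (failSet e r k).to_countable (fun γ => lcyl 0 γ)).trans (le_of_eq ?_))
  · filter_upwards [hQ.ae_start ω 0, ae_nnPaths hQ ω 0] with X h0 hnn hX
    obtain ⟨κ, hκ, hc⟩ := exists_failSet hnn h0 hX.1 hX.2 k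
    exact mem_biUnion hκ hc
  · rw [tsum_subtype (failSet e r k) fun γ => Q ω 0 (lcyl 0 γ)]
    refine tsum_congr fun γ => ?_
    by_cases h : γ ∈ failSet e r k <;> simp [h, apply_lcyl hQ]

/-! ## Staying above has probability zero -/

lemma stayMass_anti : Antitone (stayMass μ e) := by
  classical
  refine antitone_nat_of_succ_le fun n => ?_
  have h := tsum_cut_le (μ := μ) (F := fun _ => (1 : ℝ≥0∞)) measurable_const (0 : Site d)
    {γ | γ.length = n + 1 ∧ Stay e 0 0 γ} {γ | γ.length = n ∧ Stay e 0 0 γ}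
    (fun γ δ h h' => List.length_eq_zero_iff.1 (by
      have h2 := h'.1
      rw [List.length_append, h.1] at h2
      omega))
    (fun γ hγ => ?_)
  · refine le_trans (le_of_eq (tsum_congr fun γ => ?_)) (h.trans (le_of_eq (tsum_congr fun γ => ?_)))
    · simp [stayMass, Set.indicator, cw]
    · simp [stayMass, Set.indicator, cw]
  · obtain ⟨hl, h1, h2⟩ := hγ
    refine ⟨γ.take n, γ.drop n, by simp, by simp; omega, fun v hv => ?_, ?_⟩
    · refine h1 v ?_
      rw [← List.take_append_drop n γ, verts_append]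
      exact List.mem_append_left _ hv
    · refine h1 _ ?_
      have e1 := verts_append (0 : Site d) (γ.take n) (γ.drop n)
      rw [List.take_append_drop] at e1
      rw [e1]
      exact List.mem_append_right _ (self_mem_verts _ (by simp; omega))

/-- A path at a high level at time `n` has many levels with few visits. -/
lemma exists_score {X : ℕ → Site d} (hnn : X ∈ nnPaths d) (h0 : X 0 = 0) {K L I n M : ℕ}
    (hL : 0 < L) (hM : (M : ℤ) ≤ lev e (X n)) (hIM : (I + 1) * L ≤ M)
    (hn : 4 * n < (K + 1) * ((I + 2) * L)) :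
    ∃ j ∈ Finset.range L, ∃ γ, Hit1 e ((j : ℤ) + I * L) 0 γ ∧ I ≤ 2 * score e K L j I γ ∧
      X ∈ lcyl 0 γ := by
  classical
  obtain ⟨γ, hl, hγ⟩ := exists_steps n X hnn
  rw [h0] at hγ
  obtain ⟨j, hj, hscore⟩ : ∃ j ∈ Finset.range L, I ≤ 2 * score e K L j I γ := by
    by_contra hno
    push Not at hno
    have hbad : ∀ j ∈ Finset.range L, (K + 1) * (I + 1) ≤
        2 * ∑ i ∈ Finset.range I, cntAt e ((j : ℤ) + i * L) 0 γ := by
      intro j hj
      have h1 := hno j hj
      have h3 : ((Finset.range I).filter fun i : ℕ =>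
            cntAt e ((j : ℤ) + i * L) 0 γ ≤ K).card + ((Finset.range I).filter fun i : ℕ =>
            ¬ cntAt e ((j : ℤ) + i * L) 0 γ ≤ K).card = I := by
        rw [Finset.card_filter_add_card_filter_not, Finset.card_range]
      rw [score] at h1
      set B := (Finset.range I).filter fun i : ℕ => ¬ cntAt e ((j : ℤ) + i * L) 0 γ ≤ K with hB
      have h4 : B.card * (K + 1) ≤ ∑ i ∈ B, cntAt e ((j : ℤ) + i * L) 0 γ := by
        rw [← smul_eq_mul]
        exact Finset.card_nsmul_le_sum _ _ _ fun i hi => by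
          simp only [hB, Finset.mem_filter] at hi; omega
      have h5 := Finset.sum_le_sum_of_subset (f := fun i : ℕ => cntAt e ((j : ℤ) + i * L) 0 γ)
        (show B ⊆ Finset.range I from Finset.filter_subset _ _)
      have h7 : I + 1 ≤ 2 * B.card := by omega
      have h8 := Nat.mul_le_mul_left (K + 1) h7
      nlinarith
    have h2 := Finset.sum_le_sum hbad
    rw [Finset.sum_const, Finset.card_range, smul_eq_mul, ← Finset.mul_sum, ← Finset.sum_product'] at h2
    have h6 : ∑ z ∈ Finset.range L ×ˢ Finset.range I, cntAt e ((z.1 : ℤ) + z.2 * L) 0 γ ≤ n := by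
      rw [← Finset.sum_image (g := fun z : ℕ × ℕ => (z.1 : ℤ) + z.2 * L)
        (f := fun t => cntAt e t 0 γ)]
      · exact (sum_cntAt_le _ _ _).trans hl.le
      · rintro ⟨a, b⟩ ha ⟨a', b'⟩ ha' heq
        simp only [Finset.coe_product, Finset.coe_range, mem_prod, mem_Iio] at ha ha'
        simp only at heq
        have heq' : a + b * L = a' + b' * L := by exact_mod_cast heq
        rcases lt_trichotomy b b' with h | h | h
        · have := Nat.mul_le_mul_right L h
          rw [Nat.succ_mul] at this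
          omega
        · subst h
          simp only [Nat.add_right_cancel_iff] at heq'
          rw [heq']
        · have := Nat.mul_le_mul_right L h
          rw [Nat.succ_mul] at this
          omega
    have h7 : (K + 1) * ((I + 2) * L) ≤ 2 * (L * ((K + 1) * (I + 1))) := by
      have : (I + 2) * L ≤ 2 * ((I + 1) * L) := by nlinarith
      have h9 := Nat.mul_le_mul_left (K + 1) this
      nlinarith
    omega
  refine ⟨j, hj, ?_⟩
  have hjL : (j : ℤ) + I * L ≤ M := by
    have := Finset.mem_range.1 hj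
    have h1 : j + I * L ≤ M := le_trans (by rw [Nat.add_mul, one_mul]; omega) hIM
    exact_mod_cast h1
  have hend : lev e (0 + dsp γ) = lev e (X n) := by
    rw [hγ n hl.ge, ← hl, List.take_length]
  obtain ⟨η, δ, rfl, h1, h2⟩ := exists_climb γ (e := e) (t := (j : ℤ) + I * L) (0 : Site d)
    (by rw [lev_zero]; positivity) (by rw [hend]; omega)
  exact ⟨η, ⟨h1, h2⟩, hscore.trans (Nat.mul_le_mul_left 2 (score_anti K L j I η δ)),
    mem_lcyl_left hγ⟩

/-- Without a chance of staying above the start there is no positive upper speed. -/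
lemma speed_null (hQ : IsQuenchedLaw Q) (hell : ∀ᵐ q ∂μ, ∀ a : Step d, 0 < q.1 a)
    (hs : Tendsto (fun n => stayMass μ e n) atTop (𝓝 0)) (K : ℕ) :
    ∀ᵐ ω ∂iid μ, Q ω 0 {X : ℕ → Site d | ∃ᶠ n : ℕ in atTop, (4 * (n : ℤ)) ≤ ((K : ℤ) + 1) * lev e (X n)} = 0 := by
  classical
  have hε : (2⁻¹ / 3 : ℝ≥0∞) ≠ 0 := (ENNReal.div_pos (by simp) (by simp)).ne'
  obtain ⟨L₀, hL₀⟩ := exists_few hell hs K 0 _ hε
  set L := max L₀ 1
  set ρ : ℝ≥0∞ := (1 + 3 * (2⁻¹ / 3)) / 2
  have h3 : (3 : ℝ≥0∞) * (2⁻¹ / 3) = 2⁻¹ := ENNReal.mul_div_cancel (by norm_num) (by simp)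
  have hρ : ρ < 1 := by
    rw [ENNReal.div_lt_iff (Or.inl (by norm_num)) (Or.inl (by simp)), one_mul, h3]
    calc (1 : ℝ≥0∞) + 2⁻¹ < 1 + 1 := ENNReal.add_lt_add_left ENNReal.one_ne_top
          ENNReal.one_half_lt_one
      _ = 2 := one_add_one_eq_two
  set T : ℕ → ℕ → Set (List (Step d)) := fun I j =>
    {γ | Hit1 e ((j : ℤ) + I * L) 0 γ ∧ I ≤ 2 * score e K L j I γ}
  set f : ℕ → Env d → ℝ≥0∞ := fun I ω =>
    ∑ j ∈ Finset.range L, ∑' γ, (T I j).indicator (pw ω 0) γ
  have hfm : ∀ I, Measurable (f I) := fun I => Finset.measurable_sum _ fun j _ =>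
    Measurable.tsum fun γ => by
      by_cases h : γ ∈ T I j
      · simpa [h] using measurable_pw 0 γ
      · simpa [h] using measurable_const
  have hmass : ∀ I j, ∑' γ, (T I j).indicator (cw μ) γ ≤ ρ ^ I := by
    intro I j
    have h2 : (2 : ℝ≥0∞) ^ I ≠ 0 := pow_ne_zero _ (by norm_num)
    have e1 : ρ ^ I = (1 + 3 * (2⁻¹ / 3)) ^ I / 2 ^ I := by
      simp only [ρ, div_eq_mul_inv, mul_pow, ENNReal.inv_pow]
    rw [e1, ENNReal.le_div_iff_mul_le (Or.inl h2) (Or.inl (ENNReal.pow_ne_top (by simp))),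
      ← ENNReal.tsum_mul_right]
    refine le_trans (ENNReal.tsum_le_tsum fun γ => ?_)
      (score_moment (hL₀ L (le_max_left _ _)) j I)
    by_cases h : γ ∈ T I j
    · rw [indicator_of_mem h, if_pos h.1, mul_comm]
      refine mul_le_mul_left ?_ _
      calc (2 : ℝ≥0∞) ^ I ≤ 2 ^ (2 * score e K L j I γ) := pow_le_pow_right₀ (by norm_num) h.2
        _ = 4 ^ score e K L j I γ := by rw [pow_mul]; norm_num
    · simp [indicator_of_notMem h]
  have hfin : ∫⁻ ω, ∑' I, f I ω ∂iid μ ≠ ∞ := by
    rw [lintegral_tsum fun I => (hfm I).aemeasurable]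
    refine ne_top_of_le_ne_top (b := ∑' I : ℕ, (L : ℝ≥0∞) * ρ ^ I) ?_ (ENNReal.tsum_le_tsum fun I => ?_)
    · rw [ENNReal.tsum_mul_left, ENNReal.tsum_geometric]
      exact ENNReal.mul_ne_top (ENNReal.natCast_ne_top _)
        (ENNReal.inv_ne_top.2 (tsub_pos_of_lt hρ).ne')
    · rw [lintegral_finsetSum _ fun j _ => Measurable.tsum fun γ => by
        by_cases h : γ ∈ T I j
        · simpa [h] using measurable_pw 0 γ
        · simpa [h] using measurable_const]
      refine le_trans (Finset.sum_le_sum (g := fun _ => ρ ^ I) fun j _ =>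
        (tsum_cw_le_lintegral (T I j)).ge.trans (hmass I j)) (le_of_eq ?_)
      simp
  set E : ℕ → Set (ℕ → Site d) := fun I => ⋃ j ∈ Finset.range L, ⋃ γ ∈ T I j, lcyl 0 γ
  filter_upwards [ae_lt_top (Measurable.tsum hfm) hfin] with ω hω
  have hlim : Q ω 0 (limsup E atTop) = 0 := by
    refine measure_limsup_atTop_eq_zero (ne_top_of_le_ne_top hω.ne
      (ENNReal.tsum_le_tsum fun I => ?_))
    refine (measure_biUnion_finset_le _ _).trans (Finset.sum_le_sum fun j _ => ?_)
    refine ((measure_biUnion_le (Q ω 0) (T I j).to_countable _).trans (le_of_eq ?_))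
    rw [tsum_subtype (T I j) fun γ => Q ω 0 (lcyl 0 γ)]
    refine tsum_congr fun γ => ?_
    by_cases h : γ ∈ T I j <;> simp [h, apply_lcyl hQ]
  refine le_antisymm (le_trans (measure_mono_ae ?_) hlim.le) bot_le
  filter_upwards [hQ.ae_start ω 0, ae_nnPaths hQ ω 0] with X h0 hnn hX
  refine mem_limsup_iff_frequently_mem.2 (Filter.frequently_atTop.2 fun I₀ => ?_)
  obtain ⟨n, hn, hbig⟩ := Filter.frequently_atTop.1 hX ((K + 1) * ((I₀ + 3) * L))
  set M := (lev e (X n)).toNat
  have hpos : (0 : ℤ) ≤ lev e (X n) := by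
    by_contra h
    nlinarith [Int.natCast_nonneg n, Int.natCast_nonneg K]
  have hM : (M : ℤ) = lev e (X n) := Int.toNat_of_nonneg hpos
  have hnM : 4 * n ≤ (K + 1) * M := by
    rw [← hM] at hbig
    exact_mod_cast hbig
  have hML : (I₀ + 3) * L ≤ M := by
    refine Nat.le_of_mul_le_mul_left ?_ (Nat.succ_pos K)
    simp only [Nat.succ_eq_add_one]
    omega
  have hL : 0 < L := by omega
  have hdiv : I₀ + 3 ≤ M / L := (Nat.le_div_iff_mul_le hL).2 hML
  set I := M / L - 1
  have hI1 : I + 1 = M / L := by omega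
  obtain ⟨j, hj, γ, hγ, hsc, hc⟩ := exists_score hnn h0 (K := K) (I := I) (n := n) hL hM.le
    (by rw [hI1]; exact Nat.div_mul_le_self M L)
    (by
      refine lt_of_le_of_lt hnM (Nat.mul_lt_mul_of_pos_left ?_ (Nat.succ_pos K))
      rw [show I + 2 = M / L + 1 by omega, Nat.add_mul, one_mul, mul_comm]
      have := Nat.div_add_mod M L
      have := Nat.mod_lt M hL
      omega)
  exact ⟨I, by omega, mem_biUnion hj (mem_biUnion (show γ ∈ T I j from ⟨hγ, hsc⟩) hc)⟩

/-- A walk which does not escape along `e` has no positive upper speed along `e`. -/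
theorem lintegral_fastOscillate (hQ : IsQuenchedLaw Q)
    (hell : ∀ᵐ q ∂μ, ∀ a : Step d, 0 < q.1 a) :
    ∫⁻ ω, Q ω 0 (fastOscillate e) ∂iid μ = 0 := by
  refine lintegral_eq_zero_of_ae_eq_zero ?_
  by_cases hs : ⨅ n, stayMass μ e n = 0
  · have htend : Tendsto (fun n => stayMass μ e n) atTop (𝓝 0) :=
      hs ▸ tendsto_atTop_iInf stayMass_anti
    filter_upwards [ae_all_iff.2 (speed_null hQ hell htend)] with ω hω
    refine measure_mono_null (fun X hX => ?_) (measure_iUnion_null hω)
    obtain ⟨-, c, hc, hfr⟩ := hX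
    obtain ⟨K, hK⟩ := exists_nat_ge (4 / c)
    refine mem_iUnion.2 ⟨K, hfr.mono fun n hn => ?_⟩
    have h4 : 4 ≤ ((K : ℝ) + 1) * c := by
      rw [div_le_iff₀ hc] at hK
      nlinarith
    have hn0 : (0 : ℝ) ≤ n := Nat.cast_nonneg n
    have h5 : (4 * n : ℝ) ≤ ((K : ℝ) + 1) * (lev e (X n) : ℝ) := by
      nlinarith [mul_le_mul_of_nonneg_right h4 hn0,
        mul_le_mul_of_nonneg_left hn (by positivity : (0 : ℝ) ≤ (K : ℝ) + 1)]
    exact_mod_cast h5
  · filter_upwards [ae_all_iff.2 (return_null (e := e) hQ hs fun n => iInf_le _ n)] with ω hω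
    refine measure_mono_null (fun X hX => ?_) (measure_iUnion_null hω)
    obtain ⟨hnot, c, hc, hfr⟩ := hX
    obtain ⟨b, hb⟩ : ∃ b : ℝ, ∃ᶠ n in atTop, (lev e (X n) : ℝ) < b := by
      by_contra hno
      push Not at hno
      exact hnot (tendsto_atTop.2 hno)
    obtain ⟨r, hr⟩ := exists_nat_ge b
    refine mem_iUnion.2 ⟨r, fun M => ?_, hb.mono fun n hn => ?_⟩
    · obtain ⟨n, hn, hn2⟩ := Filter.frequently_atTop.1 hfr ⌈(M : ℝ) / c⌉₊
      refine ⟨n, ?_⟩
      have h1 : (M : ℝ) / c ≤ n := (Nat.le_ceil _).trans (by exact_mod_cast hn)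
      rw [div_le_iff₀ hc] at h1
      exact_mod_cast (show (M : ℝ) ≤ (lev e (X n) : ℝ) by linarith)
    · exact_mod_cast lt_of_lt_of_le hn hr

end Vale.Agent.P147.Bal
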