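import Vale.Agent.P147.Bal.Main
import Vale.Agent.P147.Bal.Oscillate

/-!
# Zero velocity or a zero-one law
-/

open MeasureTheory Set Filter Topology
open scoped ENNReal

namespace Vale.Agent.P147.Bal

open Vale.Agent.P147.Proj (iid Invariant)

variable {d : ℕ} {μ : Measure (Row d)} [IsProbabilityMeasure μ]
  {Q : Env d → Site d → Measure (ℕ → Site d)}

/-- The paths with asymptotic velocity `v`. -/
def velEvent (v : Fin d → ℝ) : Set (ℕ → Site d) :=
  {X | ∀ j, Tendsto (fun n => (X n j : ℝ) / n) atTop (𝓝 (v j))}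

lemma measurable_coord (j : Fin d) (n : ℕ) :
    Measurable fun X : ℕ → Site d => (X n j : ℝ) / n :=
  (measurable_of_countable fun x : Site d => (x j : ℝ) / n).comp (measurable_pi_apply n)

lemma velEvent_invariant (v : Fin d → ℝ) : Invariant (velEvent v) ∧ MeasurableSet (velEvent v) := by
  refine ⟨⟨fun x => ?_, fun z => ?_⟩, ?_⟩
  · ext X
    simp only [velEvent, mem_preimage, mem_ofPred_eq]
    refine forall_congr' fun j => ?_
    have hr : Tendsto (fun n : ℕ => (n : ℝ) / (n + 1)) atTop (𝓝 1) :=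
      tendsto_natCast_div_add_atTop 1
    rw [← tendsto_add_atTop_iff_nat 1]
    have e : ∀ n, (pcons x X (n + 1) j : ℝ) = (X n j : ℝ) := fun n => rfl
    simp only [e, Nat.cast_add, Nat.cast_one]
    constructor
    · intro h
      have h2 := h.div hr one_ne_zero
      rw [div_one] at h2
      refine h2.congr' ?_
      filter_upwards [eventually_gt_atTop 0] with n hn
      have : (n : ℝ) ≠ 0 := by exact_mod_cast hn.ne'
      simp only [Pi.div_apply]
      field_simp
    · intro h
      have h2 := h.mul hr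
      rw [mul_one] at h2
      refine h2.congr' ?_
      filter_upwards [eventually_gt_atTop 0] with n hn
      have : (n : ℝ) ≠ 0 := by exact_mod_cast hn.ne'
      field_simp
  · ext X
    simp only [velEvent, mem_preimage, mem_ofPred_eq, Pi.sub_apply, Int.cast_sub, sub_div]
    refine forall_congr' fun j => ?_
    have h0 : Tendsto (fun n : ℕ => (z j : ℝ) / n) atTop (𝓝 0) :=
      tendsto_const_div_atTop_nhds_zero_nat _
    constructor
    · intro h; simpa using h.add h0
    · intro h; simpa using h.sub h0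
  · simp only [velEvent, ofPred_forall]
    exact MeasurableSet.iInter fun j => measurableSet_tendsto _ fun n => measurable_coord j n

lemma measurableSet_fastOscillate {e : Step d} : MeasurableSet (fastOscillate (d := d) e) := by
  have h : fastOscillate e = {X : ℕ → Site d | ¬ Tendsto (fun n => (lev e (X n) : ℝ)) atTop atTop} ∩
      ⋃ K : ℕ, ⋂ N : ℕ, ⋃ n : ℕ, ⋃ (_ : N ≤ n),
        {X : ℕ → Site d | (n : ℝ) / (K + 1) ≤ (lev e (X n) : ℝ)} := by
    ext X
    simp only [fastOscillate, mem_inter_iff, mem_ofPred_eq, mem_iUnion, mem_iInter, exists_prop,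
      frequently_atTop]
    refine and_congr_right fun _ => ⟨?_, ?_⟩
    · rintro ⟨c, hc, h⟩
      obtain ⟨K, hK⟩ := exists_nat_ge (1 / c)
      refine ⟨K, fun N => ?_⟩
      obtain ⟨n, hn, hle⟩ := h N
      refine ⟨n, hn, le_trans ?_ hle⟩
      rw [div_le_iff₀ (by positivity)]
      rw [div_le_iff₀ hc] at hK
      nlinarith [(Nat.cast_nonneg n : (0 : ℝ) ≤ n)]
    · rintro ⟨K, h⟩
      refine ⟨1 / (K + 1), by positivity, fun N => ?_⟩
      obtain ⟨n, hn, hle⟩ := h N
      exact ⟨n, hn, by rwa [one_div_mul_eq_div]⟩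
  rw [h]
  refine (measurableSet_tendsto _ fun n => measurable_levSeq e n).compl.inter ?_
  exact MeasurableSet.iUnion fun K => MeasurableSet.iInter fun N => MeasurableSet.iUnion fun n =>
    MeasurableSet.iUnion fun _ => measurableSet_le measurable_const (measurable_levSeq e n)

/-- A coordinate without zero speed escapes fast or oscillates fast. -/
lemma not_coord_zero_subset (j : Fin d) :
    {X : ℕ → Site d | Tendsto (fun n => (X n j : ℝ) / n) atTop (𝓝 0)}ᶜ ⊆
      ⋃ b : Bool, fastEscape (j, b) ∪ fastOscillate (j, b) := by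
  intro X (hj : ¬ Tendsto (fun n => (X n j : ℝ) / n) atTop (𝓝 0))
  have hf : ∀ n, (lev (d := d) (j, false) (X n) : ℝ) = -(X n j : ℝ) := fun n => by simp [lev]
  have ht : ∀ n, (lev (d := d) (j, true) (X n) : ℝ) = (X n j : ℝ) := fun n => by simp [lev]
  by_cases h1 : Tendsto (fun n => (lev (d := d) (j, true) (X n) : ℝ)) atTop atTop
  · refine mem_iUnion.2 ⟨true, Or.inl ⟨h1, fun h => hj ?_⟩⟩
    simpa only [ht] using h
  by_cases h2 : Tendsto (fun n => (lev (d := d) (j, false) (X n) : ℝ)) atTop atTop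
  · refine mem_iUnion.2 ⟨false, Or.inl ⟨h2, fun h => hj ?_⟩⟩
    have := h.neg
    simpa only [hf, neg_zero, neg_div, neg_neg] using this
  obtain ⟨ε, hε, hfr⟩ : ∃ ε > 0, ∃ᶠ n in atTop, ε ≤ |(X n j : ℝ) / n| := by
    by_contra hno
    push Not at hno
    refine hj (Metric.tendsto_nhds.2 fun ε hε => ?_)
    filter_upwards [hno ε hε] with n hn
    rwa [Real.dist_eq, sub_zero]
  have hfr' : ∃ᶠ n in atTop, ε * n ≤ (X n j : ℝ) ∨ ε * n ≤ -(X n j : ℝ) := by
    refine (hfr.and_eventually (eventually_gt_atTop 0)).mono fun n hn => ?_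
    have hn0 : (0 : ℝ) < n := by exact_mod_cast hn.2
    have h3 := hn.1
    rw [abs_div, abs_of_pos hn0, le_div_iff₀ hn0] at h3
    exact le_abs.1 h3
  rcases frequently_or_distrib.1 hfr' with h | h
  · exact mem_iUnion.2 ⟨true, Or.inr ⟨h1, ε, hε, by simpa only [ht] using h⟩⟩
  · exact mem_iUnion.2 ⟨false, Or.inr ⟨h2, ε, hε, by simpa only [hf] using h⟩⟩

/-- Without fast escape along the axes the velocity is zero. -/
theorem lintegral_not_zero_vel (hQ : IsQuenchedLaw Q) (hell : ∀ᵐ q ∂μ, ∀ a : Step d, 0 < q.1 a)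
    (hesc : ∀ e : Step d, ∫⁻ ω, Q ω 0 (fastEscape e) ∂iid μ = 0) :
    ∫⁻ ω, Q ω 0 (velEvent 0)ᶜ ∂iid μ = 0 := by
  have hsub : (velEvent (0 : Fin d → ℝ))ᶜ ⊆
      ⋃ e : Step d, fastEscape e ∪ fastOscillate e := by
    intro X hX
    simp only [velEvent, mem_compl_iff, mem_ofPred_eq, not_forall, Pi.zero_apply] at hX
    obtain ⟨j, hj⟩ := hX
    obtain ⟨b, hb⟩ := mem_iUnion.1 (not_coord_zero_subset j hj)
    exact mem_iUnion.2 ⟨(j, b), hb⟩
  refine lintegral_eq_zero_of_ae_eq_zero ?_
  have hmE : ∀ e : Step d, ∀ᵐ ω ∂iid μ, Q ω 0 (fastEscape e) = 0 := fun e =>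
    (lintegral_eq_zero_iff
      ((Measure.measurable_coe measurableSet_fastEscape).comp (hQ.measurable 0))).1 (hesc e)
  have hmO : ∀ e : Step d, ∀ᵐ ω ∂iid μ, Q ω 0 (fastOscillate e) = 0 := fun e => by
    refine (lintegral_eq_zero_iff ?_).1 (lintegral_fastOscillate hQ hell)
    refine (Measure.measurable_coe ?_).comp (hQ.measurable 0)
    exact measurableSet_fastOscillate
  filter_upwards [ae_all_iff.2 hmE, ae_all_iff.2 hmO] with ω hE hO
  exact measure_mono_null hsub (measure_iUnion_null fun e => measure_union_null (hE e) (hO e))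

end Vale.Agent.P147.Bal
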