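import Vale.Agent.P147.Bal.Limit.Pieces
import Vale.Agent.P147.Bal.Velocity

/-!
# The speed along an axis of fast escape exists

The irreducible prefixes form an iid sequence under their product law, so the strong law gives a
speed for their concatenation. The domination on cylinders transfers it to the annealed law with
positive probability, and the zero-one law makes the probability one.
-/

open MeasureTheory Set Filter Topology ProbabilityTheory
open scoped ENNReal

namespace Vale.Agent.P147.Bal

open Vale.Agent.P147.Proj (dsp verts iid Invariant)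

variable {d : ℕ} {e : Step d} {μ : Measure (Row d)}

/-- The irreducible prefixes. -/
abbrev Piece (e : Step d) := {γ : List (Step d) // Irr e γ}

instance (e : Step d) : MeasurableSpace (Piece e) := ⊤

/-- The law of an irreducible prefix. -/
noncomputable def pieceLaw (μ : Measure (Row d)) (e : Step d) : Measure (Piece e) :=
  Measure.sum fun a => cw μ a.1 • Measure.dirac a

lemma pieceLaw_singleton (a : Piece e) : pieceLaw μ e {a} = cw μ a.1 := by
  rw [pieceLaw, Measure.sum_apply _ (measurableSet_singleton a), tsum_eq_single a fun b hb => by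
    simp [hb]]
  simp

variable [IsProbabilityMeasure μ]

lemma isProbabilityMeasure_pieceLaw {p : ℝ≥0∞} (hp : p ≠ 0) (hu : ∀ J, p ≤ u μ e J) :
    IsProbabilityMeasure (pieceLaw μ e) := by
  classical
  refine ⟨?_⟩
  rw [pieceLaw, Measure.sum_apply _ MeasurableSet.univ]
  simp only [Measure.smul_apply, measure_univ, smul_eq_mul, mul_one]
  have h := tsum_hlaw_mul (μ := μ) (e := e) fun _ => 1
  simp only [mul_one] at h
  rw [tsum_hlaw hp hu] at h
  rw [h]
  refine (tsum_subtype {γ : List (Step d) | Irr e γ} (cw μ)).trans (tsum_congr fun γ => ?_)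
  by_cases hγ : Irr e γ <;> simp [hγ]

omit [IsProbabilityMeasure μ] in
lemma lev_dsp_le_length (e : Step d) : ∀ γ : List (Step d), lev e (dsp γ) ≤ γ.length
  | [] => by simp
  | a :: γ => by
      have h1 := (abs_le.1 (abs_lev_vec_le e a)).2
      have h2 := lev_dsp_le_length e γ
      rw [Proj.dsp_cons, lev_add]
      push_cast [List.length_cons]
      omega

/-- The first `k` prefixes of a sequence. -/
def pieces (ω : ℕ → Piece e) (k : ℕ) : List (List (Step d)) := List.ofFn fun i : Fin k => (ω i).1

/-- The concatenation of the first `k` prefixes. -/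
def flat (ω : ℕ → Piece e) (k : ℕ) : List (Step d) := (pieces ω k).flatten

/-- The path of a sequence of prefixes. -/
def pos (ω : ℕ → Piece e) (n : ℕ) : Site d := dsp ((flat ω n).take n)

lemma irr_pieces (ω : ℕ → Piece e) (k : ℕ) : ∀ η ∈ pieces ω k, Irr e η := by
  intro η hη
  simp only [pieces, List.mem_ofFn] at hη
  obtain ⟨i, rfl⟩ := hη
  exact (ω i).2

lemma flat_succ (ω : ℕ → Piece e) (k : ℕ) : flat ω (k + 1) = flat ω k ++ (ω k).1 := by
  simp only [flat, pieces, List.ofFn_succ', List.concat_eq_append,     Fin.val_castSucc, Fin.val_last, List.flatten_append]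
  simp

lemma flat_prefix (ω : ℕ → Piece e) {a b : ℕ} (h : a ≤ b) : flat ω a <+: flat ω b := by
  induction b, h using Nat.le_induction with
  | base => exact List.prefix_rfl
  | succ b _ ih =>
      rw [flat_succ]
      exact ih.trans (List.prefix_append ..)

lemma le_length_flat (ω : ℕ → Piece e) : ∀ k, k ≤ (flat ω k).length
  | 0 => Nat.zero_le _
  | k + 1 => by
      have h1 := le_length_flat ω k
      have h2 : 0 < (ω k).1.length := List.length_pos_iff.2 (ω k).2.1
      rw [flat_succ, List.length_append]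
      omega

lemma take_prefix_eq {A B : List (Step d)} (h : A <+: B) {n : ℕ} (hn : n ≤ A.length) :
    A.take n = B.take n := by
  obtain ⟨C, rfl⟩ := h
  rw [List.take_append_of_le_length hn]

lemma pos_eq (ω : ℕ → Piece e) {n k : ℕ} (hn : n ≤ (flat ω k).length) :
    pos ω n = dsp ((flat ω k).take n) := by
  rcases le_total n k with h | h
  · rw [pos, take_prefix_eq (flat_prefix ω h) (le_length_flat ω n)]
  · rw [pos, take_prefix_eq (flat_prefix ω h) hn]

lemma adm_flat (ω : ℕ → Piece e) (k : ℕ) :
    Adm e (flat ω k) ∧ hgt e (flat ω k) = ∑ i ∈ Finset.range k, hgt e (ω i).1 := by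
  induction k with
  | zero => exact ⟨by simpa [flat, pieces] using adm_nil, by simp [flat, pieces, hgt]⟩
  | succ k ih =>
      rw [flat_succ, Finset.sum_range_succ, ← ih.2]
      exact ih.1.append (ω k).2.2.1

lemma length_flat (ω : ℕ → Piece e) (k : ℕ) :
    (flat ω k).length = ∑ i ∈ Finset.range k, (ω i).1.length := by
  induction k with
  | zero => simp [flat, pieces]
  | succ k ih => rw [flat_succ, List.length_append, ih, Finset.sum_range_succ]

/-- Within a prefix the level stays between its ends. -/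
lemma lev_take_mem {η : List (Step d)} (h : Adm e η) {r : ℕ} (hr : r < η.length) :
    0 ≤ lev e (dsp (η.take r)) ∧ lev e (dsp (η.take r)) ≤ hgt e η := by
  have hm : dsp (η.take r) ∈ verts 0 η := by
    have h2 := verts_append (0 : Site d) (η.take r) (η.drop r)
    rw [List.take_append_drop] at h2
    rw [h2, zero_add]
    exact List.mem_append_right _ (self_mem_verts _ (by simp; omega))
  exact ⟨(h.1 _ hm).1, (h.1 _ hm).2.le⟩

/-- The speed of interleaved sequences. -/
lemma tendsto_of_interleave {τ H : ℕ → ℕ} {x : ℕ → ℤ} {L Hb : ℝ} (hL : 0 < L) (h0 : τ 0 = 0)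
    (hmono : ∀ k, k ≤ τ k) (hτ : Tendsto (fun k : ℕ => (τ k : ℝ) / k) atTop (𝓝 L))
    (hH : Tendsto (fun k : ℕ => (H k : ℝ) / k) atTop (𝓝 Hb))
    (hx : ∀ n k, τ k ≤ n → n < τ (k + 1) → (H k : ℤ) ≤ x n ∧ x n ≤ H (k + 1)) :
    Tendsto (fun n : ℕ => (x n : ℝ) / n) atTop (𝓝 (Hb / L)) := by
  classical
  set κ : ℕ → ℕ := fun n => Nat.findGreatest (fun k => τ k ≤ n) n with hκ
  have h1 : ∀ n, τ (κ n) ≤ n := fun n =>
    Nat.findGreatest_spec (P := fun k => τ k ≤ n) (Nat.zero_le n) (by simp [h0])
  have h2 : ∀ n, n < τ (κ n + 1) := by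
    intro n
    by_contra hc
    push Not at hc
    have hle : κ n + 1 ≤ n := (hmono _).trans hc
    exact absurd (Nat.le_findGreatest (P := fun k => τ k ≤ n) hle hc) (by simp [hκ])
  have htop : Tendsto κ atTop atTop := by
    refine tendsto_atTop.2 fun K => ?_
    filter_upwards [eventually_ge_atTop (τ K)] with n hn
    exact Nat.le_findGreatest ((hmono K).trans hn) hn
  have hshift : ∀ {f : ℕ → ℕ} {c : ℝ}, Tendsto (fun k : ℕ => (f k : ℝ) / k) atTop (𝓝 c) →
      Tendsto (fun k : ℕ => (f (k + 1) : ℝ) / k) atTop (𝓝 c) := by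
    intro f c hf
    have h := ((tendsto_add_atTop_iff_nat (f := fun k : ℕ => (f k : ℝ) / k) 1).2 hf).div
      (tendsto_natCast_div_add_atTop (1 : ℝ)) one_ne_zero
    rw [div_one] at h
    refine h.congr' ?_
    filter_upwards [eventually_gt_atTop 0] with k hk
    have : (k : ℝ) ≠ 0 := by exact_mod_cast hk.ne'
    simp only [Pi.div_apply, Nat.cast_add, Nat.cast_one]
    field_simp
  have hk : Tendsto (fun n => (κ n : ℝ) / n) atTop (𝓝 L⁻¹) := by
    refine tendsto_of_tendsto_of_tendsto_of_le_of_le' (((hshift hτ).comp htop).inv₀ hL.ne')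
      ((hτ.comp htop).inv₀ hL.ne') ?_ ?_
    · filter_upwards [htop.eventually_gt_atTop 0, eventually_gt_atTop 0] with n hn hn0
      have a : (0 : ℝ) < κ n := by exact_mod_cast hn
      have b : (0 : ℝ) < n := by exact_mod_cast hn0
      have c : (n : ℝ) ≤ τ (κ n + 1) := by exact_mod_cast (h2 n).le
      simp only [Function.comp_apply, inv_div]
      exact div_le_div_of_nonneg_left a.le b c
    · filter_upwards [htop.eventually_gt_atTop 0, eventually_gt_atTop 0] with n hn hn0
      have a : (0 : ℝ) < κ n := by exact_mod_cast hn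
      have c : (τ (κ n) : ℝ) ≤ n := by exact_mod_cast h1 n
      have b : (0 : ℝ) < τ (κ n) := by exact_mod_cast lt_of_lt_of_le hn (hmono _)
      simp only [Function.comp_apply, inv_div]
      exact div_le_div_of_nonneg_left a.le b c
  rw [div_eq_mul_inv Hb L]
  refine tendsto_of_tendsto_of_tendsto_of_le_of_le' ((hH.comp htop).mul hk)
    (((hshift hH).comp htop).mul hk) ?_ ?_
  · filter_upwards [htop.eventually_gt_atTop 0] with n hn
    have a : (κ n : ℝ) ≠ 0 := by exact_mod_cast hn.ne'
    simp only [Function.comp_apply]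
    rw [div_mul_div_cancel₀ a]
    have := (hx n (κ n) (h1 n) (h2 n)).1
    gcongr
    exact_mod_cast this
  · filter_upwards [htop.eventually_gt_atTop 0] with n hn
    have a : (κ n : ℝ) ≠ 0 := by exact_mod_cast hn.ne'
    simp only [Function.comp_apply]
    rw [div_mul_div_cancel₀ a]
    have := (hx n (κ n) (h1 n) (h2 n)).2
    gcongr
    exact_mod_cast this

omit [IsProbabilityMeasure μ] in
/-- The strong law for the path of an iid sequence of prefixes. -/
lemma ae_speed [IsProbabilityMeasure (pieceLaw μ e)] (hL : meanLen μ e ≠ ∞) :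
    ∃ v : ℝ, 0 < v ∧ ∀ᵐ ω ∂Measure.infinitePi (fun _ : ℕ => pieceLaw μ e),
      Tendsto (fun n : ℕ => (lev e (pos ω n) : ℝ) / n) atTop (𝓝 v) := by
  classical
  set ν := Measure.infinitePi (fun _ : ℕ => pieceLaw μ e)
  have hmeas : ∀ f : Piece e → ℝ, Measurable f := fun f => measurable_from_top
  have hlen : ∫⁻ a : Piece e, (a.1.length : ℝ≥0∞) ∂pieceLaw μ e ≠ ∞ := by
    rw [lintegral_countable']
    refine ne_of_eq_of_ne ?_ hL
    simp only [pieceLaw_singleton, meanLen]
    refine (tsum_subtype {γ : List (Step d) | Irr e γ}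
      (fun γ => (γ.length : ℝ≥0∞) * cw μ γ)).trans (tsum_congr fun γ => ?_)
    by_cases hγ : Irr e γ <;> simp [hγ, mul_comm]
  have hhgt : ∀ a : Piece e, hgt e a.1 ≤ a.1.length := fun a => by
    have := lev_dsp_le_length e a.1
    unfold hgt
    omega
  have hint : ∀ f : Piece e → ℕ, (∀ a, f a ≤ a.1.length) →
      Integrable (fun a => (f a : ℝ)) (pieceLaw μ e) := by
    intro f hf
    refine ⟨(hmeas _).aestronglyMeasurable, ?_⟩
    refine lt_of_le_of_lt (lintegral_mono fun a => ?_) hlen.lt_top
    simpa using hf a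
  have slln : ∀ f : Piece e → ℕ, (∀ a, f a ≤ a.1.length) → ∀ᵐ ω ∂ν,
      Tendsto (fun k : ℕ => ((∑ i ∈ Finset.range k, f (ω i) : ℕ) : ℝ) / k) atTop
        (𝓝 (∫ a, (f a : ℝ) ∂pieceLaw μ e)) := by
    intro f hf
    have hmp := fun i : ℕ => measurePreserving_eval_infinitePi (fun _ : ℕ => pieceLaw μ e) i
    have hid : ∀ i : ℕ, IdentDistrib (fun ω : ℕ → Piece e => (f (ω i) : ℝ))
        (fun ω => (f (ω 0) : ℝ)) ν ν := by
      intro i
      refine ⟨((hmeas fun a => (f a : ℝ)).comp (measurable_pi_apply i)).aemeasurable,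
        ((hmeas fun a => (f a : ℝ)).comp (measurable_pi_apply 0)).aemeasurable, ?_⟩
      rw [show (fun ω : ℕ → Piece e => (f (ω i) : ℝ)) = (fun a => (f a : ℝ)) ∘ Function.eval i
          from rfl, show (fun ω : ℕ → Piece e => (f (ω 0) : ℝ))
          = (fun a => (f a : ℝ)) ∘ Function.eval 0 from rfl,
        ← Measure.map_map (hmeas _) (hmp i).measurable,
        ← Measure.map_map (hmeas _) (hmp 0).measurable, (hmp i).map_eq, (hmp 0).map_eq]
    have hind : Pairwise fun i j : ℕ => IndepFun (fun ω : ℕ → Piece e => (f (ω i) : ℝ))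
        (fun ω => (f (ω j) : ℝ)) ν := fun i j hij =>
      (iIndepFun_infinitePi (P := fun _ : ℕ => pieceLaw μ e)
        (X := fun _ a => (f a : ℝ)) fun _ => hmeas _).indepFun hij
    have hi0 : Integrable (fun ω : ℕ → Piece e => (f (ω 0) : ℝ)) ν :=
      (hmp 0).integrable_comp_of_integrable (hint f hf)
    have hval : ∫ ω, (f (ω 0) : ℝ) ∂ν = ∫ a, (f a : ℝ) ∂pieceLaw μ e := by
      conv_rhs => rw [← (hmp 0).map_eq]
      exact (integral_map (f := fun a => (f a : ℝ)) (hmp 0).measurable.aemeasurable
        (hmeas fun a => (f a : ℝ)).aestronglyMeasurable).symm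
    filter_upwards [strong_law_ae_real _ hi0 hind hid] with ω hω
    rw [← hval]
    refine hω.congr fun k => ?_
    push_cast
    rfl
  have hone : ∀ f : Piece e → ℕ, (∀ a, f a ≤ a.1.length) → (∀ a, 1 ≤ f a) →
      (1 : ℝ) ≤ ∫ a, (f a : ℝ) ∂pieceLaw μ e := fun f hf h1 => by
    simpa using integral_mono (integrable_const (1 : ℝ)) (hint f hf)
      fun a => by simpa using h1 a
  have hL1 := hone (fun a => a.1.length) (fun a => le_rfl)
    fun a => List.length_pos_iff.2 a.2.1
  have hH1 := hone (fun a => hgt e a.1) hhgt fun a => a.2.one_le_hgt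
  refine ⟨(∫ a, (hgt e a.1 : ℝ) ∂pieceLaw μ e) / ∫ a, (a.1.length : ℝ) ∂pieceLaw μ e,
    div_pos (lt_of_lt_of_le one_pos hH1) (lt_of_lt_of_le one_pos hL1), ?_⟩
  filter_upwards [slln (fun a => a.1.length) (fun a => le_rfl),
    slln (fun a => hgt e a.1) hhgt] with ω hω1 hω2
  refine tendsto_of_interleave (τ := fun k => (flat ω k).length)
    (H := fun k => hgt e (flat ω k)) (lt_of_lt_of_le one_pos hL1) (by simp [flat, pieces])
    (le_length_flat ω) ?_ ?_ fun n k h1 h2 => ?_
  · simpa only [length_flat] using hω1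
  · simpa only [(adm_flat ω _).2] using hω2
  · obtain ⟨hA, -⟩ := adm_flat ω k
    obtain ⟨-, hB⟩ := hA.append (ω k).2.2.1
    rw [flat_succ, List.length_append] at h2
    have hr : n - (flat ω k).length < (ω k).1.length := by omega
    have := lev_take_mem (ω k).2.2.1 hr
    rw [pos_eq ω (k := k + 1) (by rw [flat_succ, List.length_append]; omega), flat_succ,
      List.take_append, List.take_of_length_le h1, Proj.dsp_append, lev_add, hB, hA.2]
    constructor <;> push_cast <;> omega

open Classical in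
/-- The probability that the concatenation starts with `γ`, times the probability of staying, is at
most the annealed probability of `γ`. -/
lemma mul_prefix_le [IsProbabilityMeasure (pieceLaw μ e)] {s : ℝ≥0∞}
    (hs : ∀ n, s ≤ stayMass μ e n) (γ : List (Step d)) (k : ℕ) :
    s * Measure.infinitePi (fun _ : ℕ => pieceLaw μ e) {ω | γ <+: flat ω k} ≤ cw μ γ := by
  set tl : (Fin k → Piece e) → List (List (Step d)) := fun t => List.ofFn fun i => (t i).1
  have htl : Function.Injective tl := fun a b h =>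
    funext fun i => Subtype.ext (congrFun (List.ofFn_injective h) i)
  have hirr : ∀ t, ∀ η ∈ tl t, Irr e η := by
    intro t η hη
    obtain ⟨i, rfl⟩ := List.mem_ofFn.1 hη
    exact (t i).2
  refine le_trans ?_ (tsum_flatten_le hs γ tl htl hirr fun t => List.length_ofFn)
  refine mul_le_mul_right ((measure_mono (t := ⋃ t : Fin k → Piece e,
    if γ <+: (tl t).flatten then {ω : ℕ → Piece e | ∀ i : Fin k, ω i = t i} else ∅) ?_).trans
      ((measure_iUnion_le _).trans (ENNReal.tsum_le_tsum fun t => ?_))) _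
  · intro ω hω
    refine mem_iUnion.2 ⟨fun i => ω i, ?_⟩
    rw [if_pos (by exact hω)]
    exact fun i => rfl
  · split_ifs
    swap
    · simp
    set B : ℕ → Set (Piece e) := fun i => if h : i < k then {t ⟨i, h⟩} else univ
    have hset : {ω : ℕ → Piece e | ∀ i : Fin k, ω i = t i}
        = Set.pi (Finset.range k : Finset ℕ) B := by
      ext ω
      simp only [mem_ofPred_eq, Set.mem_pi, Finset.mem_coe, Finset.mem_range, B]
      refine ⟨fun h i hi => ?_, fun h i => ?_⟩
      · rw [dif_pos hi]
        exact h ⟨i, hi⟩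
      · have := h i i.2
        rwa [dif_pos i.2] at this
    rw [hset, Measure.infinitePi_pi _ fun i _ => MeasurableSet.of_discrete, cw_flatten (hirr t), List.map_ofFn,
      List.prod_ofFn, Finset.prod_range]
    refine le_of_eq (Finset.prod_congr rfl fun i _ => ?_)
    simp only [B, dif_pos i.2, Function.comp_apply]
    exact pieceLaw_singleton _

lemma vec_getElem_eq {γ γ' : List (Step d)} {X : ℕ → Site d} (h : X ∈ lcyl 0 γ)
    (h' : X ∈ lcyl 0 γ') (hl : γ.length = γ'.length) : γ = γ' := by
  refine List.ext_getElem hl fun k hk hk' => vec_inj ?_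
  have a1 := h (k + 1) hk
  have a2 := h' (k + 1) hk'
  rw [← List.take_concat_get' γ k hk, Proj.dsp_append, zero_add] at a1
  have a3 := h' k hk'.le
  rw [h k hk.le, zero_add, zero_add] at a3
  rw [← List.take_concat_get' γ' k hk', Proj.dsp_append, zero_add, ← a3, a1] at a2
  simpa using add_left_cancel a2

/-- Fast escape has a deterministic speed, with positive probability. -/
theorem exists_speed {Q : Env d → Site d → Measure (ℕ → Site d)} (hQ : IsQuenchedLaw Q)
    (hpos : ∫⁻ ω, Q ω 0 (fastEscape e) ∂iid μ ≠ 0) :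
    ∃ v : ℝ, ∫⁻ ω, Q ω 0 {X | Tendsto (fun n : ℕ => (lev e (X n) : ℝ) / n) atTop (𝓝 v)}
      ∂iid μ ≠ 0 := by
  classical
  obtain ⟨⟨p, hp, hu⟩, hL⟩ := exists_start hQ hpos
  have := isProbabilityMeasure_pieceLaw hp hu
  obtain ⟨v, -, hv⟩ := ae_speed (μ := μ) (e := e) hL
  refine ⟨v, ?_⟩
  set ν := Measure.infinitePi (fun _ : ℕ => pieceLaw μ e)
  set P : Measure (ℕ → Site d) := (iid μ).bind (fun ω => Q ω 0)
  have hP : ∀ S, MeasurableSet S → P S = ∫⁻ ω, Q ω 0 S ∂iid μ := fun S hS =>
    Measure.bind_apply hS (hQ.measurable 0).aemeasurable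
  have : IsProbabilityMeasure P := ⟨by
    rw [hP _ MeasurableSet.univ, lintegral_congr fun ω => (hQ.prob ω 0).measure_univ]
    simp⟩
  set s := ∫⁻ ω, Q ω 0 (fastStay e) ∂iid μ
  have hs0 : s ≠ 0 := fun h => hpos (ae_fastStay_eq_zero hQ h)
  have hs : ∀ n, s ≤ stayMass μ e n := by
    intro n
    have hle : ∀ ω, Q ω 0 (fastStay e)
        ≤ ∑' γ, if γ.length = n ∧ Stay e 0 0 γ then pw ω 0 γ else 0 := by
      intro ω
      refine le_trans (measure_mono_ae ?_) ((measure_iUnion_le
        fun γ => if γ.length = n ∧ Stay e 0 0 γ then lcyl 0 γ else ∅).trans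
          (ENNReal.tsum_le_tsum fun γ => ?_))
      · filter_upwards [hQ.ae_start ω 0, ae_nnPaths hQ ω 0] with X h0 hnn hm
        obtain ⟨γ, hl, hγ⟩ := exists_steps n X hnn
        rw [h0] at hγ
        have hge : ∀ k, 0 ≤ lev e (X k) := fun k => by simpa [h0] using hm.2 k
        refine mem_iUnion.2 ⟨γ, ?_⟩
        have hst : Stay e 0 0 γ := by
          refine ⟨fun w hw => ?_, ?_⟩
          · obtain ⟨k, hk, rfl⟩ := exists_of_mem_verts γ 0 w hw
            rw [← hγ k hk.le]
            exact hge k
          · have := hγ _ le_rfl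
            rw [List.take_length] at this
            rw [← this]
            exact hge _
        rw [if_pos ⟨hl, hst⟩]
        exact hγ
      · split_ifs
        · rw [apply_lcyl hQ]
        · simp
    refine (lintegral_mono hle).trans (le_of_eq ?_)
    rw [lintegral_tsum fun γ => ?_]
    · unfold stayMass
      refine tsum_congr fun γ => ?_
      split_ifs <;> simp [cw]
    · split_ifs
      · exact (measurable_pw 0 γ).aemeasurable
      · exact aemeasurable_const
  set R : ℕ → ℕ → Site d → Prop := fun K n x => |(lev e x : ℝ) / n - v| ≤ 1 / (K + 1)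
  have hmR : ∀ K n, MeasurableSet {X : ℕ → Site d | R K n (X n)} := fun K n => measurableSet_at n _
  have hfin : ∀ K N M, s * ν {ω | ∀ n, N ≤ n → n ≤ M → R K n (pos ω n)}
      ≤ P {X | ∀ n, N ≤ n → n ≤ M → R K n (X n)} := by
    intro K N M
    set G := (Proj.short (d := d) (M + 1)).filter fun γ =>
      γ.length = M ∧ ∀ n, N ≤ n → n ≤ M → R K n (dsp (γ.take n))
    have h1 : s * ν {ω | ∀ n, N ≤ n → n ≤ M → R K n (pos ω n)} ≤ ∑ γ ∈ G, cw μ γ := by
      refine (mul_le_mul_right ((measure_mono (t := ⋃ γ ∈ G,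
        {ω : ℕ → Piece e | γ <+: flat ω M}) ?_).trans (measure_biUnion_finset_le _ _)) s).trans ?_
      · intro ω hω
        have hl : ((flat ω M).take M).length = M := by
          have := le_length_flat ω M
          simp; omega
        refine mem_biUnion (x := (flat ω M).take M) ?_ (List.take_prefix ..)
        simp only [G, Finset.mem_coe, Finset.mem_filter]
        refine ⟨Proj.mem_short.2 (by omega), hl, fun n hn hn' => ?_⟩
        rw [List.take_take, min_eq_left hn', ← pos_eq ω (hn'.trans (le_length_flat ω M))]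
        exact hω n hn hn'
      · rw [Finset.mul_sum]
        exact Finset.sum_le_sum fun γ _ => mul_prefix_le hs γ M
    refine h1.trans ?_
    have h2 : ∀ γ, P (lcyl 0 γ) = cw μ γ := fun γ => by
      rw [hP _ (measurableSet_lcyl _ _), lintegral_congr fun ω => apply_lcyl hQ ω γ 0]
      rfl
    rw [← Finset.sum_congr rfl fun γ _ => h2 γ, ← measure_biUnion_finset ?_
      fun γ _ => measurableSet_lcyl _ _]
    · refine measure_mono (iUnion₂_subset fun γ hγ X hX n hn hn' => ?_)
      simp only [G, Finset.mem_filter] at hγ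
      rw [hX n (by omega), zero_add]
      exact hγ.2.2 n hn hn'
    · intro γ hγ γ' hγ' hne
      simp only [G, Finset.coe_filter, mem_ofPred_eq] at hγ hγ'
      exact Set.disjoint_left.2 fun X h h' =>
        hne (vec_getElem_eq h h' (hγ.2.1.trans hγ'.2.1.symm))
  have hK : ∀ K, s ≤ P {X | ∃ N, ∀ n, N ≤ n → R K n (X n)} := by
    intro K
    set C : ℕ → Set (ℕ → Site d) := fun N => {X | ∀ n, N ≤ n → R K n (X n)}
    set C' : ℕ → Set (ℕ → Piece e) := fun N => {ω | ∀ n, N ≤ n → R K n (pos ω n)}
    have hN : ∀ N, s * ν (C' N) ≤ P (C N) := by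
      intro N
      set B : ℕ → Set (ℕ → Site d) := fun M => {X | ∀ n, N ≤ n → n ≤ M → R K n (X n)}
      have hB : C N = ⋂ M, B M := by
        ext X
        simp only [C, B, mem_iInter, mem_ofPred_eq]
        exact ⟨fun h M n hn _ => h n hn, fun h n hn => h n n hn le_rfl⟩
      have hanti : Antitone B := fun a b hab X hX n hn hn' => hX n hn (hn'.trans hab)
      have hmB : ∀ M, MeasurableSet (B M) := fun M => by
        simp only [B, ofPred_forall]
        exact MeasurableSet.iInter fun n => MeasurableSet.iInter fun _ =>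
          MeasurableSet.iInter fun _ => hmR K n
      rw [hB, hanti.measure_iInter (fun M => (hmB M).nullMeasurableSet)
        ⟨0, measure_ne_top P _⟩]
      exact le_iInf fun M => (mul_le_mul_right (measure_mono (t := {ω | ∀ n, N ≤ n → n ≤ M → R K n (pos ω n)}) fun ω (hω : ∀ n, N ≤ n → R K n (pos ω n)) n hn _ => hω n hn) s).trans
        (hfin K N M)
    have hC : {X : ℕ → Site d | ∃ N, ∀ n, N ≤ n → R K n (X n)} = ⋃ N, C N := by
      ext X
      simp [C]
    have hmonoC : Monotone C' := fun a b hab ω hω n hn => hω n (hab.trans hn)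
    have hall : ν (⋃ N, C' N) = 1 := by
      refine le_antisymm prob_le_one ?_
      rw [← measure_univ (μ := ν)]
      refine measure_mono_ae ?_
      filter_upwards [hv] with ω hω _
      obtain ⟨N, hN⟩ := eventually_atTop.1
        (Metric.tendsto_nhds.1 hω (1 / ((K : ℝ) + 1)) (by positivity))
      refine mem_iUnion.2 ⟨N, fun n hn => ?_⟩
      have := hN n hn
      rw [Real.dist_eq] at this
      exact this.le
    calc s = s * ν (⋃ N, C' N) := by rw [hall, mul_one]
      _ = ⨆ N, s * ν (C' N) := by rw [hmonoC.measure_iUnion, ENNReal.mul_iSup]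
      _ ≤ P (⋃ N, C N) := iSup_le fun N => (hN N).trans (measure_mono (subset_iUnion C N))
      _ = _ := by rw [hC]
  have hset : {X : ℕ → Site d | Tendsto (fun n : ℕ => (lev e (X n) : ℝ) / n) atTop (𝓝 v)}
      = ⋂ K, {X | ∃ N, ∀ n, N ≤ n → R K n (X n)} := by
    ext X
    simp only [mem_ofPred_eq, mem_iInter]
    constructor
    · intro h K
      obtain ⟨N, hN⟩ := eventually_atTop.1
        (Metric.tendsto_nhds.1 h (1 / ((K : ℝ) + 1)) (by positivity))
      refine ⟨N, fun n hn => ?_⟩
      have := hN n hn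
      rw [Real.dist_eq] at this
      exact this.le
    · intro h
      refine Metric.tendsto_nhds.2 fun ε hε => ?_
      obtain ⟨K, hK⟩ := exists_nat_one_div_lt hε
      obtain ⟨N, hN⟩ := h K
      refine eventually_atTop.2 ⟨N, fun n hn => ?_⟩
      rw [Real.dist_eq]
      exact lt_of_le_of_lt (hN n hn) hK
  have hmA : ∀ K, MeasurableSet {X : ℕ → Site d | ∃ N, ∀ n, N ≤ n → R K n (X n)} := fun K => by
    simp only [ofPred_exists, ofPred_forall]
    exact MeasurableSet.iUnion fun N => MeasurableSet.iInter fun n =>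
      MeasurableSet.iInter fun _ => hmR K n
  have hanti : Antitone fun K => {X : ℕ → Site d | ∃ N, ∀ n, N ≤ n → R K n (X n)} := by
    intro a b hab X hX
    obtain ⟨N, hN⟩ := hX
    refine ⟨N, fun n hn => (hN n hn).trans ?_⟩
    gcongr
  rw [hset, ← hP _ (MeasurableSet.iInter hmA),
    hanti.measure_iInter (fun K => (hmA K).nullMeasurableSet) ⟨0, measure_ne_top P _⟩]
  exact fun h => hs0 (le_antisymm (h ▸ le_iInf hK) bot_le)

/-- The paths with speed `c` along a coordinate. -/
def coordEvent (j : Fin d) (c : ℝ) : Set (ℕ → Site d) :=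
  {X | Tendsto (fun n => (X n j : ℝ) / n) atTop (𝓝 c)}

lemma coordEvent_invariant (j : Fin d) (c : ℝ) :
    Invariant (coordEvent j c) ∧ MeasurableSet (coordEvent j c) := by
  refine ⟨⟨fun x => ?_, fun z => ?_⟩, measurableSet_tendsto _ fun n => measurable_coord j n⟩
  · ext X
    simp only [coordEvent, mem_preimage, mem_ofPred_eq]
    have hr : Tendsto (fun n : ℕ => (n : ℝ) / (n + 1)) atTop (𝓝 1) :=
      tendsto_natCast_div_add_atTop 1
    rw [← tendsto_add_atTop_iff_nat 1]
    have e : ∀ n, (pcons x X (n + 1) j : ℝ) = (X n j : ℝ) := fun n => rfl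
    simp only [e, Nat.cast_add, Nat.cast_one]
    constructor
    · intro h
      have h2 := h.div hr one_ne_zero
      rw [div_one] at h2
      refine h2.congr' ?_
      filter_upwards [eventually_gt_atTop 0] with n hn
      have : (n : ℝ) ≠ 0 := by exact_mod_cast hn.ne'
      simp only [Pi.div_apply]
      field_simp
    · intro h
      have h2 := h.mul hr
      rw [mul_one] at h2
      refine h2.congr' ?_
      filter_upwards [eventually_gt_atTop 0] with n hn
      have : (n : ℝ) ≠ 0 := by exact_mod_cast hn.ne'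
      field_simp
  · ext X
    simp only [coordEvent, mem_preimage, mem_ofPred_eq, Pi.sub_apply, Int.cast_sub, sub_div]
    have h0 : Tendsto (fun n : ℕ => (z j : ℝ) / n) atTop (𝓝 0) :=
      tendsto_const_div_atTop_nhds_zero_nat _
    constructor
    · intro h; simpa using h.add h0
    · intro h; simpa using h.sub h0

/-- Law of large numbers in dimension at least four. -/
theorem exists_velocity {Q : Env d → Site d → Measure (ℕ → Site d)} (hd : 4 ≤ d)
    (hQ : IsQuenchedLaw Q) (hell : ∀ᵐ q ∂μ, ∀ a : Step d, 0 < q.1 a) :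
    ∃ v : Fin d → ℝ, ∀ᵐ ω ∂iid μ, Q ω 0 (velEvent v)ᶜ = 0 := by
  have hfe : ∀ e : Step d, ∫⁻ ω, Q ω 0 (fastEscape e) ∂iid μ ≠ 0 →
      ∃ c, ∀ᵐ ω ∂iid μ, Q ω 0 (coordEvent e.1 c)ᶜ = 0 := by
    intro e he
    obtain ⟨v, hv⟩ := exists_speed hQ he
    set c := if e.2 then v else -v with hc
    have hset : {X : ℕ → Site d | Tendsto (fun n : ℕ => (lev e (X n) : ℝ) / n) atTop (𝓝 v)}
        = coordEvent e.1 c := by
      ext X
      simp only [coordEvent, mem_ofPred_eq, lev, hc]
      split_ifs with h
      · rfl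
      · simp only [Int.cast_neg, neg_div]
        exact ⟨fun h => by simpa using h.neg, fun h => by simpa using h.neg⟩
    rw [hset] at hv
    obtain ⟨hinv, hm⟩ := coordEvent_invariant e.1 c
    obtain ⟨q, hq, hae, hval⟩ := zero_one_invariant hd hQ hm hinv hell he
    have hq1 : q = 1 := hq.resolve_left fun h => hv (hval.trans h)
    refine ⟨c, ?_⟩
    filter_upwards [hae] with ω hω
    have := hQ.prob ω 0
    rw [prob_compl_eq_one_sub hm, hω 0, hq1, tsub_self]
  have hj : ∀ j, ∃ c, ∀ᵐ ω ∂iid μ, Q ω 0 (coordEvent j c)ᶜ = 0 := by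
    intro j
    by_cases h1 : ∫⁻ ω, Q ω 0 (fastEscape (d := d) (j, true)) ∂iid μ ≠ 0
    · exact hfe (j, true) h1
    by_cases h2 : ∫⁻ ω, Q ω 0 (fastEscape (d := d) (j, false)) ∂iid μ ≠ 0
    · exact hfe (j, false) h2
    push Not at h1 h2
    refine ⟨0, ?_⟩
    have hmE : ∀ b, ∀ᵐ ω ∂iid μ, Q ω 0 (fastEscape (d := d) (j, b)) = 0 := fun b =>
      (lintegral_eq_zero_iff ((Measure.measurable_coe measurableSet_fastEscape).comp
        (hQ.measurable 0))).1 (by cases b <;> assumption)
    have hmO : ∀ b, ∀ᵐ ω ∂iid μ, Q ω 0 (fastOscillate (d := d) (j, b)) = 0 := fun b =>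
      (lintegral_eq_zero_iff ((Measure.measurable_coe measurableSet_fastOscillate).comp
        (hQ.measurable 0))).1 (lintegral_fastOscillate hQ hell)
    filter_upwards [ae_all_iff.2 hmE, ae_all_iff.2 hmO] with ω hE hO
    exact measure_mono_null (not_coord_zero_subset j)
      (measure_iUnion_null fun b => measure_union_null (hE b) (hO b))
  choose v hv using hj
  refine ⟨v, ?_⟩
  filter_upwards [ae_all_iff.2 hv] with ω hω
  refine measure_mono_null (fun X hX => ?_) (measure_iUnion_null hω)
  simp only [velEvent, mem_compl_iff, mem_ofPred_eq, not_forall] at hX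
  obtain ⟨j, hj⟩ := hX
  exact mem_iUnion.2 ⟨j, hj⟩

end Vale.Agent.P147.Bal
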