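import Vale.Agent.P147.Bal.Flat

/-!
# The ballistic zero-one law in dimension at least four
-/

open MeasureTheory Set Filter Topology
open scoped ENNReal

namespace Vale.Agent.P147.Bal

open Vale.Agent.P147.Proj (dsp iid grad Invariant exists_list real_shift)

variable {d : ℕ} {e : Step d} {μ : Measure (Row d)} [IsProbabilityMeasure μ]
  {Q : Env d → Site d → Measure (ℕ → Site d)} {A : Set (ℕ → Site d)}

/-- If the walk can escape along some signed axis with a speed not tending to zero, then every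
invariant event has quenched probability zero or one. -/
theorem zero_one_invariant (hd : 4 ≤ d) (hQ : IsQuenchedLaw Q) (hA : MeasurableSet A)
    (hinv : Invariant A) (hell : ∀ᵐ q ∂μ, ∀ a : Step d, 0 < q.1 a)
    (hpos : ∫⁻ ω, Q ω 0 (fastEscape e) ∂iid μ ≠ 0) :
    ∃ q : ℝ≥0∞, (q = 0 ∨ q = 1) ∧ (∀ᵐ ω ∂iid μ, ∀ x, Q ω x A = q) ∧
      ∫⁻ ω, Q ω 0 A ∂iid μ = q := by
  classical
  set z : Site d := Pi.single e.1 (1 : ℤ)
  have herg := ergodic_iid μ e.1
  set h := fun ω x => (Q ω x).real A with h_def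
  have hm : ∀ x, Measurable fun ω => h ω x := fun x => hQ.measurable_real x hA
  have hsh : ∀ ω x, h (shiftEnv z ω) x = h ω (x + z) := fun ω x => real_shift hQ hA hinv ω z x
  set E0 := {ω | ∀ x y, h ω x = h ω y} with E0_def
  have hE0m : MeasurableSet E0 := by
    simp only [E0_def, setOf_forall]
    exact MeasurableSet.iInter fun x => MeasurableSet.iInter fun y =>
      measurableSet_eq_fun (hm x) (hm y)
  have hE0inv : shiftEnv z ⁻¹' E0 = E0 := by
    ext ω
    simp only [E0_def, mem_preimage, mem_setOf_eq, hsh]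
    exact ⟨fun H x y => by simpa using H (x - z) (y - z), fun H x y => H _ _⟩
  have hsub : {ω : Env d | ∀ σ : List (Step d),
      (∀ a, 0 < (ω (dsp σ)).1 a) ∧ grad Q A ω (dsp σ) = 0} ⊆ E0 := by
    intro ω hω
    have step : ∀ w a, h ω (w + vec a) = h ω w := by
      intro w a
      obtain ⟨σ, rfl⟩ := exists_list w
      obtain ⟨hp, hg⟩ := hω σ
      have := (Finset.sum_eq_zero_iff_of_nonneg fun b _ =>
        mul_nonneg ((ω _).2.1 b) (sq_nonneg _)).1 hg a (Finset.mem_univ a)
      simpa [sub_eq_zero, (hp a).ne', h_def] using this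
    have path : ∀ (σ : List (Step d)) w, h ω (w + dsp σ) = h ω w := by
      intro σ
      induction σ with
      | nil => simp
      | cons a σ ih => intro w; rw [Proj.dsp_cons, ← add_assoc, ih, step]
    intro x y
    obtain ⟨σ, hσ⟩ := exists_list (x - y)
    rw [← path σ y, hσ, add_sub_cancel]
  have hflat : ∀ᵐ ω ∂iid μ, ω ∈ E0 := by
    rcases eventuallyConst_set.1 (herg.aeconst_set hE0m hE0inv) with h1 | h1
    · exact h1
    · exact absurd (measure_mono_null hsub (measure_eq_zero_iff_ae_notMem.2 h1))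
        (flat_pos hd hQ hA hinv hell hpos)
  set G := {ω | ω ∈ E0 ∧ h ω 0 = 1} with G_def
  have hGm : MeasurableSet G :=
    hE0m.inter (measurableSet_eq_fun (hm 0) measurable_const)
  have hGinv : shiftEnv z ⁻¹' G = G := by
    ext ω
    have h0 : shiftEnv z ω ∈ E0 ↔ ω ∈ E0 := by
      rw [← mem_preimage, hE0inv]
    simp only [G_def, mem_preimage, mem_setOf_eq, h0, hsh, zero_add]
    refine and_congr_right fun hω => ?_
    rw [show h ω z = h ω 0 from hω z 0]
  have hval : ∀ ω ∈ E0, h ω 0 = 0 ∨ h ω 0 = 1 := fun ω hω =>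
    hQ.zero_one ω hA hinv.1 fun x => hω x 0
  have hq : ∀ ω x, Q ω x A = ENNReal.ofReal (h ω x) := by
    intro ω x
    haveI := hQ.prob ω x
    exact (ofReal_measureReal (measure_ne_top _ _)).symm
  obtain ⟨q, hq01, hqe⟩ : ∃ q : ℝ≥0∞, (q = 0 ∨ q = 1) ∧ ∀ᵐ ω ∂iid μ, ∀ x, Q ω x A = q := by
    rcases eventuallyConst_set.1 (herg.aeconst_set hGm hGinv) with h1 | h1
    · refine ⟨1, Or.inr rfl, ?_⟩
      filter_upwards [h1] with ω hω x
      rw [hq, hω.1 x 0, hω.2, ENNReal.ofReal_one]
    · refine ⟨0, Or.inl rfl, ?_⟩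
      filter_upwards [h1, hflat] with ω hω hω0 x
      have : h ω 0 = 0 := (hval ω hω0).resolve_right fun h' => hω ⟨hω0, h'⟩
      rw [hq, hω0 x 0, this, ENNReal.ofReal_zero]
  refine ⟨q, hq01, hqe, ?_⟩
  rw [lintegral_congr_ae (hqe.mono fun ω hω => hω 0)]
  simp

lemma proj_eq_lev (e : Step d) (x : Site d) :
    ∑ j, (vec e j : ℝ) * (x j : ℝ) = (lev e x : ℝ) := by
  rw [Finset.sum_eq_single e.1 (fun j _ hj => by simp [vec, Pi.single_eq_of_ne hj]) (by simp)]
  simp only [vec, Pi.single_eq_same, lev]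
  split_ifs <;> simp

end Vale.Agent.P147.Bal
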