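import Vale.Agent.P147.Bal.PairDefs

/-!
# Mean and second moment of the averaged flow (DESIGN steps 4 and 5)
-/

open MeasureTheory Set Filter Topology
open scoped ENNReal

namespace Vale.Agent.P147.Bal

open Vale.Agent.P147.Proj (dsp verts iid)

variable {d : ℕ} {e : Step d} {μ : Measure (Row d)} [IsProbabilityMeasure μ] {p : ℝ≥0∞}

open Classical in
/-- The flow of prefixes up to level `J` of small range. -/
noncomputable def levelW (e : Step d) (N K J : ℕ) (ω : Env d) : ℝ≥0∞ :=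
  ∑' γ, if Pre e J γ ∧ Small N K γ then pw ω (-dsp γ) γ else 0

omit [IsProbabilityMeasure μ] in
lemma pw_shift (ω : Env d) (x z : Site d) (γ : List (Step d)) :
    pw (shiftEnv z ω) x γ = pw ω (x + z) γ := Proj.wt_shift _ ω x z γ

omit [IsProbabilityMeasure μ] in
lemma measurable_levelW (N K J : ℕ) : Measurable (levelW (d := d) e N K J) := by
  classical
  refine Measurable.tsum fun γ => ?_
  by_cases h : Pre e J γ ∧ Small N K γ <;> simp [h, measurable_pw]

omit [IsProbabilityMeasure μ] in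
lemma measurable_flowW (N K : ℕ) : Measurable (flowW (d := d) e N K) :=
  (Finset.measurable_sum (Finset.range N) fun J _ => measurable_levelW N K J).const_mul _

open Classical in
lemma lintegral_levelW (N K J : ℕ) :
    ∫⁻ ω, levelW e N K J ω ∂iid μ = ∑' γ, if Pre e J γ ∧ Small N K γ then cw μ γ else 0 := by
  unfold levelW
  rw [lintegral_tsum fun γ => ?_]
  · refine tsum_congr fun γ => ?_
    by_cases h : Pre e J γ ∧ Small N K γ <;> simp [h, lintegral_pw]
  · by_cases h : Pre e J γ ∧ Small N K γ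
    · simpa [h] using (measurable_pw (-dsp γ) γ).aemeasurable
    · simpa [h] using aemeasurable_const

open Classical in
/-- Expected range of a prefix. -/
lemma tsum_card_le (J : ℕ) :
    ∑' γ, (if Pre e J γ then cw μ γ * ((verts 0 γ).toFinset.card : ℝ≥0∞) else 0)
      ≤ J * nu μ e := by
  have h1 : ∀ γ, (if Pre e J γ then cw μ γ * ((verts 0 γ).toFinset.card : ℝ≥0∞) else 0)
      ≤ ∑ r ∈ Finset.range J, ∑' x : Site d,
          if lev e x = (r : ℤ) then (if Pre e J γ ∧ x ∈ verts 0 γ then cw μ γ else 0) else 0 := by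
    intro γ
    by_cases h : Pre e J γ
    swap
    · simp [h]
    rw [if_pos h, ← Summable.tsum_finsetSum fun _ _ => ENNReal.summable]
    refine le_trans (le_of_eq ?_) (ENNReal.sum_le_tsum (verts 0 γ).toFinset)
    rw [mul_comm, ← nsmul_eq_mul, ← Finset.sum_const]
    refine Finset.sum_congr rfl fun x hx => ?_
    have hx' := List.mem_toFinset.1 hx
    obtain ⟨h0, h1⟩ := h.1 x hx'
    rw [Finset.sum_eq_single (lev e x).toNat
      (fun r _ hr => if_neg (by omega))
      (fun hn => absurd (Finset.mem_range.2 (by omega)) hn),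
      if_pos (by omega), if_pos ⟨h, hx'⟩]
  refine (ENNReal.tsum_le_tsum h1).trans ?_
  rw [Summable.tsum_finsetSum fun _ _ => ENNReal.summable]
  calc _ ≤ ∑ r ∈ Finset.range J, nu μ e := by
        refine Finset.sum_le_sum fun r _ => ?_
        rw [ENNReal.tsum_comm]
        refine le_trans (ENNReal.tsum_le_tsum fun x => ?_) (tsum_level_visit_le (μ := μ) (r : ℤ))
        by_cases h : lev e x = (r : ℤ)
        · simp only [if_pos h]; exact tsum_visit_le J x
        · simp [h]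
    _ = J * nu μ e := by simp

/-- The averaged flow has mean bounded below. -/
theorem flow_mean (hu : ∀ J, p ≤ u μ e J) {K : ℕ} (hK0 : K ≠ 0) (hK : 2 * nu μ e ≤ p * K)
    (hp1 : p ≠ ∞) {N : ℕ} (hN : N ≠ 0) : p / 2 ≤ ∫⁻ ω, flowW e N K ω ∂iid μ := by
  classical
  have hJ : ∀ J ∈ Finset.range N, p / 2 ≤ ∫⁻ ω, levelW e N K J ω ∂iid μ := by
    intro J hJ
    rw [lintegral_levelW]
    set big := ∑' γ, if Pre e J γ ∧ ¬ Small N K γ then cw μ γ else 0
    have hsplit : u μ e J = (∑' γ, if Pre e J γ ∧ Small N K γ then cw μ γ else 0) + big := by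
      rw [u, ← ENNReal.tsum_add]
      refine tsum_congr fun γ => ?_
      by_cases h : Pre e J γ <;> by_cases h' : Small N K γ <;> simp [h, h']
    have hbig : big ≤ p / 2 := by
      have hc : ((K * N : ℕ) : ℝ≥0∞) * big ≤ J * nu μ e := by
        rw [← ENNReal.tsum_mul_left]
        refine le_trans (ENNReal.tsum_le_tsum fun γ => ?_) (tsum_card_le J)
        by_cases h : Pre e J γ ∧ ¬ Small N K γ
        · rw [if_pos h, if_pos h.1, mul_comm]
          refine mul_le_mul_right ?_ _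
          exact_mod_cast (not_le.1 h.2).le
        · simp [h]
      have hKN : ((K * N : ℕ) : ℝ≥0∞) ≠ 0 := by exact_mod_cast Nat.mul_ne_zero hK0 hN
      refine (ENNReal.mul_le_mul_iff_right hKN (ENNReal.natCast_ne_top _)).1 (hc.trans ?_)
      calc (J : ℝ≥0∞) * nu μ e ≤ (N : ℝ≥0∞) * nu μ e := by
            gcongr
            exact (Finset.mem_range.1 hJ).le
        _ ≤ _ := by
            rw [ENNReal.div_eq_inv_mul, Nat.cast_mul, show (K : ℝ≥0∞) * N * (2⁻¹ * p)
              = N * (2⁻¹ * (p * K)) by ring]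
            gcongr
            rw [← ENNReal.mul_le_mul_iff_right (a := (2 : ℝ≥0∞)) two_ne_zero ENNReal.ofNat_ne_top,
              ← mul_assoc, ENNReal.mul_inv_cancel two_ne_zero ENNReal.ofNat_ne_top, one_mul]
            exact hK
    refine ENNReal.le_of_add_le_add_right (ne_top_of_le_ne_top ?_ hbig)
      (le_trans (add_le_add le_rfl hbig) ?_)
    · exact ENNReal.div_ne_top hp1 two_ne_zero
    · rw [ENNReal.add_halves, ← hsplit]
      exact hu J
  have e1 : ∫⁻ ω, flowW e N K ω ∂iid μ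
      = (N : ℝ≥0∞)⁻¹ * ∑ J ∈ Finset.range N, ∫⁻ ω, levelW e N K J ω ∂iid μ := by
    rw [← lintegral_finsetSum _ fun J _ => measurable_levelW N K J,
      ← lintegral_const_mul _ (Finset.measurable_sum _ fun J _ => measurable_levelW N K J)]
    rfl
  rw [e1]
  calc p / 2 = (N : ℝ≥0∞)⁻¹ * ∑ _J ∈ Finset.range N, p / 2 := by
        rw [Finset.sum_const, Finset.card_range, nsmul_eq_mul, ← mul_assoc,
          ENNReal.inv_mul_cancel (by exact_mod_cast hN) (ENNReal.natCast_ne_top _), one_mul]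
    _ ≤ _ := by gcongr with J hJ'; exact hJ J hJ'

open Classical in
/-- The first hits by small prefixes have bounded mass. -/
lemma tsum_new_le (M : ℕ) :
    ∑' η, (if Proj.IsNew η ∧ (verts 0 η).toFinset.card ≤ M then cw μ η else 0)
      ≤ ((M + 1 : ℕ) : ℝ≥0∞) := by
  have e1 : ∀ η : List (Step d),
      (if Proj.IsNew η ∧ (verts 0 η).toFinset.card ≤ M then cw μ η else 0)
        = ∑ j ∈ Finset.range (M + 1),
            {η | Proj.IsNew η ∧ (verts 0 η).toFinset.card = j}.indicator (cw μ) η := by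
    intro η
    by_cases h : Proj.IsNew η ∧ (verts 0 η).toFinset.card ≤ M
    · rw [if_pos h, Finset.sum_eq_single (verts 0 η).toFinset.card
        (fun j _ hj => indicator_of_notMem (fun hm => hj hm.2.symm) _)
        (fun hn => absurd (Finset.mem_range.2 (by omega)) hn),
        indicator_of_mem (show η ∈ {η' | Proj.IsNew η' ∧
          (verts 0 η').toFinset.card = (verts 0 η).toFinset.card} from ⟨h.1, rfl⟩)]
    · rw [if_neg h, Finset.sum_eq_zero fun j hj => indicator_of_notMem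
        (fun hm => h ⟨hm.1, by have := Finset.mem_range.1 hj; have := hm.2; omega⟩) _]
  rw [tsum_congr e1, Summable.tsum_finsetSum fun _ _ => ENNReal.summable]
  refine (Finset.sum_le_sum (g := fun _ => (1 : ℝ≥0∞)) fun j _ => ?_).trans (by simp)
  rw [tsum_cw_le_lintegral]
  refine (lintegral_mono fun ω => tsum_pw_le_one _ ?_ ω 0).trans (by simp)
  rintro γ δ ⟨hn, hc⟩ ⟨-, hc'⟩
  by_contra hδ
  have hsub : insert (dsp γ) (verts 0 γ).toFinset ⊆ (verts 0 (γ ++ δ)).toFinset := by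
    intro v hv
    rw [List.mem_toFinset, mem_verts_append]
    rcases Finset.mem_insert.1 hv with rfl | hv
    · exact Or.inr (by simpa using self_mem_verts (0 : Site d) hδ)
    · exact Or.inl (List.mem_toFinset.1 hv)
  have := Finset.card_le_card hsub
  rw [Finset.card_insert_of_notMem (fun h => hn (List.mem_toFinset.1 h))] at this
  omega

/-- The pairs of prefixes to level `N` whose first one meets the trail of the second one early. -/
def Hit (e : Step d) (N K : ℕ) (a : Site d) (Γ Γ' : List (Step d)) : Prop :=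
  Pre e N Γ ∧ Pre e N Γ' ∧ lev e a = 0 ∧ ∃ η ρ, Γ = η ++ ρ ∧
    (∀ v ∈ verts 0 η, v ∉ verts a Γ') ∧ dsp η ∈ verts a Γ' ∧ (verts 0 η).toFinset.card ≤ K * N

open Classical in
/-- Few pairs meet early. -/
lemma tsum_hit_le (N K : ℕ) :
    ∑' z : Site d × (List (Step d) × List (Step d)),
      (if Hit e N K z.1 z.2.1 z.2.2 then ∫⁻ ω, pw ω 0 z.2.1 * pw ω z.1 z.2.2 ∂iid μ else 0)
      ≤ nu μ e * (((K * N + 1 : ℕ)) : ℝ≥0∞) := by
  have key : ∀ a Γ', (∑' Γ, if Hit e N K a Γ Γ' then ∫⁻ ω, pw ω 0 Γ * pw ω a Γ' ∂iid μ else 0)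
      ≤ ∑' η, (if Proj.IsNew η ∧ (verts 0 η).toFinset.card ≤ K * N then cw μ η else 0) *
          (if lev e a = 0 ∧ Pre e N Γ' ∧ dsp η - a ∈ verts 0 Γ' then cw μ Γ' else 0) := by
    intro a Γ'
    refine (Proj.tsum_le_split _ (fun z =>
      if Pre e N (z.1 ++ z.2) ∧ Pre e N Γ' ∧ lev e a = 0 ∧ (∀ v ∈ verts 0 z.1, v ∉ verts a Γ') ∧
          dsp z.1 ∈ verts a Γ' ∧ (verts 0 z.1).toFinset.card ≤ K * N
        then ∫⁻ ω, pw ω 0 (z.1 ++ z.2) * pw ω a Γ' ∂iid μ else 0) fun Γ hΓ => ?_).trans ?_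
    · by_cases h : Hit e N K a Γ Γ'
      swap
      · exact absurd (if_neg h) hΓ
      obtain ⟨h1, h2, h3, η, ρ, rfl, h4, h5, h6⟩ := h
      refine ⟨η, ρ, rfl, ?_⟩
      simp only [if_pos (show Pre e N (η ++ ρ) ∧ Pre e N Γ' ∧ lev e a = 0 ∧
        (∀ v ∈ verts 0 η, v ∉ verts a Γ') ∧ dsp η ∈ verts a Γ' ∧
        (verts 0 η).toFinset.card ≤ K * N from ⟨h1, h2, h3, h4, h5, h6⟩)]
      split_ifs <;> simp
    rw [ENNReal.tsum_prod']
    refine ENNReal.tsum_le_tsum fun η => ?_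
    by_cases h : Pre e N Γ' ∧ lev e a = 0 ∧ (∀ v ∈ verts 0 η, v ∉ verts a Γ') ∧
        dsp η ∈ verts a Γ' ∧ (verts 0 η).toFinset.card ≤ K * N
    swap
    · refine le_of_eq_of_le (ENNReal.tsum_eq_zero.2 fun ρ => if_neg fun h' => h h'.2) zero_le
    obtain ⟨h2, h3, h4, h5, h6⟩ := h
    have hm : dsp η - a ∈ verts 0 Γ' := by
      have : dsp η ∈ verts (0 + a) Γ' := by rwa [zero_add]
      exact mem_verts_shift.1 this
    rw [if_pos ⟨fun hv => h4 _ hv h5, h6⟩, if_pos ⟨h3, h2, hm⟩, ← lintegral_pw_mul_disjoint h4]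
    calc _ ≤ ∑' ρ, ∫⁻ ω, {Γ | Pre e N Γ}.indicator (pw ω 0) (η ++ ρ) * pw ω a Γ' ∂iid μ := by
          refine ENNReal.tsum_le_tsum fun ρ => ?_
          split_ifs with h'
          · exact le_of_eq (lintegral_congr fun ω => by rw [indicator_of_mem
              (show η ++ ρ ∈ {Γ | Pre e N Γ} from h'.1)])
          · exact zero_le
      _ ≤ _ := by
          rw [← lintegral_tsum fun ρ => ?_]
          · refine lintegral_mono fun ω => ?_
            rw [ENNReal.tsum_mul_right]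
            exact mul_le_mul_left (tsum_ext_le _ (fun γ δ (hγ : Pre e N γ)
              (hδ : Pre e N (γ ++ δ)) => pre_prefix_free hγ hδ) ω 0 η) _
          · by_cases hρ : Pre e N (η ++ ρ)
            · simpa [Set.indicator, hρ] using
                ((measurable_pw 0 (η ++ ρ)).fun_mul (measurable_pw a Γ')).aemeasurable
            · simp [Set.indicator, hρ]
  rw [ENNReal.tsum_prod']
  calc _ ≤ ∑' a, ∑' Γ', ∑' η,
          (if Proj.IsNew η ∧ (verts 0 η).toFinset.card ≤ K * N then cw μ η else 0) *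
          (if lev e a = 0 ∧ Pre e N Γ' ∧ dsp η - a ∈ verts 0 Γ' then cw μ Γ' else 0) := by
        refine ENNReal.tsum_le_tsum fun a => ?_
        rw [ENNReal.tsum_prod', ENNReal.tsum_comm]
        exact ENNReal.tsum_le_tsum fun Γ' => key a Γ'
    _ = ∑' η, (if Proj.IsNew η ∧ (verts 0 η).toFinset.card ≤ K * N then cw μ η else 0) *
          ∑' a, ∑' Γ',
            (if lev e a = 0 ∧ Pre e N Γ' ∧ dsp η - a ∈ verts 0 Γ' then cw μ Γ' else 0) := by
        simp only [← ENNReal.tsum_mul_left]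
        conv_rhs => rw [ENNReal.tsum_comm]
        exact tsum_congr fun a => ENNReal.tsum_comm
    _ ≤ ∑' η, (if Proj.IsNew η ∧ (verts 0 η).toFinset.card ≤ K * N then cw μ η else 0) *
          nu μ e := by
        refine ENNReal.tsum_le_tsum fun η => mul_le_mul_right ?_ _
        calc _ ≤ ∑' a, (if lev e (dsp η - a) = lev e (dsp η) then visit μ e (dsp η - a) else 0) := by
              refine ENNReal.tsum_le_tsum fun a => ?_
              by_cases h : lev e a = 0
              · rw [if_pos (by rw [lev_sub, h, sub_zero])]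
                simp only [h, true_and]
                exact tsum_visit_le N _
              · simp [h]
          _ = ∑' x, (if lev e x = lev e (dsp η) then visit μ e x else 0) :=
              (Equiv.subLeft (dsp η)).tsum_eq
                (fun x => if lev e x = lev e (dsp η) then visit μ e x else 0)
          _ ≤ _ := tsum_level_visit_le _
    _ ≤ _ := by
        rw [ENNReal.tsum_mul_right, mul_comm]
        exact mul_le_mul_right (tsum_new_le _) _

/-- Two prefixes ending at a common point meet before. -/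
def Meet (γ γ' : List (Step d)) : Prop :=
  ∃ v ∈ verts 0 γ, v ∈ verts (dsp γ - dsp γ') γ'

omit [IsProbabilityMeasure μ] in
lemma hit_of_meet {N K J : ℕ} {γ γ' δ δ' : List (Step d)} (hJ : J ≤ N) (h1 : Pre e J γ)
    (h2 : Pre e J γ') (hs : Small N K γ) (hm : Meet γ γ') (h3 : Pre e (N - J) δ)
    (h4 : Pre e (N - J) δ') :
    Hit e N K (dsp γ - dsp γ') (γ ++ δ) (γ' ++ δ') := by
  obtain ⟨v, hv, hv'⟩ := hm
  have hN : J + (N - J) = N := by omega
  refine ⟨hN ▸ h1.append h3, hN ▸ h2.append h4, by rw [lev_sub, h1.2, h2.2, sub_self], ?_⟩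
  set S : Set (Site d) := {x | x ∈ verts (dsp γ - dsp γ') (γ' ++ δ')}
  obtain ⟨η, ρ, hηρ, ha, hb⟩ := Proj.exists_first (x := (0 : Site d)) (γ := γ) (S := S)
    ⟨v, List.mem_append_left _ hv, by
      show v ∈ verts _ (γ' ++ δ')
      rw [verts_append]
      exact List.mem_append_left _ hv'⟩
  refine ⟨η, ρ ++ δ, by rw [hηρ, List.append_assoc], ha, by simpa [S] using hb, le_trans ?_ hs⟩
  refine Finset.card_le_card fun x hx => ?_
  rw [List.mem_toFinset] at hx ⊢
  rw [hηρ]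
  exact mem_verts_append.2 (Or.inl hx)

lemma lintegral_pair_mul {J M : ℕ} {γ γ' δ δ' : List (Step d)} (h1 : Pre e J γ) (h2 : Pre e J γ')
    (h3 : Pre e M δ) (h4 : Pre e M δ') :
    (∫⁻ ω, pw ω 0 γ * pw ω (dsp γ - dsp γ') γ' ∂iid μ) * ∫⁻ ω, pw ω 0 δ * pw ω 0 δ' ∂iid μ
      = ∫⁻ ω, pw ω 0 (γ ++ δ) * pw ω (dsp γ - dsp γ') (γ' ++ δ') ∂iid μ := by
  classical
  set a := dsp γ - dsp γ'
  set z := dsp γ
  have hz : ∫⁻ ω, pw ω 0 δ * pw ω 0 δ' ∂iid μ = ∫⁻ ω, pw ω z δ * pw ω z δ' ∂iid μ := by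
    rw [← Proj.lintegral_shift μ (f := fun ω => pw ω 0 δ * pw ω 0 δ')
      ((measurable_pw _ _).fun_mul (measurable_pw _ _)) z]
    simp [pw_shift]
  rw [hz, ← Proj.lintegral_mul_disjoint μ (f := fun ω => pw ω 0 γ * pw ω a γ')
    (g := fun ω => pw ω z δ * pw ω z δ') ((measurable_pw _ _).fun_mul (measurable_pw _ _))
    ((measurable_pw _ _).fun_mul (measurable_pw _ _))
    (S := (verts 0 γ).toFinset ∪ (verts a γ').toFinset)
    (T := (verts z δ).toFinset ∪ (verts z δ').toFinset) ?_ ?_ ?_]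
  · refine lintegral_congr fun ω => ?_
    rw [pw_append, pw_append, zero_add, show a + dsp γ' = z by simp [a, z]]
    ring
  · intro ω ω' h
    simp only [pw]
    rw [Proj.wt_congr pq 0 γ fun v hv => h v (Finset.mem_union_left _ (List.mem_toFinset.2 hv)),
      Proj.wt_congr pq a γ' fun v hv => h v (Finset.mem_union_right _ (List.mem_toFinset.2 hv))]
  · intro ω ω' h
    simp only [pw]
    rw [Proj.wt_congr pq z δ fun v hv => h v (Finset.mem_union_left _ (List.mem_toFinset.2 hv)),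
      Proj.wt_congr pq z δ' fun v hv => h v (Finset.mem_union_right _ (List.mem_toFinset.2 hv))]
  · have hlow : ∀ v ∈ (verts 0 γ).toFinset ∪ (verts a γ').toFinset, lev e v < J := by
      intro v hv
      rcases Finset.mem_union.1 hv with h | h
      · exact (h1.1 v (List.mem_toFinset.1 h)).2
      · have h' : v ∈ verts (0 + a) γ' := by simpa using List.mem_toFinset.1 h
        have := (h2.1 _ (mem_verts_shift.1 h')).2
        rw [lev_sub, lev_sub, h1.2, h2.2] at this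
        omega
    have hhigh : ∀ v ∈ (verts z δ).toFinset ∪ (verts z δ').toFinset, (J : ℤ) ≤ lev e v := by
      intro v hv
      rcases Finset.mem_union.1 hv with h | h <;>
        have h' : v ∈ verts (0 + z) _ := (by simpa using List.mem_toFinset.1 h)
      · have := (h3.1 _ (mem_verts_shift.1 h')).1
        rw [lev_sub, h1.2] at this
        omega
      · have := (h4.1 _ (mem_verts_shift.1 h')).1
        rw [lev_sub, h1.2] at this
        omega
    exact Finset.disjoint_left.2 fun v hv hv' => absurd (hlow v hv) (not_lt.2 (hhigh v hv'))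

omit [IsProbabilityMeasure μ] in
/-- The last common cut determines the decomposition. -/
lemma cut_unique {N J J2 : ℕ} {γ γ' δ δ' γ2 γ2' δ2 δ2' : List (Step d)} (hJ : J < J2) (hJ2 : J2 ≤ N)
    (h1 : Pre e J γ) (h2 : Pre e J γ') (h3 : Pre e (N - J) δ) (h4 : Pre e (N - J) δ')
    (h5 : NoCut e (N - J) δ δ') (k1 : Pre e J2 γ2) (k2 : Pre e J2 γ2')
    (k3 : Pre e (N - J2) δ2) (k4 : Pre e (N - J2) δ2') (e1 : γ ++ δ = γ2 ++ δ2)
    (e2 : γ' ++ δ' = γ2' ++ δ2') (e3 : dsp γ - dsp γ' = dsp γ2 - dsp γ2') : False := by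
  obtain ⟨κ, ρ, rfl, hκ⟩ := h3.exists_split (t := J2 - J) (by omega)
  obtain ⟨κ', ρ', rfl, hκ'⟩ := h4.exists_split (t := J2 - J) (by omega)
  have hs : J + (J2 - J) = J2 := by omega
  obtain ⟨f1, rfl⟩ := Pre.split_unique (η := γ ++ κ) (η' := γ2) (by simpa using e1)
    (hs ▸ h1.append hκ) k1
  obtain ⟨f2, rfl⟩ := Pre.split_unique (η := γ' ++ κ') (η' := γ2') (by simpa using e2)
    (hs ▸ h2.append hκ') k2
  have hd : dsp κ = dsp κ' := by
    rw [← f1, ← f2, Proj.dsp_append, Proj.dsp_append] at e3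
    have : dsp κ - dsp κ' = 0 := by
      calc dsp κ - dsp κ' = dsp γ + dsp κ - (dsp γ' + dsp κ') - (dsp γ - dsp γ') := by abel
        _ = 0 := by rw [← e3, sub_self]
    exact sub_eq_zero.1 this
  have hsub : N - J - (J2 - J) = N - J2 := by omega
  exact h5 (J2 - J) (by omega) (by omega)
    ⟨κ, ρ, κ', ρ', rfl, rfl, hκ, hκ', hd, hsub ▸ k3, hsub ▸ k4⟩

open Classical in
/-- The meeting part of the second moment at level `J`. -/
noncomputable def meetW (μ : Measure (Row d)) (e : Step d) (N K J : ℕ) : ℝ≥0∞ :=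
  ∑' z : List (Step d) × List (Step d),
    if Pre e J z.1 ∧ Pre e J z.2 ∧ Small N K z.1 ∧ Meet z.1 z.2 then
      ∫⁻ ω, pw ω 0 z.1 * pw ω (dsp z.1 - dsp z.2) z.2 ∂iid μ
    else 0

/-- Last exit. -/
lemma sum_meet_le (N K : ℕ) :
    ∑ J ∈ Finset.range N, meetW μ e N K J * esc μ e (N - J)
      ≤ nu μ e * ((K * N + 1 : ℕ) : ℝ≥0∞) := by
  classical
  refine le_trans ?_ (tsum_hit_le (μ := μ) (e := e) N K)
  set H := fun z : Site d × (List (Step d) × List (Step d)) =>
    if Hit e N K z.1 z.2.1 z.2.2 then ∫⁻ ω, pw ω 0 z.2.1 * pw ω z.1 z.2.2 ∂iid μ else 0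
  set Ok := fun w : Fin N × ((List (Step d) × List (Step d)) × (List (Step d) × List (Step d))) =>
    (Pre e w.1 w.2.1.1 ∧ Pre e w.1 w.2.1.2 ∧ Small N K w.2.1.1 ∧ Meet w.2.1.1 w.2.1.2) ∧
      Pre e (N - w.1) w.2.2.1 ∧ Pre e (N - w.1) w.2.2.2 ∧ NoCut e (N - w.1) w.2.2.1 w.2.2.2
  set Φ := fun w : {w // Ok w} => (dsp w.1.2.1.1 - dsp w.1.2.1.2,
    (w.1.2.1.1 ++ w.1.2.2.1, w.1.2.1.2 ++ w.1.2.2.2))
  have hΦ : Function.Injective Φ := by
    rintro ⟨⟨J, ⟨γ, γ'⟩, δ, δ'⟩, ⟨a1, a2, a5, a6⟩, a3, a4, a7⟩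
      ⟨⟨J2, ⟨γ2, γ2'⟩, δ2, δ2'⟩, ⟨b1, b2, b5, b6⟩, b3, b4, b7⟩ h
    simp only [Φ, Prod.mk.injEq] at h
    obtain ⟨h1, h2, h3⟩ := h
    dsimp only at a1 a2 a3 a4 a7 b1 b2 b3 b4 b7
    rcases lt_trichotomy (J : ℕ) J2 with hlt | heq | hgt'
    · exact (cut_unique hlt J2.2.le a1 a2 a3 a4 a7 b1 b2 b3 b4 h2 h3 h1).elim
    · obtain rfl : J = J2 := Fin.ext heq
      obtain ⟨rfl, rfl⟩ := Pre.split_unique h2 a1 b1
      obtain ⟨rfl, rfl⟩ := Pre.split_unique h3 a2 b2
      rfl
    · exact (cut_unique hgt' J.2.le b1 b2 b3 b4 b7 a1 a2 a3 a4 h2.symm h3.symm h1.symm).elim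
  calc ∑ J ∈ Finset.range N, meetW μ e N K J * esc μ e (N - J)
      = ∑ J : Fin N, meetW μ e N K J * esc μ e (N - J) :=
        (Fin.sum_univ_eq_sum_range (fun J => meetW μ e N K J * esc μ e (N - J)) N).symm
    _ ≤ ∑' w, (if h : Ok w then H (Φ ⟨w, h⟩) else 0) := by
        rw [ENNReal.tsum_prod', tsum_fintype]
        refine Finset.sum_le_sum fun J _ => ?_
        rw [ENNReal.tsum_prod', meetW, esc, ← ENNReal.tsum_mul_right]
        refine ENNReal.tsum_le_tsum fun z => ?_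
        rw [← ENNReal.tsum_mul_left]
        refine ENNReal.tsum_le_tsum fun z' => ?_
        by_cases hA : Pre e J z.1 ∧ Pre e J z.2 ∧ Small N K z.1 ∧ Meet z.1 z.2
        swap
        · simp [hA]
        by_cases hB : Pre e (N - J) z'.1 ∧ Pre e (N - J) z'.2 ∧ NoCut e (N - J) z'.1 z'.2
        swap
        · simp [hB]
        rw [if_pos hA, if_pos hB, dif_pos (show Ok (J, z, z') from ⟨hA, hB⟩),
          lintegral_pair_mul hA.1 hA.2.1 hB.1 hB.2.1]
        simp only [H, Φ]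
        rw [if_pos (hit_of_meet J.2.le hA.1 hA.2.1 hA.2.2.1 hA.2.2.2 hB.1 hB.2.1)]
    _ ≤ ∑' w : {w // Ok w}, H (Φ w) := by
        rw [← tsum_subtype_eq_of_support_subset (s := {w | Ok w}) (fun w hw => ?_)]
        · exact le_of_eq (tsum_congr fun w => dif_pos w.2)
        · by_contra h
          exact hw (dif_neg h)
    _ ≤ _ := ENNReal.tsum_comp_le_tsum_of_injective hΦ H

lemma lintegral_levelW_sq (N K J : ℕ) :
    ∫⁻ ω, levelW e N K J ω ^ 2 ∂iid μ ≤ 1 + meetW μ e N K J := by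
  classical
  set g := fun (ω : Env d) γ => if Pre e J γ ∧ Small N K γ then pw ω (-dsp γ) γ else 0
  have hg : ∀ γ, Measurable fun ω => g ω γ := fun γ => by
    by_cases h : Pre e J γ ∧ Small N K γ <;> simp [g, h, measurable_pw]
  have e1 : ∀ ω, levelW e N K J ω ^ 2
      = ∑' z : List (Step d) × List (Step d), g ω z.1 * g ω z.2 := by
    intro ω
    rw [ENNReal.tsum_prod', sq]
    simp only [ENNReal.tsum_mul_left, ENNReal.tsum_mul_right]
    rfl
  rw [lintegral_congr e1, lintegral_tsum (f := fun (z : List (Step d) × List (Step d)) ω =>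
    g ω z.1 * g ω z.2) fun z => ((hg z.1).fun_mul (hg z.2)).aemeasurable]
  have hb : ∀ z : List (Step d) × List (Step d), ∫⁻ ω, g ω z.1 * g ω z.2 ∂iid μ
      ≤ (if Pre e J z.1 then cw μ z.1 else 0) * (if Pre e J z.2 then cw μ z.2 else 0) +
        (if Pre e J z.1 ∧ Pre e J z.2 ∧ Small N K z.1 ∧ Meet z.1 z.2 then
          ∫⁻ ω, pw ω 0 z.1 * pw ω (dsp z.1 - dsp z.2) z.2 ∂iid μ else 0) := by
    rintro ⟨γ, γ'⟩
    by_cases h : (Pre e J γ ∧ Small N K γ) ∧ (Pre e J γ' ∧ Small N K γ')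
    swap
    · refine le_of_eq_of_le (le_antisymm ?_ zero_le) zero_le
      refine (lintegral_mono fun ω => le_of_eq ?_).trans (lintegral_zero (μ := iid μ)).le
      rcases not_and_or.1 h with h | h <;> simp [g, h]
    obtain ⟨⟨h1, h1s⟩, h2, h2s⟩ := h
    have hsh : ∫⁻ ω, g ω γ * g ω γ' ∂iid μ
        = ∫⁻ ω, pw ω 0 γ * pw ω (dsp γ - dsp γ') γ' ∂iid μ := by
      rw [← Proj.lintegral_shift μ (f := fun ω => g ω γ * g ω γ')
        ((hg γ).fun_mul (hg γ')) (dsp γ)]
      refine lintegral_congr fun ω => ?_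
      simp only [g, if_pos (show Pre e J γ ∧ Small N K γ from ⟨h1, h1s⟩),
        if_pos (show Pre e J γ' ∧ Small N K γ' from ⟨h2, h2s⟩), pw_shift, neg_add_cancel]
      rw [neg_add_eq_sub]
    rw [hsh]
    by_cases hm : Meet γ γ'
    · rw [if_pos (show Pre e J γ ∧ Pre e J γ' ∧ Small N K γ ∧ Meet γ γ' from ⟨h1, h2, h1s, hm⟩)]
      exact le_add_self
    · rw [lintegral_pw_mul_disjoint (fun v hv hv' => hm ⟨v, hv, hv'⟩)]
      refine le_trans ?_ le_self_add
      simp [h1, h2]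
  refine (ENNReal.tsum_le_tsum hb).trans ?_
  rw [ENNReal.tsum_add]
  refine add_le_add ?_ le_rfl
  rw [ENNReal.tsum_prod']
  simp only [ENNReal.tsum_mul_left, ENNReal.tsum_mul_right]
  exact mul_le_one' (u_le_one J) (u_le_one J)

omit [IsProbabilityMeasure μ] in
lemma sq_sum_le (s : Finset ℕ) (f : ℕ → ℝ≥0∞) :
    (∑ i ∈ s, f i) ^ 2 ≤ 2 * (s.card : ℝ≥0∞) * ∑ i ∈ s, f i ^ 2 := by
  rw [sq, Finset.sum_mul_sum]
  refine (Finset.sum_le_sum fun i _ => Finset.sum_le_sum fun j _ =>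
    mul_le_sq_add_sq (f i) (f j)).trans (le_of_eq ?_)
  simp only [Finset.sum_add_distrib, Finset.sum_const, nsmul_eq_mul, ← Finset.mul_sum]
  ring

/-- The averaged flow is bounded in second moment. -/
theorem flow_sq {c : ℝ≥0∞} (hc : ∀ M, c ≤ esc μ e M) (hc0 : c ≠ 0) {K N : ℕ}
    (hN : N ≠ 0) (hctop : c ≠ ∞) :
    ∫⁻ ω, flowW e N K ω ^ 2 ∂iid μ ≤ 2 * (1 + nu μ e * (K + 1 : ℕ) / c) := by
  have hmeet : c * ∑ J ∈ Finset.range N, meetW μ e N K J ≤ nu μ e * ((K * N + 1 : ℕ) : ℝ≥0∞) := by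
    refine le_trans ?_ (sum_meet_le (μ := μ) (e := e) N K)
    rw [Finset.mul_sum]
    exact Finset.sum_le_sum fun J _ => by
      rw [mul_comm]
      exact mul_le_mul_right (hc _) _
  have hNtop : (N : ℝ≥0∞) ≠ ∞ := ENNReal.natCast_ne_top _
  have hN0 : (N : ℝ≥0∞) ≠ 0 := by exact_mod_cast hN
  calc ∫⁻ ω, flowW e N K ω ^ 2 ∂iid μ
      ≤ ∫⁻ ω, 2 * (N : ℝ≥0∞)⁻¹ * ∑ J ∈ Finset.range N, levelW e N K J ω ^ 2 ∂iid μ := by
        refine lintegral_mono fun ω => ?_
        show ((N : ℝ≥0∞)⁻¹ * ∑ J ∈ Finset.range N, levelW e N K J ω) ^ 2 ≤ _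
        rw [mul_pow]
        refine (mul_le_mul_right (sq_sum_le _ _) _).trans (le_of_eq ?_)
        rw [Finset.card_range, sq]
        calc (N : ℝ≥0∞)⁻¹ * (N : ℝ≥0∞)⁻¹ * (2 * (N : ℝ≥0∞) *
              ∑ J ∈ Finset.range N, levelW e N K J ω ^ 2)
            = 2 * (N : ℝ≥0∞)⁻¹ * ((N : ℝ≥0∞)⁻¹ * N) *
              ∑ J ∈ Finset.range N, levelW e N K J ω ^ 2 := by ring
          _ = _ := by rw [ENNReal.inv_mul_cancel hN0 hNtop, mul_one]
    _ = 2 * (N : ℝ≥0∞)⁻¹ * ∑ J ∈ Finset.range N, ∫⁻ ω, levelW e N K J ω ^ 2 ∂iid μ := by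
        rw [lintegral_const_mul _ (Finset.measurable_sum _ fun J _ =>
          (measurable_levelW N K J).pow_const 2),
          lintegral_finsetSum _ fun J _ => (measurable_levelW N K J).pow_const 2]
    _ ≤ 2 * (N : ℝ≥0∞)⁻¹ * ∑ J ∈ Finset.range N, (1 + meetW μ e N K J) := by
        gcongr with J
        exact lintegral_levelW_sq N K J
    _ = 2 * ((N : ℝ≥0∞)⁻¹ * N + (N : ℝ≥0∞)⁻¹ * ∑ J ∈ Finset.range N, meetW μ e N K J) := by
        rw [Finset.sum_add_distrib, Finset.sum_const, Finset.card_range, nsmul_eq_mul, mul_one]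
        ring
    _ ≤ _ := by
        rw [ENNReal.inv_mul_cancel hN0 hNtop]
        gcongr
        rw [ENNReal.le_div_iff_mul_le (Or.inl hc0) (Or.inl hctop), mul_assoc, mul_comm _ c]
        have hKN : ((K * N + 1 : ℕ) : ℝ≥0∞) ≤ ((K + 1 : ℕ) : ℝ≥0∞) * N := by
          have : K * N + 1 ≤ (K + 1) * N := by
            have : 1 ≤ N := Nat.one_le_iff_ne_zero.2 hN
            rw [Nat.succ_mul]; omega
          exact_mod_cast this
        refine (mul_le_mul_right (hmeet.trans (mul_le_mul_right hKN _)) _).trans (le_of_eq ?_)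
        calc (N : ℝ≥0∞)⁻¹ * (nu μ e * (((K + 1 : ℕ) : ℝ≥0∞) * N))
            = ((N : ℝ≥0∞)⁻¹ * N) * (nu μ e * ((K + 1 : ℕ) : ℝ≥0∞)) := by ring
          _ = _ := by rw [ENNReal.inv_mul_cancel hN0 hNtop, one_mul]

end Vale.Agent.P147.Bal
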