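import Vale.Agent.P147.Bal.Renewal

/-!
# Pairs of prefixes in a common environment
-/

open MeasureTheory Set Filter Topology
open scoped ENNReal

namespace Vale.Agent.P147.Bal

open Vale.Agent.P147.Proj (dsp verts iid)

variable {d : ℕ}

/-- A common cut at level `t`, relative to the horizon `M`, with equal points. -/
def CommonCut (e : Step d) (M t : ℕ) (δ δ' : List (Step d)) : Prop :=
  ∃ η ρ η' ρ', δ = η ++ ρ ∧ δ' = η' ++ ρ' ∧ Pre e t η ∧ Pre e t η' ∧ dsp η = dsp η' ∧
    Pre e (M - t) ρ ∧ Pre e (M - t) ρ'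

/-- No common cut above level zero. -/
def NoCut (e : Step d) (M : ℕ) (δ δ' : List (Step d)) : Prop :=
  ∀ t, 1 ≤ t → t ≤ M → ¬ CommonCut e M t δ δ'

open Classical in
/-- The probability that two walks from `0` in a common environment have no common cut. -/
noncomputable def esc (μ : Measure (Row d)) (e : Step d) (M : ℕ) : ℝ≥0∞ :=
  ∑' z : List (Step d) × List (Step d),
    if Pre e M z.1 ∧ Pre e M z.2 ∧ NoCut e M z.1 z.2 then
      ∫⁻ ω, pw ω 0 z.1 * pw ω 0 z.2 ∂iid μ
    else 0

/-- A step list of small range. -/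
def Small (N K : ℕ) (γ : List (Step d)) : Prop := (verts 0 γ).toFinset.card ≤ K * N

open Classical in
/-- The flow of prefixes of small range into the origin, averaged over the levels below `N`. -/
noncomputable def flowW (e : Step d) (N K : ℕ) (ω : Env d) : ℝ≥0∞ :=
  (N : ℝ≥0∞)⁻¹ * ∑ J ∈ Finset.range N,
    ∑' γ, if Pre e J γ ∧ Small N K γ then pw ω (-dsp γ) γ else 0

end Vale.Agent.P147.Bal
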