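import Vale.Agent.P147.Bal.Basic
import Vale.Agent.P147.Bal.Fourier

/-!
# Renewal structure of prefixes
-/

open MeasureTheory Set Filter Topology
open scoped ENNReal

namespace Vale.Agent.P147.Bal

open Vale.Agent.P147.Proj (dsp verts iid)

variable {d : ℕ} {e : Step d} {μ : Measure (Row d)} [IsProbabilityMeasure μ] {p : ℝ≥0∞}

open Classical in
/-- The law of the height of an irreducible prefix. -/
noncomputable def hlaw (μ : Measure (Row d)) (e : Step d) (s : ℕ) : ℝ≥0∞ :=
  ∑' γ, if Irr e γ ∧ hgt e γ = s then cw μ γ else 0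

omit [IsProbabilityMeasure μ] in
lemma pre_iff_adm {J : ℕ} {γ : List (Step d)} : Pre e J γ ↔ Adm e γ ∧ hgt e γ = J :=
  ⟨fun h => ⟨h.adm, h.hgt_eq⟩, fun h => h.2 ▸ h.1⟩

lemma u_zero : u μ e 0 = 1 := by
  classical
  unfold u
  rw [tsum_eq_single ([] : List (Step d)) fun γ hγ => if_neg fun h => hγ (pre_zero_iff.1 h)]
  simp [pre_nil, cw_nil]

lemma u_succ (J : ℕ) :
    u μ e (J + 1) = ∑ s ∈ Finset.range (J + 1), hlaw μ e (s + 1) * u μ e (J - s) := by
  classical
  have h := tsum_adm_eq (e := e) fun γ => if hgt e γ = J + 1 then cw μ γ else 0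
  have e1 : (∑' γ, if Adm e γ then (if hgt e γ = J + 1 then cw μ γ else 0) else 0)
      = u μ e (J + 1) := tsum_congr fun γ => by
    by_cases h1 : Adm e γ <;> by_cases h2 : hgt e γ = J + 1 <;> simp [pre_iff_adm, h1, h2]
  rw [e1] at h
  rw [h, hgt_nil, if_neg (by omega), zero_add]
  have e2 : ∀ η, (if Irr e η then ∑' δ, if Adm e δ then
      (if hgt e (η ++ δ) = J + 1 then cw μ (η ++ δ) else 0) else 0 else 0)
      = ∑ s ∈ Finset.range (J + 1),
          (if Irr e η ∧ hgt e η = s + 1 then cw μ η else 0) * u μ e (J - s) := by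
    intro η
    by_cases hη : Irr e η
    swap
    · simp [hη]
    rw [if_pos hη]
    have h1 := hη.one_le_hgt
    by_cases hle : hgt e η ≤ J + 1
    · rw [Finset.sum_eq_single (hgt e η - 1)
        (fun s _ hne => by rw [if_neg (fun h => hne (by omega)), zero_mul])
        (fun hn => absurd (Finset.mem_range.2 (by omega)) hn),
        if_pos ⟨hη, by omega⟩, u, ← ENNReal.tsum_mul_left]
      refine tsum_congr fun δ => ?_
      by_cases hδ : Adm e δ
      · rw [if_pos hδ, (hη.2.1.append hδ).2, cw_append hη.2.1 hδ]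
        by_cases hh : hgt e η + hgt e δ = J + 1
        · rw [if_pos hh, if_pos (pre_iff_adm.2 ⟨hδ, by omega⟩)]
        · rw [if_neg hh, if_neg (fun hc => hh (by have := (pre_iff_adm.1 hc).2; omega)), mul_zero]
      · rw [if_neg hδ, if_neg (fun hc => hδ hc.adm), mul_zero]
    · rw [Finset.sum_eq_zero fun s hs => by
        rw [if_neg (fun h => hle (by have := Finset.mem_range.1 hs; omega)), zero_mul]]
      refine ENNReal.tsum_eq_zero.2 fun δ => ?_
      by_cases hδ : Adm e δ
      · rw [if_pos hδ, (hη.2.1.append hδ).2, if_neg (by omega)]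
      · rw [if_neg hδ]
  rw [tsum_congr e2, Summable.tsum_finsetSum fun _ _ => ENNReal.summable]
  simp only [ENNReal.tsum_mul_right, hlaw]

omit [IsProbabilityMeasure μ] in
lemma hlaw_zero : hlaw μ e 0 = 0 := by
  classical
  refine ENNReal.tsum_eq_zero.2 fun γ => if_neg fun h => ?_
  have := h.1.one_le_hgt
  omega

/-- The mass of irreducible prefixes of height at most `k`. -/
noncomputable def cumH (μ : Measure (Row d)) (e : Step d) (k : ℕ) : ℝ≥0∞ :=
  ∑ s ∈ Finset.range k, hlaw μ e (s + 1)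

omit [IsProbabilityMeasure μ] in
lemma cumH_succ (k : ℕ) : cumH μ e (k + 1) = cumH μ e k + hlaw μ e (k + 1) :=
  Finset.sum_range_succ _ k

lemma u_le_of_le {a b : ℕ} (h : a ≤ b) : u μ e b ≤ u μ e a :=
  antitone_nat_of_succ_le (f := u μ e) u_anti h

lemma cumH_le_one (hp : p ≠ 0) (hu : ∀ J, p ≤ u μ e J) (k : ℕ) : cumH μ e k ≤ 1 := by
  cases k with
  | zero => simp [cumH]
  | succ k =>
      have h0 : u μ e (k + 1) ≠ 0 := ((pos_iff_ne_zero.2 hp).trans_le (hu _)).ne'
      have htop : u μ e (k + 1) ≠ ∞ := ne_top_of_le_ne_top ENNReal.one_ne_top (u_le_one _)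
      refine (ENNReal.mul_le_mul_iff_left h0 htop).1 ?_
      rw [one_mul, cumH, Finset.sum_mul]
      conv_rhs => rw [u_succ]
      refine Finset.sum_le_sum fun s _ => ?_
      exact mul_le_mul_right (u_le_of_le (by omega)) _

lemma renewal_sum (N : ℕ) :
    ∑ J ∈ Finset.range (N + 1), u μ e J * cumH μ e (N - J)
      = ∑ m ∈ Finset.range N, u μ e (m + 1) := by
  induction N with
  | zero => simp [cumH]
  | succ N ih =>
      have h0 : u μ e (N + 1) * cumH μ e (N + 1 - (N + 1)) = 0 := by simp [cumH]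
      rw [Finset.sum_range_succ, h0, add_zero]
      conv_rhs => rw [Finset.sum_range_succ]
      rw [← ih, u_succ N,
        ← Finset.sum_range_reflect (fun s => hlaw μ e (s + 1) * u μ e (N - s)),
        ← Finset.sum_add_distrib]
      refine Finset.sum_congr rfl fun J hJ => ?_
      have := Finset.mem_range.1 hJ
      simp only [show N + 1 - 1 - J = N - J by omega, show N - (N - J) = J by omega,
        show N + 1 - J = N - J + 1 by omega, cumH_succ, mul_add]
      rw [mul_comm (hlaw μ e (N - J + 1))]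

lemma tail_sum_le (hp : p ≠ 0) (hu : ∀ J, p ≤ u μ e J) (N : ℕ) :
    p * ∑ k ∈ Finset.range N, (1 - cumH μ e k) ≤ 1 := by
  cases N with
  | zero => simp
  | succ N =>
      have h1 : ∑ J ∈ Finset.range (N + 1), u μ e J * (1 - cumH μ e (N - J)) ≤ 1 := by
        have hfin : ∑ m ∈ Finset.range N, u μ e (m + 1) ≠ ∞ :=
          ENNReal.sum_ne_top.2 fun m _ => ne_top_of_le_ne_top ENNReal.one_ne_top (u_le_one _)
        refine (ENNReal.add_le_add_iff_right hfin).1 ?_
        conv_lhs => rw [← renewal_sum, ← Finset.sum_add_distrib]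
        refine le_of_eq ?_
        calc ∑ J ∈ Finset.range (N + 1),
              (u μ e J * (1 - cumH μ e (N - J)) + u μ e J * cumH μ e (N - J))
            = ∑ J ∈ Finset.range (N + 1), u μ e J := Finset.sum_congr rfl fun J _ => by
              rw [← mul_add, tsub_add_cancel_of_le (cumH_le_one hp hu _), mul_one]
          _ = _ := by rw [Finset.sum_range_succ', u_zero, add_comm]
      refine le_trans ?_ h1
      rw [Finset.mul_sum, ← Finset.sum_range_reflect]
      refine Finset.sum_le_sum fun J hJ => ?_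
      have := Finset.mem_range.1 hJ
      rw [show N + 1 - 1 - J = N - J by omega]
      exact mul_le_mul_left (hu J) _

omit [IsProbabilityMeasure μ] in
lemma tsum_hlaw_eq : ∑' s, hlaw μ e s = ∑' s, hlaw μ e (s + 1) := by
  rw [tsum_eq_zero_add' ENNReal.summable, hlaw_zero, zero_add]

lemma tsum_hlaw (hp : p ≠ 0) (hu : ∀ J, p ≤ u μ e J) : ∑' s, hlaw μ e s = 1 := by
  rw [tsum_hlaw_eq]
  have hle : ∑' s, hlaw μ e (s + 1) ≤ 1 := by
    rw [ENNReal.tsum_eq_iSup_nat]
    exact iSup_le fun k => cumH_le_one hp hu k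
  refine le_antisymm hle ?_
  by_contra hlt
  set τ := 1 - ∑' s, hlaw μ e (s + 1)
  have hτ : τ ≠ 0 := fun h => hlt (tsub_eq_zero_iff_le.1 h)
  have hpτ : p * τ ≠ 0 := mul_ne_zero hp hτ
  obtain ⟨n, hn⟩ := ENNReal.exists_nat_mul_gt hpτ ENNReal.one_ne_top
  refine absurd hn (not_lt.2 ((le_of_eq ?_).trans ((mul_le_mul_right
    (Finset.sum_le_sum fun k _ => tsub_le_tsub_left (ENNReal.sum_le_tsum _) _) p).trans
      (tail_sum_le hp hu n))))
  rw [Finset.sum_const, Finset.card_range, nsmul_eq_mul]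
  ring

lemma hlaw_mean (hp : p ≠ 0) (hu : ∀ J, p ≤ u μ e J) : ∑' s : ℕ, (s : ℝ≥0∞) * hlaw μ e s ≤ p⁻¹ := by
  classical
  have e1 : ∀ s : ℕ, (s : ℝ≥0∞) * hlaw μ e s = ∑' k : ℕ, if k < s then hlaw μ e s else 0 := by
    intro s
    rw [tsum_eq_sum (s := Finset.range s) fun k hk => if_neg (by simpa using hk),
      Finset.sum_congr rfl fun k hk => if_pos (Finset.mem_range.1 hk)]
    simp
  have e2 : ∀ k, (∑' s, if k < s then hlaw μ e s else 0) ≤ 1 - cumH μ e k := by
    intro k
    refine ENNReal.le_sub_of_add_le_right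
      (ne_top_of_le_ne_top ENNReal.one_ne_top (cumH_le_one hp hu k)) ?_
    refine le_of_eq_of_le ?_ (tsum_hlaw hp hu).le
    have e3 : cumH μ e k = ∑' s, if k < s then 0 else hlaw μ e s := by
      rw [tsum_eq_sum (s := Finset.range (k + 1)) fun s hs => if_pos (by simpa using hs),
        Finset.sum_range_succ', if_neg (by omega), hlaw_zero, add_zero]
      exact Finset.sum_congr rfl fun s hs => by
        rw [if_neg (by have := Finset.mem_range.1 hs; omega)]
    rw [e3, ← ENNReal.tsum_add]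
    exact tsum_congr fun s => by split_ifs <;> simp
  rw [tsum_congr e1, ENNReal.tsum_comm]
  refine (ENNReal.tsum_le_tsum e2).trans ?_
  rw [ENNReal.tsum_eq_iSup_nat]
  refine iSup_le fun N => ?_
  rw [ENNReal.le_inv_iff_mul_le, mul_comm]
  exact tail_sum_le hp hu N

omit [IsProbabilityMeasure μ] in
lemma tsum_irrLaw_mul (φ : Site d → ℝ≥0∞) :
    ∑' z, irrLaw μ e z * φ z
      = (open Classical in ∑' γ, if Irr e γ then cw μ γ * φ (dsp γ) else 0) := by
  classical
  simp only [irrLaw, ← ENNReal.tsum_mul_right]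
  rw [ENNReal.tsum_comm]
  refine tsum_congr fun γ => ?_
  rw [tsum_eq_single (dsp γ) fun z hz => by simp [Ne.symm hz]]
  by_cases h : Irr e γ <;> simp [h]

omit [IsProbabilityMeasure μ] in
lemma tsum_hlaw_mul (φ : ℕ → ℝ≥0∞) :
    ∑' s, hlaw μ e s * φ s
      = (open Classical in ∑' γ, if Irr e γ then cw μ γ * φ (hgt e γ) else 0) := by
  classical
  simp only [hlaw, ← ENNReal.tsum_mul_right]
  rw [ENNReal.tsum_comm]
  refine tsum_congr fun γ => ?_
  rw [tsum_eq_single (hgt e γ) fun z hz => by simp [Ne.symm hz]]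
  by_cases h : Irr e γ <;> simp [h]

omit [IsProbabilityMeasure μ] in
lemma irr_single : Irr e [e] := by
  have hp : Pre e 1 [e] :=
    ⟨fun v hv => by simp [verts] at hv; simp [hv], by simp [dsp, lev_vec_self]⟩
  refine ⟨by simp, hp.adm, fun η δ h _ _ => ?_⟩
  rcases List.eq_nil_or_concat η with rfl | ⟨L, b, rfl⟩
  · exact Or.inl rfl
  · refine Or.inr ?_
    have := congrArg List.length h
    simp at this
    exact List.length_eq_zero_iff.1 (by omega)

omit [IsProbabilityMeasure μ] in
lemma irr_pair {a : Step d} (ha : a.1 ≠ e.1) : Irr e [a, e] := by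
  have hp : Pre e 1 [a, e] := by
    refine ⟨fun v hv => ?_, by simp [dsp, lev_add, lev_vec_ne e a ha, lev_vec_self]⟩
    simp [verts] at hv
    rcases hv with rfl | rfl <;> simp [lev_vec_ne e a ha]
  refine ⟨by simp, hp.adm, fun η δ h h1 _ => ?_⟩
  match η, h with
  | [], _ => exact Or.inl rfl
  | [b], h =>
      simp at h
      obtain ⟨rfl, rfl⟩ := h
      have h2 : Pre e (hgt e [a]) [a] := h1
      rw [show hgt e [a] = 0 by simp [hgt, dsp, lev_vec_ne e a ha]] at h2
      exact absurd (pre_zero_iff.1 h2) (by simp)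
  | b :: c :: L, h =>
      refine Or.inr ?_
      have := congrArg List.length h
      simp only [List.length_cons, List.length_nil, List.length_append] at this
      exact List.length_eq_zero_iff.1 (by omega)

omit [IsProbabilityMeasure μ] in
lemma irrLaw_ne_zero {γ : List (Step d)} (h : Irr e γ) (hc : cw μ γ ≠ 0) :
    irrLaw μ e (dsp γ) ≠ 0 := by
  classical
  intro h0
  have := ENNReal.tsum_eq_zero.1 h0 γ
  simp [h, hc] at this

open Classical in
/-- The renewal measure restricted to short prefixes. -/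
noncomputable def renewShort (μ : Measure (Row d)) (e : Step d) (M : ℕ) (y : Site d) : ℝ≥0∞ :=
  ∑ γ ∈ Proj.short M, if Adm e γ ∧ dsp γ = y then cw μ γ else 0

lemma renewShort_le (M : ℕ) (y : Site d) :
    renewShort μ e M y ≤ convSum (irrLaw μ e) M y := by
  classical
  induction M generalizing y with
  | zero => simp [renewShort, Proj.short, convSum]
  | succ M ih =>
      have h := tsum_adm_eq (e := e)
        fun γ => if γ ∈ Proj.short (M + 1) ∧ dsp γ = y then cw μ γ else 0
      have e1 : (∑' γ, if Adm e γ then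
          (if γ ∈ Proj.short (M + 1) ∧ dsp γ = y then cw μ γ else 0) else 0)
          = renewShort μ e (M + 1) y := by
        rw [tsum_eq_sum (s := Proj.short (M + 1)) fun γ hγ => by simp [hγ]]
        exact Finset.sum_congr rfl fun γ hγ => by
          by_cases h1 : Adm e γ <;> simp [h1, hγ]
      rw [e1] at h
      rw [h, convSum]
      refine add_le_add ?_ ?_
      · by_cases hy : y = 0
        · simp [hy, Proj.mem_short, cw_nil]
        · simp [hy, Ne.symm hy]
      · rw [tsum_irrLaw_mul fun z => convSum (irrLaw μ e) M (y - z)]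
        refine ENNReal.tsum_le_tsum fun η => ?_
        by_cases hη : Irr e η
        swap
        · simp [hη]
        rw [if_pos hη, if_pos hη]
        refine le_trans ?_ (mul_le_mul_right (ih (y - dsp η)) _)
        rw [renewShort, Finset.mul_sum]
        refine le_of_eq_of_le (tsum_eq_sum (s := Proj.short M) fun δ hδ => ?_)
          (Finset.sum_le_sum fun δ _ => ?_)
        · have : η ++ δ ∉ Proj.short (M + 1) := by
            rw [Proj.mem_short] at hδ ⊢
            have := List.length_pos_iff.2 hη.1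
            simp; omega
          simp [this]
        · by_cases hδ : Adm e δ
          swap
          · simp [hδ]
          by_cases hd : dsp (η ++ δ) = y
          · have : dsp δ = y - dsp η := by rw [← hd, Proj.dsp_append]; abel
            simp only [hδ, if_true, this, and_self, cw_append hη.2.1 hδ]
            split_ifs <;> simp
          · simp [hδ, hd]

lemma renew_l2 (hd : 4 ≤ d) (hell : ∀ᵐ q ∂μ, ∀ a : Step d, 0 < q.1 a) (hp : p ≠ 0)
    (hu : ∀ J, p ≤ u μ e J) : ∑' y, renew μ e y ^ 2 ≠ ∞ := by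
  classical
  have w0 : ∑' z, irrLaw μ e z ≤ 1 := by
    have h1 := tsum_irrLaw_mul (μ := μ) (e := e) fun _ => 1
    have h2 := tsum_hlaw_mul (μ := μ) (e := e) fun _ => 1
    simp only [mul_one] at h1 h2
    rw [h1, ← h2, tsum_hlaw hp hu]
  have w1 : ∀ z, irrLaw μ e z ≠ 0 → 1 ≤ lev e z := by
    intro z hz
    obtain ⟨γ, hγ⟩ := ENNReal.tsum_eq_zero.not.1 hz |> not_forall.1
    by_cases hc : Irr e γ ∧ dsp γ = z
    · have := hc.1.one_le_hgt
      rw [← hc.2]
      simp only [hgt] at this
      omega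
    · exact absurd (if_neg hc) hγ
  have w2 : ∑' z, irrLaw μ e z * ((lev e z).toNat : ℝ≥0∞) ≠ ∞ := by
    rw [tsum_irrLaw_mul fun z => ((lev e z).toNat : ℝ≥0∞)]
    have h2 := tsum_hlaw_mul (μ := μ) (e := e) fun s => (s : ℝ≥0∞)
    simp only [hgt] at h2
    rw [← h2, tsum_congr fun s => mul_comm _ _]
    exact ne_top_of_le_ne_top (ENNReal.inv_ne_top.2 hp) (hlaw_mean hp hu)
  have w3 : irrLaw μ e (vec e) ≠ 0 := by
    simpa [dsp] using irrLaw_ne_zero (μ := μ) (irr_single (e := e)) (cw_ne_zero hell _)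
  have w4 : ∀ a : Step d, a.1 ≠ e.1 → irrLaw μ e (vec a + vec e) ≠ 0 := by
    intro a ha
    simpa [dsp] using irrLaw_ne_zero (μ := μ) (irr_pair ha) (cw_ne_zero hell _)
  obtain ⟨B, hB, hle⟩ := exists_l2_bound hd e (irrLaw μ e) w0 w1 w2 w3 w4
  refine ne_top_of_le_ne_top hB ?_
  have hmono : ∀ y, Monotone fun M => renewShort μ e M y := fun y M M' h =>
    Finset.sum_le_sum_of_subset (fun γ hγ => Proj.mem_short.2 ((Proj.mem_short.1 hγ).trans_le h))
  have hsup : ∀ y, renew μ e y = ⨆ M, renewShort μ e M y := fun y => Proj.tsum_eq_iSup_short _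
  rw [ENNReal.tsum_eq_iSup_sum]
  refine iSup_le fun F => ?_
  have ht : Tendsto (fun M => ∑ y ∈ F, renewShort μ e M y ^ 2) atTop
      (𝓝 (∑ y ∈ F, renew μ e y ^ 2)) := tendsto_finsetSum _ fun y _ => by
    rw [hsup]
    exact ((ENNReal.continuous_pow 2).tendsto _).comp (tendsto_atTop_iSup (hmono y))
  exact le_of_tendsto' ht fun M => (Finset.sum_le_sum fun y _ =>
    pow_le_pow_left₀ zero_le (renewShort_le M y) 2).trans ((ENNReal.sum_le_tsum _).trans (hle M))

omit [IsProbabilityMeasure μ] in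
lemma exists_piece {x : Site d} :
    ∀ γ : List (Step d), Adm e γ → x ∈ verts 0 γ → ∃ A I B, γ = A ++ (I ++ B) ∧ Adm e A ∧
      Irr e I ∧ Adm e B ∧ x - dsp A ∈ verts 0 I := by
  intro γ
  induction hl : γ.length using Nat.strong_induction_on generalizing γ x with
  | _ k ih =>
      intro h hx
      subst hl
      have hne : γ ≠ [] := by rintro rfl; simp [verts] at hx
      obtain ⟨η, δ, rfl, hη, hδ⟩ := h.exists_head hne
      rcases mem_verts_append.1 hx with hx | hx
      · exact ⟨[], η, δ, rfl, adm_nil, hη, hδ, by simpa using hx⟩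
      · obtain ⟨A, I, B, hAB, h1, h2, h3, h4⟩ := ih δ.length (by
          have := List.length_pos_iff.2 hη.1
          simp; omega) δ rfl hδ hx
        exact ⟨η ++ A, I, B, by rw [hAB]; simp, (hη.2.1.append h1).1, h2, h3,
          by rw [Proj.dsp_append, ← sub_sub]; exact h4⟩

open Classical in
lemma tsum_visit_le (N : ℕ) (x : Site d) :
    ∑' γ, (if Pre e N γ ∧ x ∈ verts 0 γ then cw μ γ else 0) ≤ visit μ e x := by
  have hstep : ∀ A, (∑' δ, if ∃ I B, δ = I ++ B ∧ Irr e I ∧ Adm e B ∧ x - dsp A ∈ verts 0 I ∧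
      hgt e A + hgt e δ = N then cw μ δ else 0) ≤ irrVisit μ e (x - dsp A) := by
    intro A
    refine (Proj.tsum_le_split _ (fun z => (if Irr e z.1 ∧ x - dsp A ∈ verts 0 z.1 then
      cw μ z.1 else 0) * (if Pre e (N - hgt e A - hgt e z.1) z.2 then cw μ z.2 else 0))
      fun δ hδ => ?_).trans ?_
    · by_cases hc : ∃ I B, δ = I ++ B ∧ Irr e I ∧ Adm e B ∧ x - dsp A ∈ verts 0 I ∧
          hgt e A + hgt e δ = N
      swap
      · exact absurd (if_neg hc) hδ
      obtain ⟨I, B, rfl, hI, hB, hxI, hN⟩ := hc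
      rw [(hI.2.1.append hB).2] at hN
      refine ⟨I, B, rfl, ?_⟩
      simp only [if_pos (show Irr e I ∧ x - dsp A ∈ verts 0 I from ⟨hI, hxI⟩),
        if_pos (show Pre e (N - hgt e A - hgt e I) B from pre_iff_adm.2 ⟨hB, by omega⟩),
        cw_append hI.2.1 hB]
      exact le_of_eq_of_le (if_pos ⟨I, B, rfl, hI, hB, hxI,
        by rw [(hI.2.1.append hB).2]; exact hN⟩) le_rfl
    · rw [ENNReal.tsum_prod']
      simp only [ENNReal.tsum_mul_left]
      exact ENNReal.tsum_le_tsum fun I => mul_le_of_le_one_right' (u_le_one _)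
  refine (Proj.tsum_le_split _ (fun z => (if Adm e z.1 then cw μ z.1 else 0) *
    (if ∃ I B, z.2 = I ++ B ∧ Irr e I ∧ Adm e B ∧ x - dsp z.1 ∈ verts 0 I ∧
      hgt e z.1 + hgt e z.2 = N then cw μ z.2 else 0)) fun γ hγ => ?_).trans ?_
  · by_cases hc : Pre e N γ ∧ x ∈ verts 0 γ
    swap
    · exact absurd (if_neg hc) hγ
    obtain ⟨A, I, B, rfl, hA, hI, hB, hx⟩ := exists_piece γ hc.1.adm hc.2
    refine ⟨A, I ++ B, rfl, ?_⟩
    have hIB := hI.2.1.append hB
    simp only [if_pos hc, if_pos hA, cw_append hA hIB.1]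
    rw [if_pos ⟨I, B, rfl, hI, hB, hx, by rw [← (hA.append hIB.1).2, hc.1.hgt_eq]⟩]
  · rw [ENNReal.tsum_prod']
    simp only [ENNReal.tsum_mul_left]
    refine (ENNReal.tsum_le_tsum fun A => mul_le_mul_right (hstep A) _).trans_eq ?_
    simp only [visit, renew, ← ENNReal.tsum_mul_right]
    rw [ENNReal.tsum_comm (f := fun (y : Site d) (γ : List (Step d)) =>
      (if Adm e γ ∧ dsp γ = y then cw μ γ else 0) * irrVisit μ e (x - y))]
    refine tsum_congr fun A => ?_
    rw [tsum_eq_single (dsp A) fun y hy => by simp [Ne.symm hy]]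
    by_cases h : Adm e A <;> simp [h]

open Classical in
lemma tsum_level_visit_le (r : ℤ) : ∑' x, (if lev e x = r then visit μ e x else 0) ≤ nu μ e := by
  set φ : ℤ → ℝ≥0∞ := fun m => ∑' z, if lev e z = m then irrVisit μ e z else 0
  have hφ : ∑' m, φ m = nu μ e := by
    simp only [φ, nu]
    rw [ENNReal.tsum_comm]
    refine tsum_congr fun z => ?_
    rw [tsum_eq_single (lev e z) fun m hm => if_neg (Ne.symm hm), if_pos rfl]
  have e1 : ∑' x, (if lev e x = r then visit μ e x else 0)
      = ∑' y, renew μ e y * φ (r - lev e y) := by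
    simp only [visit, φ, ← ENNReal.tsum_mul_left]
    rw [ENNReal.tsum_comm (f := fun (y z : Site d) =>
      renew μ e y * if lev e z = r - lev e y then irrVisit μ e z else 0)]
    have : ∀ x, (if lev e x = r then ∑' y, renew μ e y * irrVisit μ e (x - y) else 0)
        = ∑' y, renew μ e y * if lev e (x - y) = r - lev e y then irrVisit μ e (x - y) else 0 := by
      intro x
      by_cases h : lev e x = r <;> simp [lev_sub, h, sub_left_inj]
    rw [tsum_congr this, ENNReal.tsum_comm]
    conv_rhs => rw [ENNReal.tsum_comm]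
    refine tsum_congr fun y => ?_
    exact (Equiv.subRight y).tsum_eq
      (fun z => renew μ e y * if lev e z = r - lev e y then irrVisit μ e z else 0)
  rw [e1]
  have e2 : ∀ y, renew μ e y * φ (r - lev e y)
      = ∑' t : ℕ, (∑' γ, if Pre e t γ ∧ dsp γ = y then cw μ γ else 0) * φ (r - t) := by
    intro y
    simp only [renew, ← ENNReal.tsum_mul_right]
    rw [ENNReal.tsum_comm]
    refine tsum_congr fun γ => ?_
    rw [tsum_eq_single (hgt e γ) fun t ht => by
      rw [if_neg fun h => ht h.1.hgt_eq.symm, zero_mul]]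
    by_cases h : Adm e γ ∧ dsp γ = y
    · have hl : (hgt e γ : ℤ) = lev e y := by rw [← h.1.2, h.2]
      rw [if_pos h, if_pos ⟨h.1, h.2⟩, hl]
    · rw [if_neg h, if_neg fun h' => h ⟨h'.1.adm, h'.2⟩, zero_mul, zero_mul]
  rw [tsum_congr e2, ENNReal.tsum_comm]
  simp only [ENNReal.tsum_mul_right]
  calc ∑' t : ℕ, (∑' y, ∑' γ, if Pre e t γ ∧ dsp γ = y then cw μ γ else 0) * φ (r - t)
      ≤ ∑' t : ℕ, φ (r - t) := ENNReal.tsum_le_tsum fun t => by
        refine mul_le_of_le_one_left' ((le_of_eq ?_).trans (u_le_one (μ := μ) (e := e) t))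
        rw [ENNReal.tsum_comm, u]
        refine tsum_congr fun γ => ?_
        rw [tsum_eq_single (dsp γ) fun y hy => if_neg fun h => hy h.2.symm]
        simp
    _ ≤ ∑' m, φ m := ENNReal.tsum_comp_le_tsum_of_injective
        (f := fun t : ℕ => r - t) (fun a b h => by simpa using h) φ
    _ = nu μ e := hφ

omit [IsProbabilityMeasure μ] in
lemma mul_le_sq_add_sq (a b : ℝ≥0∞) : a * b ≤ a ^ 2 + b ^ 2 := by
  rcases le_total a b with h | h
  · exact (mul_le_mul_left h b).trans (le_add_left (sq b).ge)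
  · exact (mul_le_mul_right h a).trans (le_add_right (sq a).ge)

omit [IsProbabilityMeasure μ] in
lemma visit_l2 (hU : ∑' y, renew μ e y ^ 2 ≠ ∞) (hν : nu μ e ≠ ∞) :
    ∑' x, visit μ e x ^ 2 ≠ ∞ := by
  set V := irrVisit μ e
  set U := renew μ e
  refine ne_top_of_le_ne_top (ENNReal.add_ne_top.2 ⟨ENNReal.mul_ne_top
    (ENNReal.mul_ne_top hν hν) hU, ENNReal.mul_ne_top (ENNReal.mul_ne_top hν hν) hU⟩)
    (b := nu μ e * nu μ e * ∑' y, U y ^ 2 + nu μ e * nu μ e * ∑' y, U y ^ 2) ?_
  have hv : ∀ x, visit μ e x = ∑' z, V z * U (x - z) := by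
    intro x
    rw [visit, ← (Equiv.subLeft x).tsum_eq (fun z => V z * U (x - z))]
    exact tsum_congr fun y => by simp [mul_comm, U, V]
  calc ∑' x, visit μ e x ^ 2
      ≤ ∑' x, ∑' z, ∑' z', (V z * V z' * U (x - z) ^ 2 + V z * V z' * U (x - z') ^ 2) := by
        refine ENNReal.tsum_le_tsum fun x => ?_
        rw [hv, sq, ← ENNReal.tsum_mul_right]
        refine ENNReal.tsum_le_tsum fun z => ?_
        rw [← ENNReal.tsum_mul_left]
        refine ENNReal.tsum_le_tsum fun z' => ?_
        rw [← mul_add, mul_mul_mul_comm]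
        exact mul_le_mul_right (mul_le_sq_add_sq _ _) _
    _ = _ := by
        have hs : ∀ z, ∑' x, U (x - z) ^ 2 = ∑' y, U y ^ 2 :=
          fun z => (Equiv.subRight z).tsum_eq fun y => U y ^ 2
        rw [ENNReal.tsum_comm]
        simp only [ENNReal.tsum_add, fun z => ENNReal.tsum_comm (f := fun (x z' : Site d) => V z * V z' * U (x - z') ^ 2),
          ENNReal.tsum_mul_left, hs, ENNReal.tsum_mul_right]
        rfl

omit [IsProbabilityMeasure μ] in
lemma nu_le_meanLen : nu μ e ≤ meanLen μ e := by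
  classical
  simp only [nu, irrVisit, meanLen]
  rw [ENNReal.tsum_comm]
  refine ENNReal.tsum_le_tsum fun γ => ?_
  by_cases h : Irr e γ
  · rw [tsum_eq_sum (s := (verts 0 γ).toFinset) fun x hx => if_neg fun h' => hx
      (List.mem_toFinset.2 h'.2), Finset.sum_congr rfl fun x hx =>
      if_pos ⟨h, List.mem_toFinset.1 hx⟩, Finset.sum_const, nsmul_eq_mul, if_pos h, mul_comm]
    refine mul_le_mul_right ?_ _
    exact_mod_cast (List.toFinset_card_le _).trans (Proj.verts_length 0 γ).le
  · simp [h]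

end Vale.Agent.P147.Bal
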