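import Vale.Agent.P147.Bal.Renewal

/-!
# A positive upper speed forces a finite mean length of irreducible prefixes

A path up to level `M = q m` of length at most `K M` has either at most `m` irreducible pieces,
which costs a truncated second moment bound for the height, or its Laplace transform in the length
is geometrically small in `m`.
-/

open MeasureTheory Set Filter Topology
open scoped ENNReal

namespace Vale.Agent.P147.Bal

variable {d : ℕ} {e : Step d} {μ : Measure (Row d)} [IsProbabilityMeasure μ] {p : ℝ≥0∞}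

/-! ## Few pieces: a renewal sequence of real numbers -/

/-- The mass of reaching `M` exactly in at most `m` steps of law `f`. -/
noncomputable def reachIn (f : ℕ → ℝ) : ℕ → ℕ → ℝ
  | 0, M => if M = 0 then 1 else 0
  | m + 1, M => if M = 0 then 1 else ∑ s ∈ Finset.range (M + 1), f s * reachIn f m (M - s)

section Seq

variable {f : ℕ → ℝ} (hf0 : ∀ s, 0 ≤ f s) (hf : HasSum f 1)

include hf0 hf in
lemma reachIn_bounds : ∀ m M, 0 ≤ reachIn f m M ∧ reachIn f m M ≤ 1 := by
  intro m
  induction m with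
  | zero => intro M; rw [reachIn]; split_ifs <;> simp
  | succ m ih =>
    intro M
    rw [reachIn]
    split_ifs
    · simp
    · refine ⟨Finset.sum_nonneg fun s _ => mul_nonneg (hf0 s) (ih _).1, ?_⟩
      calc ∑ s ∈ Finset.range (M + 1), f s * reachIn f m (M - s)
          ≤ ∑ s ∈ Finset.range (M + 1), f s :=
            Finset.sum_le_sum fun s _ => mul_le_of_le_one_right (hf0 s) (ih _).2
        _ ≤ 1 := sum_le_hasSum _ (fun s _ => hf0 s) hf

include hf0 hf in
/-- The second moment bound after truncating the steps at `L`. -/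
lemma reachIn_le (L : ℕ) {a v T D : ℝ} (ha : HasSum (fun s => f s * (min s L : ℕ)) a)
    (hv : HasSum (fun s => f s * ((min s L : ℕ) : ℝ) ^ 2) v)
    (hT : HasSum (fun s => f s * (if L < s then 1 else 0)) T) (hD : 0 < D) :
    ∀ (m y : ℕ) (c : ℝ), D ≤ y + c →
      reachIn f m y ≤ m * T + (m * v + (c + m * a) ^ 2) / D ^ 2 := by
  have ha0 : 0 ≤ a := ha.nonneg fun s => mul_nonneg (hf0 s) (Nat.cast_nonneg _)
  have hv0 : 0 ≤ v := hv.nonneg fun s => mul_nonneg (hf0 s) (sq_nonneg _)
  have hT0 : 0 ≤ T := hT.nonneg fun s => mul_nonneg (hf0 s) (by positivity)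
  have hzero : ∀ (m : ℕ) (c : ℝ), D ≤ c → 1 ≤ (m * T + (m * v + (c + m * a) ^ 2) / D ^ 2) := by
    intro m c hc
    have h1 : D ^ 2 ≤ (c + m * a) ^ 2 :=
      pow_le_pow_left₀ hD.le (hc.trans (le_add_of_nonneg_right (by positivity))) 2
    have h2 : 1 ≤ (m * v + (c + m * a) ^ 2) / D ^ 2 := by
      rw [le_div_iff₀ (by positivity), one_mul]
      nlinarith [mul_nonneg (Nat.cast_nonneg (α := ℝ) m) hv0]
    nlinarith [mul_nonneg (Nat.cast_nonneg (α := ℝ) m) hT0]
  intro m
  induction m with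
  | zero =>
    intro y c hc
    rw [reachIn]
    split_ifs with hy
    · subst hy
      exact hzero 0 c (by simpa using hc)
    · simp only [Nat.cast_zero, zero_mul, zero_add, add_zero]
      positivity
  | succ m ih =>
    intro y c hc
    rw [reachIn]
    split_ifs with hy
    · subst hy
      exact hzero (m + 1) c (by simpa using hc)
    · set g : ℕ → ℝ := fun s => f s * ((if L < s then 1 else 0) + (m * T +
        (m * v + (c + (min s L : ℕ) + m * a) ^ 2) / D ^ 2)) with hg
      have hg0 : ∀ s, 0 ≤ g s := fun s => mul_nonneg (hf0 s) (by positivity)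
      have hsum : HasSum g
          (T + (m * T + (m * v + (c + m * a) ^ 2) / D ^ 2) + 2 * (c + m * a) / D ^ 2 * a +
            v / D ^ 2) := by
        have h := ((hT.add (hf.mul_right (m * T + (m * v + (c + m * a) ^ 2) / D ^ 2))).add
          (ha.mul_left (2 * (c + m * a) / D ^ 2))).add (hv.div_const (D ^ 2))
        rw [one_mul] at h
        refine h.congr_fun fun s => ?_
        simp only [hg]
        field_simp
        ring
      have hle : ∑ s ∈ Finset.range (y + 1), f s * reachIn f m (y - s) ≤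
          ∑ s ∈ Finset.range (y + 1), g s := by
        refine Finset.sum_le_sum fun s hs => mul_le_mul_of_nonneg_left ?_ (hf0 s)
        rw [Finset.mem_range, Nat.lt_succ_iff] at hs
        by_cases hLs : L < s
        · rw [if_pos hLs]
          have h1 := (reachIn_bounds hf0 hf m (y - s)).2
          have h2 : 0 ≤ m * T + (m * v + (c + (min s L : ℕ) + m * a) ^ 2) / D ^ 2 := by positivity
          linarith
        · rw [if_neg hLs, zero_add, min_eq_left (by omega : s ≤ L)]
          refine ih (y - s) (c + s) ?_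
          push_cast [Nat.cast_sub hs]
          linarith
      refine hle.trans ((sum_le_hasSum _ (fun s _ => hg0 s) hsum).trans ?_)
      have hd2 : 0 ≤ a ^ 2 / D ^ 2 := by positivity
      have e1 : T + (m * T + (m * v + (c + m * a) ^ 2) / D ^ 2) + 2 * (c + m * a) / D ^ 2 * a +
          v / D ^ 2 = (m + 1 : ℕ) * T +
            (((m + 1 : ℕ) : ℝ) * v + (c + (m + 1 : ℕ) * a) ^ 2) / D ^ 2 - a ^ 2 / D ^ 2 := by
        push_cast
        field_simp
        ring
      linarith

include hf0 hf in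
/-- The bound at `M = q m` for `q` above twice the mean. -/
lemma reachIn_mul_le {A : ℝ} (hA : ∀ L : ℕ, ∑' s, f s * (min s L : ℕ) ≤ A) {q : ℕ} (hq : 0 < q)
    (hqA : 2 * A ≤ q) {m : ℕ} (hm : 0 < m) :
    reachIn f m (q * m) ≤ ∑' s, f s * ((if q * m < s then ((q * m : ℕ) : ℝ) else 0) +
      4 * ((min s (q * m) : ℕ) : ℝ) ^ 2 / (q * m : ℕ)) := by
  set L := q * m with hLdef
  have hL : 0 < L := Nat.mul_pos hq hm
  have hbd : ∀ (g : ℕ → ℝ) (C : ℝ), (∀ s, 0 ≤ g s) → (∀ s, g s ≤ C) →
      Summable fun s => f s * g s := fun g C h0 h1 =>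
    Summable.of_nonneg_of_le (fun s => mul_nonneg (hf0 s) (h0 s))
      (fun s => mul_le_mul_of_nonneg_left (h1 s) (hf0 s)) (hf.summable.mul_right C)
  have hmin : ∀ s, ((min s L : ℕ) : ℝ) ≤ L := fun s => by exact_mod_cast min_le_right s L
  have s1 := hbd (fun s => ((min s L : ℕ) : ℝ)) L (fun s => Nat.cast_nonneg _) hmin
  have s2 := hbd (fun s => ((min s L : ℕ) : ℝ) ^ 2) ((L : ℝ) ^ 2) (fun s => sq_nonneg _)
    fun s => pow_le_pow_left₀ (Nat.cast_nonneg _) (hmin s) 2
  have s3 := hbd (fun s => if L < s then 1 else 0) 1 (fun s => by positivity)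
    fun s => by split_ifs <;> simp
  set a := ∑' s, f s * (min s L : ℕ)
  set v := ∑' s, f s * ((min s L : ℕ) : ℝ) ^ 2
  set T := ∑' s, f s * (if L < s then 1 else 0)
  have haA : a ≤ A := hA L
  have hv0 : 0 ≤ v := tsum_nonneg fun s => mul_nonneg (hf0 s) (sq_nonneg _)
  have hT0 : 0 ≤ T := tsum_nonneg fun s => mul_nonneg (hf0 s) (by positivity)
  have hm1 : (0 : ℝ) < m := by exact_mod_cast hm
  have hLr : (L : ℝ) = q * m := by rw [hLdef, Nat.cast_mul]
  have hL0 : (0 : ℝ) < L := by exact_mod_cast hL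
  have hD : (L : ℝ) / 2 ≤ L + -(m * a) := by nlinarith
  have h := reachIn_le hf0 hf L s1.hasSum s2.hasSum s3.hasSum (by positivity : (0 : ℝ) < L / 2)
    m L (-(m * a)) hD
  refine h.trans ?_
  have hmL : (m : ℝ) ≤ L := by
    have hq1 : (1 : ℝ) ≤ q := by exact_mod_cast hq
    nlinarith
  have hR : HasSum (fun s => f s * ((if L < s then (L : ℝ) else 0) +
      4 * ((min s L : ℕ) : ℝ) ^ 2 / (L : ℝ))) (L * T + 4 / L * v) := by
    refine ((s3.hasSum.mul_left (L : ℝ)).add (s2.hasSum.mul_left (4 / (L : ℝ)))).congr_fun fun s => ?_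
    split_ifs <;> field_simp <;> ring
  rw [hR.tsum_eq]
  have h1 : (m : ℝ) * T ≤ L * T := mul_le_mul_of_nonneg_right hmL hT0
  have h2 : (m * v + (-(m * a) + m * a) ^ 2) / ((L : ℝ) / 2) ^ 2 ≤ 4 / L * v := by
    rw [neg_add_cancel, div_le_iff₀ (by positivity)]
    have h3 : 4 / (L : ℝ) * v * ((L : ℝ) / 2) ^ 2 = v * L := by field_simp; ring
    nlinarith [mul_le_mul_of_nonneg_left hmL hv0]
  linarith

end Seq

/-- Dyadic sums of the truncated tails are linear. -/
lemma sum_dyadic_le (s N : ℕ) :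
    ∑ k ∈ Finset.range N, ((if 2 ^ k < s then ((2 ^ k : ℕ) : ℝ) else 0) +
      4 * ((min s (2 ^ k) : ℕ) : ℝ) ^ 2 / (2 ^ k : ℕ)) ≤ (20 : ℝ) * s := by
  suffices h : ∑ k ∈ Finset.range N, ((if 2 ^ k < s then ((2 ^ k : ℕ) : ℝ) else 0) +
      4 * ((min s (2 ^ k) : ℕ) : ℝ) ^ 2 / (2 ^ k : ℕ)) ≤
      if 2 ^ N ≤ s then 5 * (2 : ℝ) ^ N else 20 * s - 8 * (s : ℝ) ^ 2 / 2 ^ N by
    refine h.trans ?_
    split_ifs with hN
    · have : (2 : ℝ) ^ N ≤ s := by exact_mod_cast hN
      linarith
    · have : 0 ≤ 8 * (s : ℝ) ^ 2 / 2 ^ N := by positivity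
      linarith
  induction N with
  | zero =>
    simp only [Finset.range_zero, Finset.sum_empty, pow_zero]
    split_ifs with hs
    · norm_num
    · rw [Nat.lt_one_iff.1 (not_le.1 hs)]
      norm_num
  | succ N ih =>
    rw [Finset.sum_range_succ]
    have hP : (0 : ℝ) < 2 ^ N := by positivity
    have hc : ((2 ^ N : ℕ) : ℝ) = 2 ^ N := by norm_num
    have h2 : (2 : ℕ) ^ (N + 1) = 2 * 2 ^ N := by ring
    have h2r : (2 : ℝ) ^ (N + 1) = 2 * 2 ^ N := by ring
    rw [hc, h2, h2r]
    rcases Nat.lt_or_ge (2 ^ N) s with hlt | hge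
    · rw [if_pos hlt.le] at ih
      rw [if_pos hlt, min_eq_right hlt.le, hc]
      have e1 : 4 * ((2 : ℝ) ^ N) ^ 2 / 2 ^ N = 4 * 2 ^ N := by field_simp
      rw [e1]
      have hlt' : (2 : ℝ) ^ N < s := by exact_mod_cast hlt
      split_ifs with hN1
      · linarith
      · have hN1' : (s : ℝ) < 2 * 2 ^ N := by exact_mod_cast not_le.1 hN1
        have e2 : 8 * (s : ℝ) ^ 2 / (2 * 2 ^ N) ≤ 8 * s := by
          rw [div_le_iff₀ (by positivity)]
          nlinarith
        linarith
    · rw [if_neg (not_lt.2 hge), min_eq_left hge, zero_add]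
      have hge' : (s : ℝ) ≤ 2 ^ N := by exact_mod_cast hge
      have hpos : 0 < 2 ^ N := Nat.two_pow_pos N
      rw [if_neg (by omega : ¬2 * 2 ^ N ≤ s)]
      have e3 : 8 * (s : ℝ) ^ 2 / (2 * 2 ^ N) = 4 * ((s : ℝ) ^ 2 / 2 ^ N) := by field_simp; ring
      rw [e3, mul_div_assoc]
      split_ifs at ih with hs
      · have : (s : ℝ) = 2 ^ N := by
          have : s = 2 ^ N := le_antisymm hge hs
          exact_mod_cast this
        rw [this, sq, mul_self_div_self]
        linarith
      · rw [mul_div_assoc] at ih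
        linarith

/-! ## Splitting by the first piece -/

open Classical in
/-- The mass of the prefixes up to `M` of length at most `L`. -/
noncomputable def fastMass (μ : Measure (Row d)) (e : Step d) (M L : ℕ) : ℝ≥0∞ :=
  ∑' γ, if Pre e M γ ∧ γ.length ≤ L then cw μ γ else 0

open Classical in
/-- The transform in the length of the law of an irreducible prefix. -/
noncomputable def lenGen (μ : Measure (Row d)) (e : Step d) (x : ℝ≥0∞) : ℝ≥0∞ :=
  ∑' γ, if Irr e γ then cw μ γ * x ^ γ.length else 0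

lemma fastMass_le_one (M L : ℕ) : fastMass μ e M L ≤ 1 := by
  classical
  refine le_trans ?_ (u_le_one (μ := μ) (e := e) M)
  exact ENNReal.tsum_le_tsum fun γ => by split_ifs <;> simp_all

open Classical in
lemma fastMass_le_succ (M L : ℕ) : fastMass μ e M L ≤ (if M = 0 then 1 else 0) +
    ∑' η, if Irr e η ∧ hgt e η ≤ M ∧ η.length ≤ L then
      cw μ η * fastMass μ e (M - hgt e η) (L - η.length) else 0 := by
  set F : List (Step d) → ℝ≥0∞ := fun γ => if Pre e M γ ∧ γ.length ≤ L then cw μ γ else 0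
  have h1 : fastMass μ e M L = ∑' γ, if Adm e γ then F γ else 0 :=
    tsum_congr fun γ => by
      by_cases hA : Adm e γ
      · simp [hA, F]
      · have : ¬Pre e M γ := fun hP => hA hP.adm
        simp [hA, this]
  rw [h1, tsum_adm_eq F]
  refine add_le_add ?_ (ENNReal.tsum_le_tsum fun η => ?_)
  · by_cases hM : M = 0
    · rw [if_pos hM]
      by_cases hc : Pre e M ([] : List (Step d)) ∧ ([] : List (Step d)).length ≤ L
      · simp only [F, if_pos hc, cw_nil, le_refl]
      · simp only [F, if_neg hc, zero_le]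
    · have : ¬Pre e M ([] : List (Step d)) := fun hP => hM (by
        rw [← hP.hgt_eq, (pre_nil (e := e)).hgt_eq])
      simp [F, this]
  · by_cases hI : Irr e η
    · rw [if_pos hI]
      have hterm : ∀ δ, (if Adm e δ then F (η ++ δ) else 0) ≤
          if hgt e η ≤ M ∧ η.length ≤ L then cw μ η *
            (if Pre e (M - hgt e η) δ ∧ δ.length ≤ L - η.length then cw μ δ else 0) else 0 := by
        intro δ
        by_cases hc : Adm e δ ∧ Pre e M (η ++ δ) ∧ (η ++ δ).length ≤ L
        · obtain ⟨hA, hP, hl⟩ := hc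
          have hh : hgt e η + hgt e δ = M := by rw [← (Adm.append hI.2.1 hA).2, hP.hgt_eq]
          rw [List.length_append] at hl
          have hP' : Pre e (M - hgt e η) δ := by
            rw [show M - hgt e η = hgt e δ by omega]
            exact hA
          simp only [F, if_pos hA]
          rw [if_pos ⟨hP, by rw [List.length_append]; exact hl⟩,
            if_pos ⟨(by omega : hgt e η ≤ M), (by omega : η.length ≤ L)⟩,
            if_pos ⟨hP', (by omega : δ.length ≤ L - η.length)⟩, cw_append hI.2.1 hA]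
        · refine le_of_eq_of_le ?_ zero_le
          simp only [F]
          split_ifs with hA hP <;> first | rfl | exact absurd ⟨hA, hP⟩ hc
      refine (ENNReal.tsum_le_tsum hterm).trans (le_of_eq ?_)
      by_cases hc : hgt e η ≤ M ∧ η.length ≤ L
      · simp only [if_pos hc, if_pos (And.intro hI hc), ENNReal.tsum_mul_left]
        rfl
      · simp only [if_neg hc, tsum_zero]
        rw [if_neg fun h => hc h.2]
    · simp [hI]

/-- Few pieces or a small transform. -/
lemma pow_mul_fastMass_le (hf : HasSum (fun s => (hlaw μ e s).toReal) 1)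
    (hfin : ∀ s, hlaw μ e s ≠ ∞) (x : ℝ≥0∞) (hx : x ≤ 1) :
    ∀ m M L : ℕ, x ^ L * fastMass μ e M L ≤
      x ^ L * ENNReal.ofReal (reachIn (fun s => (hlaw μ e s).toReal) m M) + lenGen μ e x ^ m := by
  classical
  set f : ℕ → ℝ := fun s => (hlaw μ e s).toReal
  have hf0 : ∀ s, 0 ≤ f s := fun s => ENNReal.toReal_nonneg
  intro m
  induction m with
  | zero =>
    intro M L
    rw [pow_zero]
    exact le_add_left (mul_le_one₀ (pow_le_one₀ zero_le hx) zero_le
      (fastMass_le_one M L))
  | succ m ih =>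
    intro M L
    by_cases hM : M = 0
    · rw [reachIn, if_pos hM, ENNReal.ofReal_one]
      exact le_add_right (mul_le_mul_right (fastMass_le_one M L) _)
    refine (mul_le_mul_right (fastMass_le_succ M L) _).trans ?_
    rw [if_neg hM, zero_add, ← ENNReal.tsum_mul_left]
    have hterm : ∀ η, x ^ L * (if Irr e η ∧ hgt e η ≤ M ∧ η.length ≤ L then
          cw μ η * fastMass μ e (M - hgt e η) (L - η.length) else 0) ≤
        x ^ L * (∑ s ∈ Finset.range (M + 1),
          (if Irr e η ∧ hgt e η = s then cw μ η else 0) * ENNReal.ofReal (reachIn f m (M - s))) +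
        (if Irr e η then cw μ η * x ^ η.length else 0) * lenGen μ e x ^ m := by
      intro η
      by_cases hc : Irr e η ∧ hgt e η ≤ M ∧ η.length ≤ L
      · rw [if_pos hc, if_pos hc.1, Finset.sum_eq_single (hgt e η)
          (fun s _ hs => by rw [if_neg fun h => hs h.2.symm, zero_mul])
          (fun h => absurd (Finset.mem_range.2 (Nat.lt_succ_iff.2 hc.2.1)) h),
          if_pos ⟨hc.1, rfl⟩]
        have hL : x ^ L = x ^ η.length * x ^ (L - η.length) := by
          rw [← pow_add, Nat.add_sub_cancel' hc.2.2]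
        calc x ^ L * (cw μ η * fastMass μ e (M - hgt e η) (L - η.length))
            = (cw μ η * x ^ η.length) *
              (x ^ (L - η.length) * fastMass μ e (M - hgt e η) (L - η.length)) := by rw [hL]; ring
          _ ≤ (cw μ η * x ^ η.length) * (x ^ (L - η.length) *
              ENNReal.ofReal (reachIn f m (M - hgt e η)) + lenGen μ e x ^ m) :=
                mul_le_mul_right (ih _ _) _
          _ = _ := by rw [hL]; ring
      · rw [if_neg hc, mul_zero]
        exact zero_le
    refine (ENNReal.tsum_le_tsum hterm).trans (le_of_eq ?_)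
    rw [ENNReal.tsum_add, ENNReal.tsum_mul_left, ENNReal.tsum_mul_right,
      Summable.tsum_finsetSum fun _ _ => ENNReal.summable, pow_succ']
    congr 1
    congr 1
    rw [reachIn, if_neg hM, ENNReal.ofReal_sum_of_nonneg
      fun s _ => mul_nonneg (hf0 s) (reachIn_bounds hf0 hf m _).1]
    refine Finset.sum_congr rfl fun s _ => ?_
    rw [ENNReal.tsum_mul_right, ENNReal.ofReal_mul (hf0 s), ENNReal.ofReal_toReal (hfin s)]
    rfl

/-- The transform is small when the mean length is infinite. -/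
lemma exists_lenGen_lt (hp : p ≠ 0) (hu : ∀ J, p ≤ u μ e J) (hL : meanLen μ e = ∞) (a : ℕ) :
    ∃ x : ℝ≥0∞, x ≤ 1 ∧ x ≠ 0 ∧ lenGen μ e x < x ^ a := by
  classical
  obtain ⟨F, hF⟩ : ∃ F : Finset (List (Step d)), (2 * (a : ℝ≥0∞) + 1) ≤
      ∑ γ ∈ F, if Irr e γ then cw μ γ * γ.length else 0 := by
    have h : (2 * (a : ℝ≥0∞) + 1) < meanLen μ e := by
      rw [hL]
      exact lt_top_iff_ne_top.2 (by
        simp [ENNReal.mul_eq_top])
    rw [meanLen, ENNReal.tsum_eq_iSup_sum, lt_iSup_iff] at h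
    exact h.imp fun _ h => h.le
  set N := F.sup List.length + a + 1
  set δ : ℝ := 1 / (2 * N)
  have hN : (1 : ℝ) ≤ N := by
    have : 1 ≤ N := by omega
    exact_mod_cast this
  have hδ : 0 < δ := by positivity
  have hN2 : (N : ℝ) * δ = 1 / 2 := by simp only [δ]; field_simp
  have hδ1 : δ ≤ 1 / 2 := by nlinarith
  have hbern : ∀ n : ℕ, 1 - n * δ ≤ (1 - δ) ^ n := fun n => by
    have := one_add_mul_le_pow (by linarith : (-2 : ℝ) ≤ -δ) n
    simpa [sub_eq_add_neg] using this
  have hlin : ∀ n : ℕ, (n : ℝ) * δ ≤ 1 → (1 - δ) ^ n + n * (δ / 2) ≤ 1 := by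
    intro n hn
    have h1 : (1 - δ) ^ n * (1 + n * δ) ≤ 1 := by
      have h2 := one_add_mul_le_pow (by linarith : (-2 : ℝ) ≤ δ) n
      calc (1 - δ) ^ n * (1 + n * δ) ≤ (1 - δ) ^ n * (1 + δ) ^ n :=
            mul_le_mul_of_nonneg_left h2 (pow_nonneg (by linarith) n)
        _ = (1 - δ ^ 2) ^ n := by rw [← mul_pow]; ring_nf
        _ ≤ 1 := pow_le_one₀ (by nlinarith) (by nlinarith)
    have h3 : 0 ≤ (n : ℝ) * δ := by positivity
    nlinarith [pow_nonneg (by linarith : (0 : ℝ) ≤ 1 - δ) n]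
  set x : ℝ≥0∞ := ENNReal.ofReal (1 - δ)
  have hx1 : x ≤ 1 := ENNReal.ofReal_le_one.2 (by linarith)
  refine ⟨x, hx1, (ENNReal.ofReal_pos.2 (by linarith)).ne', ?_⟩
  set G := lenGen μ e x
  set S := ∑ γ ∈ F, if Irr e γ then cw μ γ * γ.length else 0
  set c : ℝ≥0∞ := ENNReal.ofReal (δ / 2)
  have hone : ∑' γ, (if Irr e γ then cw μ γ else 0) = 1 := by
    rw [← tsum_hlaw hp hu]
    simp only [hlaw]
    rw [ENNReal.tsum_comm]
    refine tsum_congr fun γ => ?_
    rw [tsum_eq_single (hgt e γ) fun s hs => if_neg fun h => hs h.2.symm]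
    simp
  have hsum : G + c * S ≤ 1 := by
    have e1 : c * S = ∑' γ, if γ ∈ F then (if Irr e γ then cw μ γ * (c * γ.length) else 0) else 0 := by
      rw [tsum_eq_sum (s := F) (fun γ hγ => if_neg hγ), Finset.mul_sum]
      refine Finset.sum_congr rfl fun γ hγ => ?_
      rw [if_pos hγ]
      split_ifs <;> ring
    rw [← hone, e1]
    simp only [G, lenGen]
    rw [← ENNReal.tsum_add]
    refine ENNReal.tsum_le_tsum fun γ => ?_
    by_cases hI : Irr e γ
    · simp only [if_pos hI]
      split_ifs with hγ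
      · have hlen : (γ.length : ℝ) * δ ≤ 1 := by
          have : γ.length ≤ N := (Finset.le_sup (f := List.length) hγ).trans (by omega)
          have h4 : (γ.length : ℝ) ≤ N := by exact_mod_cast this
          nlinarith
        rw [← mul_add]
        refine mul_le_of_le_one_right zero_le ?_
        simp only [x, c]
        rw [← ENNReal.ofReal_pow (by linarith), ← ENNReal.ofReal_natCast γ.length,
          ← ENNReal.ofReal_mul (by positivity), ← ENNReal.ofReal_add
            (pow_nonneg (by linarith) _) (by positivity)]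
        refine ENNReal.ofReal_le_one.2 ?_
        linarith [hlin γ.length hlen]
      · rw [add_zero]
        exact mul_le_of_le_one_right zero_le (pow_le_one₀ zero_le hx1)
    · simp [hI]
  have hG : G ≠ ∞ := ((le_add_right le_rfl).trans hsum).trans_lt ENNReal.one_lt_top |>.ne
  have hsum' : G + ENNReal.ofReal (δ / 2 * (2 * a + 1)) ≤ 1 := by
    refine le_trans (add_le_add le_rfl ?_) hsum
    rw [ENNReal.ofReal_mul (by positivity), ENNReal.ofReal_add (by positivity) zero_le_one,
      ENNReal.ofReal_mul zero_le_two, ENNReal.ofReal_natCast, ENNReal.ofReal_ofNat,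
      ENNReal.ofReal_one]
    exact mul_le_mul_right hF _
  rw [← ENNReal.ofReal_toReal hG, ← ENNReal.ofReal_add ENNReal.toReal_nonneg (by positivity),
    ENNReal.ofReal_le_one] at hsum'
  rw [← ENNReal.ofReal_toReal hG]
  simp only [x]
  rw [← ENNReal.ofReal_pow (by linarith)]
  refine (ENNReal.ofReal_lt_ofReal_iff (pow_pos (by linarith) a)).2 ?_
  linarith [hbern a]

open Classical in
/-- If irreducible prefixes have infinite mean length then prefixes up to level `2^k` of length at
most `K * 2^k` have summable mass. -/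
theorem tsum_fast_ne_top (hp : p ≠ 0) (hu : ∀ J, p ≤ u μ e J) (hL : meanLen μ e = ∞) (K : ℕ) :
    ∑' k : ℕ, ∑' γ, (if Pre e (2 ^ k) γ ∧ γ.length ≤ K * 2 ^ k then cw μ γ else 0) ≠ ∞ := by
  change ∑' k : ℕ, fastMass μ e (2 ^ k) (K * 2 ^ k) ≠ ∞
  have h1 : ∑' s, hlaw μ e s = 1 := tsum_hlaw hp hu
  have hfin : ∀ s, hlaw μ e s ≠ ∞ := fun s =>
    ((ENNReal.le_tsum s).trans h1.le).trans_lt ENNReal.one_lt_top |>.ne
  set f : ℕ → ℝ := fun s => (hlaw μ e s).toReal
  have hf0 : ∀ s, 0 ≤ f s := fun s => ENNReal.toReal_nonneg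
  have hf : HasSum f 1 := by
    have := ENNReal.hasSum_toReal (f := fun s => hlaw μ e s) (by rw [h1]; exact ENNReal.one_ne_top)
    rwa [← ENNReal.tsum_toReal_eq hfin, h1, ENNReal.toReal_one] at this
  have hp' : p⁻¹ ≠ ∞ := ENNReal.inv_ne_top.2 hp
  set A := (p⁻¹).toReal
  have hA : ∀ L : ℕ, ∑' s, f s * (min s L : ℕ) ≤ A := by
    intro L
    have e1 : ∀ s, f s * ((min s L : ℕ) : ℝ) = ((min s L : ℕ) * hlaw μ e s : ℝ≥0∞).toReal := by
      intro s
      rw [ENNReal.toReal_mul, ENNReal.toReal_natCast, mul_comm]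
    simp only [e1]
    rw [← ENNReal.tsum_toReal_eq fun s => ENNReal.mul_ne_top (ENNReal.natCast_ne_top _) (hfin s)]
    refine ENNReal.toReal_mono hp' (le_trans ?_ (hlaw_mean hp hu))
    exact ENNReal.tsum_le_tsum fun s => mul_le_mul_left (by exact_mod_cast min_le_left s L) _
  obtain ⟨j, hj⟩ : ∃ j : ℕ, 2 * A ≤ 2 ^ j :=
    (pow_unbounded_of_one_lt (2 * A) one_lt_two).imp fun _ h => h.le
  set q := 2 ^ j with hq
  obtain ⟨x, hx1, hx0, hG⟩ := exists_lenGen_lt hp hu hL (K * q)
  have hxa : x ^ (K * q) ≠ 0 := pow_ne_zero _ hx0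
  have hxt : x ^ (K * q) ≠ ∞ :=
    ENNReal.pow_ne_top (ne_top_of_le_ne_top ENNReal.one_ne_top hx1)
  set ρ := lenGen μ e x / x ^ (K * q)
  have hρ : ρ < 1 := by
    rw [ENNReal.div_lt_iff (Or.inl hxa) (Or.inl hxt), one_mul]
    exact hG
  set φ : ℕ → ℕ → ℝ := fun k s =>
    (if 2 ^ k < s then ((2 ^ k : ℕ) : ℝ) else 0) + 4 * ((min s (2 ^ k) : ℕ) : ℝ) ^ 2 / (2 ^ k : ℕ)
  have hφ0 : ∀ k s, 0 ≤ φ k s := fun k s => by positivity
  have hbound : ∀ i, fastMass μ e (2 ^ (i + j)) (K * 2 ^ (i + j)) ≤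
      (∑' s, hlaw μ e s * ENNReal.ofReal (φ (i + j) s)) + ρ ^ i := by
    intro i
    set m := 2 ^ i with hm
    have hM : 2 ^ (i + j) = q * m := by rw [pow_add, hq, hm, mul_comm]
    have hLe : K * 2 ^ (i + j) = (K * q) * m := by rw [hM, mul_assoc]
    have h := pow_mul_fastMass_le hf hfin x hx1 m (2 ^ (i + j)) (K * 2 ^ (i + j))
    set xL := x ^ (K * 2 ^ (i + j)) with hxL
    have hxL0 : xL ≠ 0 := pow_ne_zero _ hx0
    have hxLt : xL ≠ ∞ := ENNReal.pow_ne_top (ne_top_of_le_ne_top ENNReal.one_ne_top hx1)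
    have e2 : lenGen μ e x ^ m = xL * ρ ^ m := by
      rw [hxL, hLe, pow_mul, ← mul_pow, ENNReal.mul_div_cancel hxa hxt]
    rw [e2, ← mul_add, ENNReal.mul_le_mul_iff_right hxL0 hxLt] at h
    refine h.trans (add_le_add ?_ ?_)
    · rw [hM]
      refine (ENNReal.ofReal_le_ofReal (reachIn_mul_le hf0 hf hA (Nat.two_pow_pos j)
        (by push_cast; exact hj) (Nat.two_pow_pos i))).trans ?_
      rw [ENNReal.ofReal_tsum_of_nonneg (fun s => mul_nonneg (hf0 s) (by positivity)) ?_]
      · refine le_of_eq (tsum_congr fun s => ?_)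
        rw [ENNReal.ofReal_mul (hf0 s), ENNReal.ofReal_toReal (hfin s)]
        have e4 : (2 : ℕ) ^ (i + j) = 2 ^ j * 2 ^ i := by rw [pow_add, mul_comm]
        simp only [φ, e4]
      · refine Summable.of_nonneg_of_le (fun s => mul_nonneg (hf0 s) (by positivity))
          (fun s => mul_le_mul_of_nonneg_left ?_ (hf0 s))
          (hf.summable.mul_right (((q * m : ℕ) : ℝ) +
            4 * ((q * m : ℕ) : ℝ) ^ 2 / ((q * m : ℕ) : ℝ)))
        refine add_le_add ?_ ?_
        · split_ifs
          · exact le_rfl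
          · positivity
        · refine div_le_div_of_nonneg_right (mul_le_mul_of_nonneg_left (pow_le_pow_left₀
            (Nat.cast_nonneg _) ?_ 2) (by norm_num)) (by positivity)
          exact_mod_cast min_le_right _ _
    · exact pow_le_pow_of_le_one zero_le hρ.le (Nat.lt_two_pow_self).le
  have hsum : ∑' k, ∑' s, hlaw μ e s * ENNReal.ofReal (φ k s) ≤ 20 * p⁻¹ := by
    rw [ENNReal.tsum_comm]
    calc ∑' s, ∑' k, hlaw μ e s * ENNReal.ofReal (φ k s)
        ≤ ∑' s : ℕ, 20 * ((s : ℝ≥0∞) * hlaw μ e s) := by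
          refine ENNReal.tsum_le_tsum fun s => ?_
          rw [ENNReal.tsum_mul_left, show (20 : ℝ≥0∞) * ((s : ℝ≥0∞) * hlaw μ e s) =
            hlaw μ e s * (20 * (s : ℝ≥0∞)) by ring]
          refine mul_le_mul_right ?_ _
          rw [ENNReal.tsum_eq_iSup_nat]
          refine iSup_le fun N => ?_
          rw [← ENNReal.ofReal_sum_of_nonneg fun k _ => hφ0 k s]
          refine (ENNReal.ofReal_le_ofReal (sum_dyadic_le s N)).trans (le_of_eq ?_)
          rw [ENNReal.ofReal_mul (by norm_num), ENNReal.ofReal_natCast, ENNReal.ofReal_ofNat]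
      _ ≤ 20 * p⁻¹ := by
          rw [ENNReal.tsum_mul_left]
          exact mul_le_mul_right (hlaw_mean hp hu) _
  rw [← (ENNReal.summable).sum_add_tsum_nat_add' (k := j)]
  refine ENNReal.add_ne_top.2 ⟨ENNReal.sum_ne_top.2 fun k _ =>
    ne_top_of_le_ne_top ENNReal.one_ne_top (fastMass_le_one _ _), ?_⟩
  refine ne_top_of_le_ne_top ?_ (ENNReal.tsum_le_tsum hbound)
  rw [ENNReal.tsum_add]
  refine ENNReal.add_ne_top.2 ⟨ne_top_of_le_ne_top (ENNReal.mul_ne_top (by simp) hp')
    (le_trans (ENNReal.tsum_comp_le_tsum_of_injective (add_left_injective j) _) hsum), ?_⟩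
  rw [ENNReal.tsum_geometric]
  exact ENNReal.inv_ne_top.2 (tsub_pos_of_lt hρ).ne'

end Vale.Agent.P147.Bal
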